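import Mathlib
import Crest.Prelude.Def_Tiling

/-!
# Row 46: the clause gadget (helper877)

`path_sum`, `cyc_sum` : the trace of a cyclic product of column-stochastic `2 × 2` matrices.
-/

set_option autoImplicit false

namespace Crest.Agent.R046.Clause

open Crest.CombinatoricsR.Tiling

section Trace

theorem path_sum : ∀ (m : ℕ) (M : Fin m → Bool → Bool → ℤ)
    (_ : ∀ i y, M i false y + M i true y = 1) (F : Bool → Bool → ℤ)
    (_ : ∀ x, F x false + F x true = 1),
    ∑ c : Fin (m + 1) → Bool, (∏ i : Fin m, M i (c i.castSucc) (c i.succ)) * F (c 0) (c (Fin.last m))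
      = 1 + (∏ i, (M i false false - M i false true)) * (F false false - F true false) := by
  intro m
  induction m with
  | zero =>
    intro M _ F hF
    have h : ∀ f : (Fin 1 → Bool) → ℤ, ∑ c : Fin 1 → Bool, f c = f (fun _ => false) + f (fun _ => true) := by
      intro f
      rw [← (Equiv.funUnique (Fin 1) Bool).symm.sum_comp]
      rw [Fintype.sum_bool, add_comm]
      rfl
    rw [h]
    have h1 := hF false
    have h2 := hF true
    simp only [Finset.univ_eq_empty, Finset.prod_empty, one_mul]
    linarith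
  | succ m ih =>
    intro M hM F hF
    have hF' : ∀ y, (∑ x, M 0 x y * F x false) + (∑ x, M 0 x y * F x true) = 1 := by
      intro y
      rw [Fintype.sum_bool, Fintype.sum_bool]
      have h1 := hF false
      have h2 := hF true
      have h3 := hM 0 y
      have e1 : F false true = 1 - F false false := by linarith
      have e2 : F true true = 1 - F true false := by linarith
      have e3 : M 0 true y = 1 - M 0 false y := by linarith
      rw [e1, e2, e3]; ring
    have hrec := ih (fun i => M i.succ) (fun i y => hM i.succ y)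
      (fun y z => ∑ x, M 0 x y * F x z) hF'
    rw [Fin.prod_univ_succ]
    have e : (∏ i : Fin m, (M i.succ false false - M i.succ false true)) *
        ((∑ x, M 0 x false * F x false) - (∑ x, M 0 x true * F x false)) =
        (M 0 false false - M 0 false true) * (∏ i : Fin m, (M i.succ false false - M i.succ false true)) *
          (F false false - F true false) := by
      rw [Fintype.sum_bool, Fintype.sum_bool]
      have h3 := hM 0 false
      have h4 := hM 0 true
      have e3 : M 0 true false = 1 - M 0 false false := by linarith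
      have e4 : M 0 true true = 1 - M 0 false true := by linarith
      rw [e3, e4]; ring
    rw [← e, ← hrec, ← (Fin.consEquiv (fun _ : Fin (m + 2) => Bool)).sum_comp, Fintype.sum_prod_type,
      Finset.sum_comm]
    refine Finset.sum_congr rfl fun c _ => ?_
    rw [Finset.mul_sum]
    refine Finset.sum_congr rfl fun x _ => ?_
    simp only [Fin.consEquiv, Equiv.coe_fn_mk]
    rw [Fin.prod_univ_succ]
    simp only [Fin.castSucc_zero, Fin.cons_zero, Fin.cons_succ, ← Fin.succ_castSucc, ← Fin.succ_last]
    ring

/-- cyclic version -/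
theorem cyc_sum (n : ℕ) [NeZero n] (M : Fin n → Bool → Bool → ℤ)
    (hM : ∀ i y, M i false y + M i true y = 1) :
    ∑ c : Fin n → Bool, ∏ i, M i (c i) (c (i + 1)) = 1 + ∏ i, (M i false false - M i false true) := by
  obtain ⟨m, rfl⟩ : ∃ m, n = m + 1 := ⟨n - 1, (Nat.succ_pred_eq_of_ne_zero (NeZero.ne n)).symm⟩
  have h := path_sum m (fun i => M i.castSucc) (fun i y => hM _ y)
    (fun x z => M (Fin.last m) z x) (fun x => hM _ x)
  rw [Fin.prod_univ_castSucc]
  rw [← h]
  refine Finset.sum_congr rfl fun c _ => ?_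
  rw [Fin.prod_univ_castSucc]
  congr 1
  · refine Finset.prod_congr rfl fun i _ => ?_
    rw [Fin.coeSucc_eq_succ]
  · rw [Fin.last_add_one]

end Trace

section Cov

variable {G : Type*} [AddCommGroup G]

open Classical in
/-- number of ways to write `x = a + f`, `f ∈ F`, `a ∈ A`. -/
noncomputable def cov (F : Finset G) (A : Set G) (x : G) : ℕ :=
  (F.filter (fun f => x - f ∈ A)).card

theorem isTilingBy_iff_cov (F : Finset G) (A : Set G) :
    IsTilingBy F A ↔ ∀ x, cov F A x = 1 := by
  classical
  refine forall_congr' fun x => ?_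
  unfold cov
  rw [Finset.card_eq_one]
  constructor
  · rintro ⟨⟨a, f⟩, ⟨ha, hf, rfl⟩, hu⟩
    refine ⟨f, ?_⟩
    ext g
    rw [Finset.mem_filter, Finset.mem_singleton]
    constructor
    · rintro ⟨hg, hg'⟩
      have := hu (a + f - g, g) ⟨hg', hg, by simp⟩
      exact congrArg Prod.snd this
    · rintro rfl
      exact ⟨hf, by simpa using ha⟩
  · rintro ⟨f, hf⟩
    have h1 : f ∈ F ∧ x - f ∈ A := by
      have : f ∈ F.filter (fun f => x - f ∈ A) := by rw [hf]; exact Finset.mem_singleton_self f
      simpa using this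
    refine ⟨(x - f, f), ⟨h1.2, h1.1, by simp⟩, ?_⟩
    rintro ⟨a, g⟩ ⟨ha, hg, hag⟩
    simp only at ha hg hag
    have h2 : g ∈ F.filter (fun f => x - f ∈ A) := by
      rw [Finset.mem_filter]
      refine ⟨hg, ?_⟩
      rw [← hag]; simpa using ha
    rw [hf, Finset.mem_singleton] at h2
    subst h2
    rw [← hag]; simp

theorem cov_empty (A : Set G) (x : G) : cov ∅ A x = 0 := by
  classical simp [cov]

theorem cov_biUnion [DecidableEq G] {ι : Type*} (S : Finset ι) (F : ι → Finset G)
    (hd : (S : Set ι).PairwiseDisjoint F) (A : Set G) (x : G) :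
    cov (S.biUnion F) A x = ∑ i ∈ S, cov (F i) A x := by
  classical
  unfold cov
  rw [Finset.filter_biUnion, Finset.card_biUnion]
  intro i hi j hj hij
  exact Finset.disjoint_filter_filter (hd hi hj hij)

theorem cov_union [DecidableEq G] (F F' : Finset G) (hd : Disjoint F F') (A : Set G) (x : G) :
    cov (F ∪ F') A x = cov F A x + cov F' A x := by
  classical
  unfold cov
  rw [Finset.filter_union, Finset.card_union_of_disjoint]
  exact Finset.disjoint_filter_filter hd

theorem cov_image_add [DecidableEq G] (F : Finset G) (s : G) (A : Set G) (x : G) :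
    cov (F.image (fun f => f + s)) A x = cov F A (x - s) := by
  classical
  unfold cov
  rw [Finset.filter_image, Finset.card_image_of_injective _ (add_left_injective s)]
  congr 1
  refine Finset.filter_congr fun f _ => ?_
  rw [show x - (f + s) = x - s - f by abel]

theorem cov_pi {n : ℕ} {H : Fin n → Type*} [∀ i, AddCommGroup (H i)] (F : ∀ i, Finset (H i))
    (A : ∀ i, Set (H i)) (x : ∀ i, H i) :
    cov (Fintype.piFinset F) (Set.univ.pi A) x = ∏ i, cov (F i) (A i) (x i) := by
  classical
  unfold cov
  rw [← Fintype.card_piFinset]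
  congr 1
  ext f
  simp only [Finset.mem_filter, Fintype.mem_piFinset, Set.mem_univ_pi, Pi.sub_apply]
  constructor
  · rintro ⟨h1, h2⟩ i
    exact ⟨h1 i, h2 i⟩
  · intro h
    exact ⟨fun i => (h i).1, fun i => (h i).2⟩

end Cov

section Clause

variable {n : ℕ} [NeZero n] {H : Fin n → Type*} [∀ i, AddCommGroup (H i)]
  [∀ i, DecidableEq (H i)]

/-- the clause tile with transfer sets `V i c c'` -/
def clauseTile (V : ∀ i : Fin n, Bool → Bool → Finset (H i)) : Finset (∀ i, H i) :=
  (Finset.univ : Finset (Fin n → Bool)).biUnion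
    (fun c => Fintype.piFinset (fun i => V i (c i) (c (i + 1))))

theorem clause_cov (V : ∀ i : Fin n, Bool → Bool → Finset (H i)) (A : ∀ i, Set (H i))
    (x : ∀ i, H i)
    (hcol : ∀ i y, cov (V i false y) (A i) (x i) + cov (V i true y) (A i) (x i) = 1)
    (hd : ∀ c c' : Fin n → Bool, c ≠ c' → Disjoint
      (Fintype.piFinset (fun i => V i (c i) (c (i + 1))))
      (Fintype.piFinset (fun i => V i (c' i) (c' (i + 1))))) :
    (cov (clauseTile V) (Set.univ.pi A) x : ℤ) =
      1 + ∏ i, ((cov (V i false false) (A i) (x i) : ℤ) - cov (V i false true) (A i) (x i)) := by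
  unfold clauseTile
  rw [cov_biUnion _ _ (fun c _ c' _ h => hd c c' h)]
  push_cast
  rw [← cyc_sum n (fun i c y => (cov (V i c y) (A i) (x i) : ℤ))
    (fun i y => by exact_mod_cast hcol i y)]
  refine Finset.sum_congr rfl fun c _ => ?_
  rw [cov_pi]
  push_cast
  rfl

/-- the concrete transfer sets: `W i ⊆ T i`, shift `s i` for the components in `J`,
the full fibre tile `T i` for the others -/
def trans (T W : ∀ i, Finset (H i)) (s : ∀ i, H i) (J : Finset (Fin n)) :
    ∀ i : Fin n, Bool → Bool → Finset (H i) := fun i c y =>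
  if i ∈ J then
    ((if c then T i \ W i else W i).image (fun f => f + (if y then s i else 0)))
  else if c = y then T i else ∅


omit [NeZero n] in
theorem trans_col (T W : ∀ i, Finset (H i)) (s : ∀ i, H i) (J : Finset (Fin n))
    (hW : ∀ i ∈ J, W i ⊆ T i) (A : ∀ i, Set (H i)) (hA : ∀ i, IsTilingBy (T i) (A i))
    (i : Fin n) (y : Bool) (h : H i) :
    cov (trans T W s J i false y) (A i) h + cov (trans T W s J i true y) (A i) h = 1 := by
  by_cases hi : i ∈ J
  · simp only [trans, if_pos hi]
    rw [cov_image_add, cov_image_add]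
    simp only [Bool.false_eq_true, if_false, if_true]
    rw [← cov_union _ _ Finset.disjoint_sdiff, Finset.union_sdiff_of_subset (hW i hi)]
    exact (isTilingBy_iff_cov _ _).1 (hA i) _
  · simp only [trans, if_neg hi]
    cases y
    · simp only [if_true, Bool.true_eq_false, if_false, cov_empty, add_zero]
      exact (isTilingBy_iff_cov _ _).1 (hA i) _
    · simp only [if_true, Bool.false_eq_true, if_false, cov_empty, zero_add]
      exact (isTilingBy_iff_cov _ _).1 (hA i) _

open Fin.NatCast Fin.CommRing in
theorem fin_cyc_induction {n : ℕ} [NeZero n] (P : Fin n → Prop) {i0 : Fin n} (h0 : P i0)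
    (step : ∀ i, P i → P (i + 1)) (i : Fin n) : P i := by
  have hall : ∀ k : ℕ, P (i0 + (k : Fin n)) := by
    intro k
    induction k with
    | zero => simpa using h0
    | succ k ih =>
      have := step _ ih
      rw [Nat.cast_succ, ← add_assoc]
      exact this
  have := hall (i - i0 : Fin n).val
  rwa [Fin.cast_val_eq_self, add_sub_cancel] at this

theorem trans_disj (T W : ∀ i, Finset (H i)) (s : ∀ i, H i) (J : Finset (Fin n))
    (hJ : J.Nonempty) (hW : ∀ i ∈ J, W i ⊆ T i)
    (hs : ∀ i ∈ J, ∀ f ∈ T i, ∀ g ∈ T i, f ≠ g + s i)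
    (c c' : Fin n → Bool) (hc : c ≠ c') : Disjoint
      (Fintype.piFinset (fun i => trans T W s J i (c i) (c (i + 1))))
      (Fintype.piFinset (fun i => trans T W s J i (c' i) (c' (i + 1)))) := by
  rw [Finset.disjoint_left]
  intro f hf hf'
  rw [Fintype.mem_piFinset] at hf hf'
  apply hc
  -- on `J` we recover `c i` and `c (i+1)`
  have key : ∀ i ∈ J, c i = c' i ∧ c (i + 1) = c' (i + 1) := by
    intro i hi
    have h1 := hf i
    have h2 := hf' i
    simp only [trans, if_pos hi, Finset.mem_image] at h1 h2
    obtain ⟨g, hg, hgf⟩ := h1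
    obtain ⟨g', hg', hgf'⟩ := h2
    have hgT : g ∈ T i := by
      split_ifs at hg with h
      · exact (Finset.mem_sdiff.1 hg).1
      · exact hW i hi hg
    have hgT' : g' ∈ T i := by
      split_ifs at hg' with h
      · exact (Finset.mem_sdiff.1 hg').1
      · exact hW i hi hg'
    have e : g + (if c (i + 1) = true then s i else 0) = g' + (if c' (i + 1) = true then s i else 0) :=
      hgf.trans hgf'.symm
    have hy : c (i + 1) = c' (i + 1) := by
      by_contra hne
      cases h3 : c (i + 1) <;> cases h4 : c' (i + 1)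
      · rw [h3, h4] at hne; exact hne rfl
      · rw [h3, h4] at e
        simp only [Bool.false_eq_true, if_false, if_true, add_zero] at e
        exact hs i hi g hgT g' hgT' e
      · rw [h3, h4] at e
        simp only [Bool.false_eq_true, if_false, if_true, add_zero] at e
        exact hs i hi g' hgT' g hgT e.symm
      · rw [h3, h4] at hne; exact hne rfl
    refine ⟨?_, hy⟩
    rw [hy] at e
    have eg : g = g' := add_right_cancel e
    subst eg
    by_contra hne
    cases h3 : c i <;> cases h4 : c' i
    · rw [h3, h4] at hne; exact hne rfl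
    · rw [h3] at hg
      rw [h4] at hg'
      simp only [Bool.false_eq_true, if_false, if_true] at hg hg'
      exact (Finset.mem_sdiff.1 hg').2 hg
    · rw [h3] at hg
      rw [h4] at hg'
      simp only [Bool.false_eq_true, if_false, if_true] at hg hg'
      exact (Finset.mem_sdiff.1 hg).2 hg'
    · rw [h3, h4] at hne; exact hne rfl
  -- off `J` the values `c i = c (i+1)`
  have key2 : ∀ i, i ∉ J → c i = c (i + 1) ∧ c' i = c' (i + 1) := by
    intro i hi
    have h1 := hf i
    have h2 := hf' i
    simp only [trans, if_neg hi] at h1 h2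
    constructor
    · by_contra h; rw [if_neg h] at h1; simp at h1
    · by_contra h; rw [if_neg h] at h2; simp at h2
  -- the set of `i` with `c i = c' i` is closed under successor
  have step : ∀ i, c i = c' i → c (i + 1) = c' (i + 1) := by
    intro i hi
    by_cases hJi : i ∈ J
    · exact (key i hJi).2
    · rw [← (key2 i hJi).1, ← (key2 i hJi).2, hi]
  obtain ⟨i0, hi0⟩ := hJ
  exact funext (fin_cyc_induction (fun i => c i = c' i) (key i0 hi0).1 step)

/-- **the clause gadget**: on a product slice the clause tile covers exactly once iff not all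
components in `J` are bad. -/
theorem clause_iff (T W : ∀ i, Finset (H i)) (s : ∀ i, H i) (J : Finset (Fin n))
    (hJ : J.Nonempty) (hW : ∀ i ∈ J, W i ⊆ T i)
    (hs : ∀ i ∈ J, ∀ f ∈ T i, ∀ g ∈ T i, f ≠ g + s i)
    (A : ∀ i, Set (H i)) (hA : ∀ i, IsTilingBy (T i) (A i)) :
    IsTilingBy (clauseTile (trans T W s J)) (Set.univ.pi A) ↔
      ∃ i ∈ J, ∀ h, cov (W i) (A i) h = cov (W i) (A i) (h - s i) := by
  have hcov : ∀ x, (cov (clauseTile (trans T W s J)) (Set.univ.pi A) x : ℤ) =
      1 + ∏ i, (if i ∈ J then ((cov (W i) (A i) (x i) : ℤ) - cov (W i) (A i) (x i - s i)) else 1) := by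
    intro x
    rw [clause_cov (trans T W s J) A x (fun i y => trans_col T W s J hW A hA i y (x i))
      (fun c c' hc => trans_disj T W s J hJ hW hs c c' hc)]
    congr 1
    refine Finset.prod_congr rfl fun i _ => ?_
    by_cases hi : i ∈ J
    · simp only [trans, if_pos hi]
      rw [cov_image_add, cov_image_add]
      simp
    · simp only [trans, if_neg hi]
      simp only [if_true, Bool.false_eq_true, if_false, cov_empty]
      rw [(isTilingBy_iff_cov _ _).1 (hA i) (x i)]
      simp
  rw [isTilingBy_iff_cov]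
  constructor
  · intro h
    by_contra hcon
    push Not at hcon
    choose! y hy using hcon
    have h1 := hcov y
    rw [h y] at h1
    have h2 : ∏ i, (if i ∈ J then ((cov (W i) (A i) (y i) : ℤ) - cov (W i) (A i) (y i - s i))
        else 1) = 0 := by
      have : ((1 : ℕ) : ℤ) = 1 := rfl
      rw [this] at h1
      linarith
    rw [Finset.prod_eq_zero_iff] at h2
    obtain ⟨i, -, hi⟩ := h2
    by_cases hiJ : i ∈ J
    · rw [if_pos hiJ, sub_eq_zero] at hi
      exact hy i hiJ (by exact_mod_cast hi)
    · rw [if_neg hiJ] at hi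
      exact one_ne_zero hi
  · rintro ⟨i, hiJ, hi⟩ x
    have h1 := hcov x
    rw [Finset.prod_eq_zero (Finset.mem_univ i)] at h1
    · exact_mod_cast h1
    · rw [if_pos hiJ, hi (x i), sub_self]

/-! ### The clause gadget on `ℤ × ℤ × ∀ i, H i` -/

/-- the slice over `(x, y)` -/
def slice {H : Type*} (A : Set (ℤ × ℤ × H)) (x y : ℤ) : Set H := {h | (x, y, h) ∈ A}

/-- fibrewise product of sets -/
def fprod {n : ℕ} {H : Fin n → Type*} (A : ∀ i, Set (ℤ × ℤ × H i)) : Set (ℤ × ℤ × ∀ i, H i) :=
  {p | ∀ i, (p.1, p.2.1, p.2.2 i) ∈ A i}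

/-- a tile inside the fibre over `(0,0)` -/
def fibTile {H : Type*} [DecidableEq H] (F : Finset H) : Finset (ℤ × ℤ × H) :=
  F.image (fun h => (0, 0, h))

theorem isTilingBy_fibTile {H : Type*} [AddCommGroup H] [DecidableEq H] (F : Finset H)
    (A : Set (ℤ × ℤ × H)) :
    IsTilingBy (fibTile F) A ↔ ∀ x y, IsTilingBy F (slice A x y) := by
  have hcov : ∀ x y h, cov (fibTile F) A (x, y, h) = cov F (slice A x y) h := by
    intro x y h
    classical
    unfold cov fibTile
    rw [Finset.filter_image, Finset.card_image_of_injective _ (by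
      intro a b hab
      simpa using hab)]
    congr 1
    refine Finset.filter_congr fun f _ => ?_
    simp [slice]
  rw [isTilingBy_iff_cov]
  constructor
  · intro h x y
    rw [isTilingBy_iff_cov]
    intro f
    rw [← hcov]
    exact h _
  · rintro h ⟨x, y, f⟩
    rw [hcov]
    exact (isTilingBy_iff_cov _ _).1 (h x y) f



end Clause

section Label

variable {H L : Type*} [AddCommGroup H] [AddCommGroup L]

/-- For a set `S` meeting every coset of the finite subgroup `T` exactly once: the part
`W = {f ∈ T : ℓ f = 0}` covers `h` iff the point of `S` in the coset of `h` has label `ℓ h`. -/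
theorem cov_label (T : Finset H)
    (W : Finset H) (ℓ : H →+ L) (hW : ∀ f, f ∈ W ↔ f ∈ T ∧ ℓ f = 0)
    (S : Set H) (hS : IsTilingBy T S) (h a : H) (ha : a ∈ S) (hah : h - a ∈ T) [Decidable (ℓ a = ℓ h)] :
    cov W S h = if ℓ a = ℓ h then 1 else 0 := by
  classical
  obtain ⟨q, -, hu⟩ := hS h
  have huniq : ∀ f ∈ T, h - f ∈ S → f = h - a := by
    intro f hf hfS
    have h1 := hu (h - f, f) ⟨hfS, hf, by simp⟩
    have h2 := hu (a, h - a) ⟨ha, hah, by simp⟩
    have h3 := h1.trans h2.symm
    exact congrArg Prod.snd h3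
  unfold cov
  by_cases hl : ℓ a = ℓ h
  · rw [if_pos hl, Finset.card_eq_one]
    refine ⟨h - a, ?_⟩
    ext f
    rw [Finset.mem_filter, Finset.mem_singleton, hW]
    constructor
    · rintro ⟨⟨h1, -⟩, h2⟩
      exact huniq f h1 h2
    · rintro rfl
      refine ⟨⟨hah, ?_⟩, by simpa using ha⟩
      rw [map_sub, hl, sub_self]
  · rw [if_neg hl, Finset.card_eq_zero]
    ext f
    simp only [Finset.mem_filter, Finset.notMem_empty, iff_false]
    rintro ⟨h1, h2⟩
    rw [hW] at h1
    have := huniq f h1.1 h2
    subst this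
    apply hl
    have h3 := h1.2
    rw [map_sub, sub_eq_zero] at h3
    exact h3.symm

theorem exists_rep (T : Finset H) (S : Set H) (hS : IsTilingBy T S) (h : H) :
    ∃ a ∈ S, h - a ∈ T := by
  obtain ⟨⟨a, f⟩, ⟨h1, h2, h3⟩, -⟩ := hS h
  simp only at h1 h2 h3
  refine ⟨a, h1, ?_⟩
  rw [← h3]; simpa using h2

/-- the slice `S` is "good" for the label `ℓ` iff all its labels are equal. -/
theorem good_iff (T : Finset H) (hT0 : (0 : H) ∈ T) (hTadd : ∀ a ∈ T, ∀ b ∈ T, a - b ∈ T)
    (W : Finset H) (ℓ : H →+ L) (hW : ∀ f, f ∈ W ↔ f ∈ T ∧ ℓ f = 0)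
    (s : H) (hs : ℓ s = 0) (hgen : ∀ h : H, ∃ k : ℤ, h - k • s ∈ T)
    (hsurj : ∀ l : L, ∃ t ∈ T, ℓ t = l)
    (S : Set H) (hS : IsTilingBy T S) :
    (∀ h, cov W S h = cov W S (h - s)) ↔ ∀ a ∈ S, ∀ b ∈ S, ℓ a = ℓ b := by
  classical
  constructor
  · intro h
    -- one step: neighbouring roles have the same label
    have hstep : ∀ a ∈ S, ∀ b ∈ S, a - b - s ∈ T → ℓ a = ℓ b := by
      intro a ha b hb hab
      obtain ⟨t, ht, hta⟩ := hsurj 0
      have h1 := h a
      rw [cov_label T W ℓ hW S hS a a ha (by simpa using hT0), if_pos rfl,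
        cov_label T W ℓ hW S hS (a - s) b hb (by
          rw [show a - s - b = a - b - s by abel]; exact hab)] at h1
      by_contra hne
      rw [if_neg] at h1
      · exact one_ne_zero h1
      · rw [map_sub, hs, sub_zero]
        exact fun h => hne h.symm
    -- iterate
    have hiter : ∀ k : ℕ, ∀ a ∈ S, ∀ b ∈ S, a - b - (k : ℤ) • s ∈ T → ℓ a = ℓ b := by
      intro k
      induction k with
      | zero =>
        intro a ha b hb hab
        simp only [Nat.cast_zero, zero_smul, sub_zero] at hab
        obtain ⟨q, -, hu⟩ := hS a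
        have h1 := hu (b, a - b) ⟨hb, hab, by simp⟩
        have h2 := hu (a, 0) ⟨ha, hT0, by simp⟩
        have h3 := congrArg Prod.fst (h1.trans h2.symm)
        simp only at h3
        rw [h3]
      | succ k ih =>
        intro a ha b hb hab
        obtain ⟨c, hc, hc'⟩ := exists_rep T S hS (a - s)
        have h1 : ℓ a = ℓ c := hstep a ha c hc (by
          rw [show a - c - s = a - s - c by abel]; exact hc')
        have h2 : ℓ c = ℓ b := by
          apply ih c hc b hb
          have h3 := hTadd _ hab _ hc'
          have e : a - b - ((k + 1 : ℕ) : ℤ) • s - (a - s - c) = c - b - (k : ℤ) • s := by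
            push_cast
            rw [add_smul, one_smul]; abel
          rwa [e] at h3
        rw [h1, h2]
    intro a ha b hb
    obtain ⟨k, hk⟩ := hgen (a - b)
    rcases Int.le_total 0 k with hk0 | hk0
    · obtain ⟨m, rfl⟩ := Int.eq_ofNat_of_zero_le hk0
      exact hiter m a ha b hb hk
    · obtain ⟨m, hm⟩ := Int.eq_ofNat_of_zero_le (neg_nonneg.2 hk0)
      have hk' : k = -(m : ℤ) := by rw [← hm]; ring
      subst hk'
      refine (hiter m b hb a ha ?_).symm
      have h3 := hTadd _ hT0 _ hk
      have e : (0 : H) - (a - b - (-(m : ℤ)) • s) = b - a - (m : ℤ) • s := by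
        rw [neg_smul]; abel
      rwa [e] at h3
  · intro h x
    obtain ⟨a, ha, hax⟩ := exists_rep T S hS x
    obtain ⟨b, hb, hbx⟩ := exists_rep T S hS (x - s)
    rw [cov_label T W ℓ hW S hS x a ha hax,
      cov_label T W ℓ hW S hS (x - s) b hb hbx, map_sub, hs, sub_zero, h a ha b hb]

end Label

section Final

variable {n : ℕ} [NeZero n] {H L : Fin n → Type*} [∀ i, AddCommGroup (H i)]
  [∀ i, AddCommGroup (L i)] [∀ i, DecidableEq (H i)]


end Final

end Crest.Agent.R046.Clause
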