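import Crest.Prelude.Def_Tiling
import Mathlib
import Crest.Agent.R046.Clause
import Crest.Agent.R046.CompCore

-- ▼ part R046/Merge
section

set_option autoImplicit false

/-! Row 46: merging a finite system of tile equations in `ℤ³` into one tile. -/

namespace Crest.Agent.R046

open Crest.CombinatoricsR.Tiling

/-- the group `ℤ³`. -/
abbrev Z3 := Fin 3 → ℤ

/-! ### The pieces of the cube -/

/-- the box around the `i`-th bubble -/
def inBox (i : ℕ) (u : Z3) : Prop :=
  1 ≤ u 0 ∧ u 0 ≤ i + 3 ∧ 4 * (i : ℤ) + 1 ≤ u 1 ∧ u 1 ≤ 4 * i + 3 ∧ 1 ≤ u 2 ∧ u 2 ≤ 3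

/-- the `i`-th bubble -/
def inBub (i : ℕ) (u : Z3) : Prop :=
  2 ≤ u 0 ∧ u 0 ≤ i + 2 ∧ u 1 = 4 * (i : ℤ) + 2 ∧ u 2 = 2

/-- the `i`-th cage -/
def inCage (i : ℕ) (u : Z3) : Prop := inBox i u ∧ ¬ inBub i u

/-- scale of the cube -/
def MM (K : ℕ) : ℤ := 4 * K + 8

/-- the big piece -/
def inC0 (K : ℕ) (u : Z3) : Prop :=
  (∀ j, 0 ≤ u j ∧ u j < MM K) ∧ ∀ i < K, ¬ inCage i u

instance (i : ℕ) (u : Z3) : Decidable (inBox i u) := by unfold inBox; infer_instance
instance (i : ℕ) (u : Z3) : Decidable (inBub i u) := by unfold inBub; infer_instance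
instance (i : ℕ) (u : Z3) : Decidable (inCage i u) := by unfold inCage; infer_instance

/-- the piece of type `ty` (`none` = the big piece). -/
def piece (K : ℕ) : Option (Fin K) → Z3 → Prop
  | none => inC0 K
  | some i => inCage i

theorem inCage_bounds {K i : ℕ} (hi : i < K) {u : Z3} (h : inCage i u) :
    ∀ j, 1 ≤ u j ∧ u j < MM K - 1 := by
  obtain ⟨⟨h1, h2, h3, h4, h5, h6⟩, -⟩ := h
  have hK : (i : ℤ) + 1 ≤ K := by exact_mod_cast hi
  intro j
  fin_cases j <;> simp only [MM, Fin.zero_eta, Fin.mk_one, Fin.reduceFinMk, Fin.isValue] <;> constructor <;> linarith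

theorem inCage_disjoint {i j : ℕ} {u : Z3} (hi : inCage i u) (hj : inCage j u) : i = j := by
  obtain ⟨⟨-, -, h3, h4, -, -⟩, -⟩ := hi
  obtain ⟨⟨-, -, g3, g4, -, -⟩, -⟩ := hj
  omega

theorem piece_bounds {K : ℕ} {ty : Option (Fin K)} {u : Z3} (h : piece K ty u) :
    ∀ j, 0 ≤ u j ∧ u j < MM K := by
  cases ty with
  | none => exact h.1
  | some i =>
    intro j
    have := inCage_bounds i.2 h j
    constructor <;> linarith [this.1, this.2]

/-- the type of a point is unique -/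
theorem piece_unique {K : ℕ} {ty ty' : Option (Fin K)} {u : Z3} (h : piece K ty u)
    (h' : piece K ty' u) : ty = ty' := by
  cases ty with
  | none =>
    cases ty' with
    | none => rfl
    | some i => exact absurd h' (h.2 i i.2)
  | some i =>
    cases ty' with
    | none => exact absurd h (h'.2 i i.2)
    | some j => exact congrArg some (Fin.ext (inCage_disjoint h h'))

theorem piece_exists (K : ℕ) {u : Z3} (hu : ∀ j, 0 ≤ u j ∧ u j < MM K) :
    ∃ ty, piece K ty u := by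
  by_cases h : ∃ i < K, inCage i u
  · obtain ⟨i, hi, h⟩ := h
    exact ⟨some ⟨i, hi⟩, h⟩
  · push Not at h
    exact ⟨none, hu, h⟩

/-! ### The merged tile -/

section tile

variable {K : ℕ} (F0 : Finset Z3) (G : Fin K → Finset Z3)

/-- the tile of the system that belongs to a type -/
def tileOf : Option (Fin K) → Finset Z3
  | none => F0
  | some i => G i

/-- coordinatewise remainder -/
def rem3 (M : ℤ) (w : Z3) : Z3 := fun j => w j % M
/-- coordinatewise quotient -/
def quo3 (M : ℤ) (w : Z3) : Z3 := fun j => w j / M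

theorem MM_pos (K : ℕ) : 0 < MM K := by unfold MM; positivity

theorem rem3_bounds {M : ℤ} (hM : 0 < M) (w : Z3) : ∀ j, 0 ≤ rem3 M w j ∧ rem3 M w j < M :=
  fun _ => ⟨Int.emod_nonneg _ hM.ne', Int.emod_lt_of_pos _ hM⟩

theorem rem3_add_quo3 (M : ℤ) (w : Z3) : rem3 M w + M • quo3 M w = w := by
  funext j
  simp only [rem3, quo3, Pi.add_apply, Pi.smul_apply, smul_eq_mul]
  exact Int.emod_add_mul_ediv (w j) M

theorem rem3_of {M : ℤ} (r v : Z3) (hr : ∀ j, 0 ≤ r j ∧ r j < M) :
    rem3 M (r + M • v) = r := by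
  funext j
  simp only [rem3, Pi.add_apply, Pi.smul_apply, smul_eq_mul]
  rw [Int.add_mul_emod_self_left]
  exact Int.emod_eq_of_lt (hr j).1 (hr j).2

theorem quo3_of {M : ℤ} (r v : Z3) (hr : ∀ j, 0 ≤ r j ∧ r j < M) :
    quo3 M (r + M • v) = v := by
  funext j
  have hM : 0 < M := lt_of_le_of_lt (hr j).1 (hr j).2
  simp only [quo3, Pi.add_apply, Pi.smul_apply, smul_eq_mul]
  rw [Int.add_mul_ediv_left _ _ hM.ne']
  rw [Int.ediv_eq_zero_of_lt (hr j).1 (hr j).2, zero_add]

open Classical in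
/-- The merged tile. -/
noncomputable def mergedTile : Finset Z3 :=
  (((Finset.Icc (fun _ => (0 : ℤ)) (fun _ => MM K - 1) : Finset Z3) ×ˢ
      ((Finset.univ : Finset (Option (Fin K))).biUnion (tileOf F0 G))).filter
    (fun p => ∃ ty, piece K ty p.1 ∧ p.2 ∈ tileOf F0 G ty)).image
    (fun p => p.1 + MM K • p.2)

theorem mem_mergedTile_iff {w : Z3} :
    w ∈ mergedTile F0 G ↔ ∃ ty r f, piece K ty r ∧ f ∈ tileOf F0 G ty ∧ w = r + MM K • f := by
  classical
  unfold mergedTile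
  simp only [Finset.mem_image, Finset.mem_filter, Finset.mem_product, Finset.mem_biUnion,
    Finset.mem_univ, true_and, Finset.mem_Icc, Prod.exists]
  constructor
  · rintro ⟨r, f, ⟨-, ty, h1, h2⟩, rfl⟩
    exact ⟨ty, r, f, h1, h2, rfl⟩
  · rintro ⟨ty, r, f, h1, h2, rfl⟩
    refine ⟨r, f, ⟨⟨⟨fun j => (piece_bounds h1 j).1, fun j => ?_⟩, ty, h2⟩, ty, h1, h2⟩, rfl⟩
    have := (piece_bounds h1 j).2
    show r j ≤ MM K - 1
    omega

theorem mem_mergedTile_of {ty : Option (Fin K)} {r f : Z3} (hr : piece K ty r) :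
    r + MM K • f ∈ mergedTile F0 G ↔ f ∈ tileOf F0 G ty := by
  rw [mem_mergedTile_iff]
  constructor
  · rintro ⟨ty', r', f', h1, h2, h3⟩
    have e1 := rem3_of (M := MM K) r f (piece_bounds hr)
    have e2 := rem3_of (M := MM K) r' f' (piece_bounds h1)
    have e3 := quo3_of (M := MM K) r f (piece_bounds hr)
    have e4 := quo3_of (M := MM K) r' f' (piece_bounds h1)
    rw [h3] at e1 e3
    rw [e2] at e1
    rw [e4] at e3
    subst e1 e3
    rw [piece_unique hr h1]
    exact h2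
  · intro h
    exact ⟨ty, r, f, hr, h, rfl⟩

/-! ### Existence of tilings -/

/-- the scaled tiling set -/
def scaled (M : ℤ) (A : Set Z3) : Set Z3 := {x | ∃ a ∈ A, x = M • a}

theorem smul_inj {M : ℤ} (hM : 0 < M) {a b : Z3} (h : M • a = M • b) : a = b := by
  funext j
  have := congrFun h j
  simp only [Pi.smul_apply, smul_eq_mul] at this
  exact mul_left_cancel₀ hM.ne' this

theorem isTilingBy_scaled {A : Set Z3} (h0 : IsTilingBy F0 A) (hG : ∀ i, IsTilingBy (G i) A) :
    IsTilingBy (mergedTile F0 G) (scaled (MM K) A) := by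
  have hty : ∀ ty, IsTilingBy (tileOf F0 G ty) A := by
    intro ty; cases ty with
    | none => exact h0
    | some i => exact hG i
  intro w
  set M := MM K with hMdef
  have hM : 0 < M := MM_pos K
  obtain ⟨ty, hr⟩ := piece_exists K (rem3_bounds hM w)
  obtain ⟨⟨a, f⟩, ⟨ha, hf, haf⟩, huniq⟩ := hty ty (quo3 M w)
  simp only at ha hf haf
  refine ⟨(M • a, rem3 M w + M • f), ⟨⟨a, ha, rfl⟩, ?_, ?_⟩, ?_⟩
  · exact (mem_mergedTile_of F0 G hr).2 hf
  · show M • a + (rem3 M w + M • f) = w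
    conv_rhs => rw [← rem3_add_quo3 M w, ← haf]
    rw [smul_add]; abel
  · rintro ⟨x, t⟩ ⟨⟨b, hb, hx⟩, ht, hxt⟩
    simp only at hx ht hxt
    subst hx
    have ht' : t = rem3 M w + M • (quo3 M w - b) := by
      have : t = w - M • b := by rw [← hxt]; abel
      rw [this, smul_sub]
      nth_rewrite 1 [← rem3_add_quo3 M w]
      abel
    rw [ht', hMdef, mem_mergedTile_of F0 G hr] at ht
    have := huniq (b, quo3 M w - b) ⟨hb, ht, by simp⟩
    simp only [Prod.mk.injEq] at this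
    obtain ⟨h1, h2⟩ := this
    rw [ht', h2, h1]

end tile

/-! ### Rigidity -/

section rigid

variable {K : ℕ} (F0 : Finset Z3) (G : Fin K → Finset Z3) (A : Set Z3)

/-- `Placed ty p`: the piece of type `ty` is placed at `p`. -/
def Placed (ty : Option (Fin K)) (p : Z3) : Prop :=
  ∃ a ∈ A, ∃ f ∈ tileOf F0 G ty, p = a + MM K • f

variable {F0 G A}

theorem placed_cover (hA : IsTilingBy (mergedTile F0 G) A) (x : Z3) :
    ∃ ty p, Placed F0 G A ty p ∧ piece K ty (x - p) := by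
  obtain ⟨⟨a, t⟩, ⟨ha, ht, hat⟩, -⟩ := hA x
  simp only at ha ht hat
  obtain ⟨ty, r, f, hr, hf, rfl⟩ := (mem_mergedTile_iff F0 G).1 ht
  refine ⟨ty, a + MM K • f, ⟨a, ha, f, hf, rfl⟩, ?_⟩
  have : x - (a + MM K • f) = r := by rw [← hat]; abel
  rw [this]; exact hr

theorem placed_unique (hA : IsTilingBy (mergedTile F0 G) A) {x : Z3} {ty ty' : Option (Fin K)}
    {p p' : Z3} (h : Placed F0 G A ty p) (hx : piece K ty (x - p))
    (h' : Placed F0 G A ty' p') (hx' : piece K ty' (x - p')) : ty = ty' ∧ p = p' := by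
  obtain ⟨a, ha, f, hf, rfl⟩ := h
  obtain ⟨a', ha', f', hf', rfl⟩ := h'
  obtain ⟨q, -, huniq⟩ := hA x
  have e1 := huniq (a, (x - (a + MM K • f)) + MM K • f)
    ⟨ha, (mem_mergedTile_of F0 G hx).2 hf, by simp only; abel⟩
  have e2 := huniq (a', (x - (a' + MM K • f')) + MM K • f')
    ⟨ha', (mem_mergedTile_of F0 G hx').2 hf', by simp only; abel⟩
  have e3 : (a, (x - (a + MM K • f)) + MM K • f) = (a', (x - (a' + MM K • f')) + MM K • f') :=
    e1.trans e2.symm
  simp only [Prod.mk.injEq] at e3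
  obtain ⟨e4, e5⟩ := e3
  have e6 : rem3 (MM K) ((x - (a + MM K • f)) + MM K • f) = x - (a + MM K • f) :=
    rem3_of _ _ (piece_bounds hx)
  have e7 : rem3 (MM K) ((x - (a' + MM K • f')) + MM K • f') = x - (a' + MM K • f') :=
    rem3_of _ _ (piece_bounds hx')
  rw [e5, e7] at e6
  have e8 : a + MM K • f = a' + MM K • f' := by
    have := e6
    exact (sub_right_inj.1 this).symm
  refine ⟨?_, e8⟩
  rw [← e8] at hx'
  exact piece_unique hx hx'

/-- a boundary point of the cube lies in the big piece -/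
theorem inC0_of_bdry {u : Z3} (hu : ∀ j, 0 ≤ u j ∧ u j < MM K) (j : Fin 3)
    (hj : u j = 0 ∨ u j = MM K - 1) : inC0 K u := by
  refine ⟨hu, fun i hi hc => ?_⟩
  have := inCage_bounds hi hc j
  omega

theorem cube_disjoint (hA : IsTilingBy (mergedTile F0 G) A) {p p' : Z3}
    (h : Placed F0 G A none p) (h' : Placed F0 G A none p')
    (hd : ∀ j, |p' j - p j| < MM K) : p = p' := by
  have hM := MM_pos K
  -- the common point
  let u : Z3 := fun j =>
    if j = 0 then (if 0 ≤ p' 0 - p 0 then p' 0 - p 0 else p' 0 - p 0 + MM K - 1)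
    else if j = 1 then (if p' 1 - p 1 ≤ 0 then 0 else MM K - 1)
    else max 0 (p' 2 - p 2)
  have h0 := abs_lt.1 (hd 0)
  have h1 := abs_lt.1 (hd 1)
  have h2 := abs_lt.1 (hd 2)
  have u0 : u 0 = if 0 ≤ p' 0 - p 0 then p' 0 - p 0 else p' 0 - p 0 + MM K - 1 := rfl
  have u1 : u 1 = if p' 1 - p 1 ≤ 0 then 0 else MM K - 1 := rfl
  have u2 : u 2 = max 0 (p' 2 - p 2) := rfl
  have hu : inC0 K u := by
    apply inC0_of_bdry _ 1
    · rw [u1]; split_ifs <;> simp
    · intro j
      fin_cases j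
      · show 0 ≤ u 0 ∧ u 0 < MM K
        rw [u0]; split_ifs <;> constructor <;> omega
      · show 0 ≤ u 1 ∧ u 1 < MM K
        rw [u1]; split_ifs <;> constructor <;> omega
      · show 0 ≤ u 2 ∧ u 2 < MM K
        rw [u2]; constructor <;> omega
  have hu' : inC0 K (u - (p' - p)) := by
    apply inC0_of_bdry _ 0
    · show u 0 - (p' 0 - p 0) = 0 ∨ u 0 - (p' 0 - p 0) = MM K - 1
      rw [u0]; split_ifs <;> omega
    · intro j
      fin_cases j
      · show 0 ≤ u 0 - (p' 0 - p 0) ∧ u 0 - (p' 0 - p 0) < MM K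
        rw [u0]; split_ifs <;> constructor <;> omega
      · show 0 ≤ u 1 - (p' 1 - p 1) ∧ u 1 - (p' 1 - p 1) < MM K
        rw [u1]; split_ifs <;> constructor <;> omega
      · show 0 ≤ u 2 - (p' 2 - p 2) ∧ u 2 - (p' 2 - p 2) < MM K
        rw [u2]; constructor <;> omega
  have e1 : (p + u) - p = u := by abel
  have e2 : (p + u) - p' = u - (p' - p) := by abel
  exact (placed_unique hA (x := p + u) h (by rw [e1]; exact hu) h' (by rw [e2]; exact hu')).2

theorem inC0_of_inBub {j : ℕ} (hj : j < K) {u : Z3} (h : inBub j u) : inC0 K u := by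
  obtain ⟨h1, h2, h3, h4⟩ := h
  have hK : (j : ℤ) + 1 ≤ K := by exact_mod_cast hj
  refine ⟨?_, ?_⟩
  · intro l
    fin_cases l
    · show 0 ≤ u 0 ∧ u 0 < MM K
      unfold MM; constructor <;> omega
    · show 0 ≤ u 1 ∧ u 1 < MM K
      unfold MM; constructor <;> omega
    · show 0 ≤ u 2 ∧ u 2 < MM K
      unfold MM; constructor <;> omega
  · rintro i hi ⟨⟨-, -, g3, g4, -, -⟩, hb⟩
    have : i = j := by omega
    subst this
    exact hb ⟨h1, h2, h3, h4⟩

/-- Every point of a piece that is not a bubble point has a neighbour in directions `e₁, e₂`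
in the same piece. -/
theorem exists_nbr {ty : Option (Fin K)} {u : Z3} (h : piece K ty u)
    (hb : ¬ (ty = none ∧ ∃ j < K, inBub j u)) :
    ∃ d : Z3, d 0 = 0 ∧ ((d 1 = 0 ∧ (d 2 = 1 ∨ d 2 = -1)) ∨ (d 2 = 0 ∧ (d 1 = 1 ∨ d 1 = -1))) ∧
      piece K ty (u + d) := by
  have key : ∀ (a b c : ℤ), (![a, b, c] : Z3) 0 = a ∧ (![a, b, c] : Z3) 1 = b ∧
      (![a, b, c] : Z3) 2 = c := fun a b c => ⟨rfl, rfl, rfl⟩
  cases ty with
  | some j =>
    obtain ⟨⟨h1, h2, h3, h4, h5, h6⟩, h7⟩ := h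
    by_cases hu1 : u 1 = 4 * ((j : ℕ) : ℤ) + 2
    · obtain ⟨k0, k1, k2⟩ := key 0 1 0
      refine ⟨![0, 1, 0], k0, Or.inr ⟨k2, Or.inl k1⟩, ?_⟩
      show inCage j (u + ![0, 1, 0])
      simp only [inCage, inBox, inBub, Pi.add_apply, k0, k1, k2]
      constructor
      · omega
      · omega
    · by_cases hu2 : u 2 ≤ 2
      · obtain ⟨k0, k1, k2⟩ := key 0 0 1
        refine ⟨![0, 0, 1], k0, Or.inl ⟨k1, Or.inl k2⟩, ?_⟩
        show inCage j (u + ![0, 0, 1])
        simp only [inCage, inBox, inBub, Pi.add_apply, k0, k1, k2]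
        constructor
        · omega
        · omega
      · obtain ⟨k0, k1, k2⟩ := key 0 0 (-1)
        refine ⟨![0, 0, -1], k0, Or.inl ⟨k1, Or.inr k2⟩, ?_⟩
        show inCage j (u + ![0, 0, -1])
        simp only [inCage, inBox, inBub, Pi.add_apply, k0, k1, k2]
        constructor
        · omega
        · omega
  | none =>
    have hbb : ∀ j < K, ¬ inBub j u := fun j hj hu => hb ⟨rfl, j, hj, hu⟩
    obtain ⟨hu, hc⟩ := h
    have hu0 := hu 0
    have hu1 := hu 1
    have hu2 := hu 2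
    have hMM : MM K = 4 * K + 8 := rfl
    have hK0 : (0 : ℤ) ≤ K := by positivity
    have mk : ∀ d : Z3, (∀ j, 0 ≤ (u + d) j ∧ (u + d) j < MM K) →
        ((u + d) 2 < 1 ∨ 3 < (u + d) 2) → inC0 K (u + d) := by
      intro d hd h2
      refine ⟨hd, fun i hi hci => ?_⟩
      obtain ⟨⟨-, -, -, -, g5, g6⟩, -⟩ := hci
      omega
    by_cases c4 : 4 ≤ u 2
    · by_cases c5 : u 2 = 4
      · obtain ⟨k0, k1, k2⟩ := key 0 0 1
        refine ⟨![0, 0, 1], k0, Or.inl ⟨k1, Or.inl k2⟩, mk _ ?_ ?_⟩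
        · intro j
          fin_cases j
          · show 0 ≤ u 0 + 0 ∧ u 0 + 0 < MM K
            omega
          · show 0 ≤ u 1 + 0 ∧ u 1 + 0 < MM K
            omega
          · show 0 ≤ u 2 + 1 ∧ u 2 + 1 < MM K
            omega
        · right
          show 3 < u 2 + 1
          omega
      · obtain ⟨k0, k1, k2⟩ := key 0 0 (-1)
        refine ⟨![0, 0, -1], k0, Or.inl ⟨k1, Or.inr k2⟩, mk _ ?_ ?_⟩
        · intro j
          fin_cases j
          · show 0 ≤ u 0 + 0 ∧ u 0 + 0 < MM K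
            omega
          · show 0 ≤ u 1 + 0 ∧ u 1 + 0 < MM K
            omega
          · show 0 ≤ u 2 + -1 ∧ u 2 + -1 < MM K
            omega
        · right
          show 3 < u 2 + -1
          omega
    · by_cases c0 : u 2 = 0
      · by_cases c1 : u 1 < MM K - 1
        · obtain ⟨k0, k1, k2⟩ := key 0 1 0
          refine ⟨![0, 1, 0], k0, Or.inr ⟨k2, Or.inl k1⟩, mk _ ?_ ?_⟩
          · intro j
            fin_cases j
            · show 0 ≤ u 0 + 0 ∧ u 0 + 0 < MM K
              omega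
            · show 0 ≤ u 1 + 1 ∧ u 1 + 1 < MM K
              omega
            · show 0 ≤ u 2 + 0 ∧ u 2 + 0 < MM K
              omega
          · left
            show u 2 + 0 < 1
            omega
        · obtain ⟨k0, k1, k2⟩ := key 0 (-1) 0
          refine ⟨![0, -1, 0], k0, Or.inr ⟨k2, Or.inr k1⟩, mk _ ?_ ?_⟩
          · intro j
            fin_cases j
            · show 0 ≤ u 0 + 0 ∧ u 0 + 0 < MM K
              omega
            · show 0 ≤ u 1 + -1 ∧ u 1 + -1 < MM K
              omega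
            · show 0 ≤ u 2 + 0 ∧ u 2 + 0 < MM K
              omega
          · left
            show u 2 + 0 < 1
            omega
      · obtain ⟨k0, k1, k2⟩ := key 0 0 (-1)
        refine ⟨![0, 0, -1], k0, Or.inl ⟨k1, Or.inr k2⟩, ?_, ?_⟩
        · intro j
          fin_cases j
          · show 0 ≤ u 0 + 0 ∧ u 0 + 0 < MM K
            omega
          · show 0 ≤ u 1 + 0 ∧ u 1 + 0 < MM K
            omega
          · show 0 ≤ u 2 + -1 ∧ u 2 + -1 < MM K
            omega
        · intro i hi hci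
          have hbox := hci.1
          simp only [inBox, Pi.add_apply, k0, k1, k2] at hbox
          obtain ⟨g1, g2, g3, g4, g5, g6⟩ := hbox
          have hbu : inBox i u := ⟨by omega, by omega, by omega, by omega, by omega, by omega⟩
          exact hc i hi ⟨hbu, hbb i hi⟩

/-- A placed cage forces the big piece at the same place. -/
theorem cage_forces (hA : IsTilingBy (mergedTile F0 G) A) {i : Fin K} {q : Z3}
    (h : Placed F0 G A (some i) q) : Placed F0 G A none q := by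
  have hMM : MM K = 4 * K + 8 := rfl
  have hiK : ((i : ℕ) : ℤ) + 1 ≤ K := by exact_mod_cast i.2
  -- the bubble points
  have main : ∀ m : ℕ, m ≤ (i : ℕ) → ∃ p : Z3, ∃ j : ℕ, j < K ∧ Placed F0 G A none p ∧
      2 ≤ q 0 + 2 + m - p 0 ∧ q 0 + 2 + m - p 0 ≤ j + 2 ∧
      q 1 + (4 * ((i : ℕ) : ℤ) + 2) - p 1 = 4 * (j : ℤ) + 2 ∧ q 2 + 2 - p 2 = 2 := by
    intro m hm
    have hm' : (m : ℤ) ≤ ((i : ℕ) : ℤ) := by exact_mod_cast hm
    let y : Z3 := q + ![2 + (m : ℤ), 4 * ((i : ℕ) : ℤ) + 2, 2]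
    have y0 : y 0 = q 0 + (2 + (m : ℤ)) := rfl
    have y1 : y 1 = q 1 + (4 * ((i : ℕ) : ℤ) + 2) := rfl
    have y2 : y 2 = q 2 + 2 := rfl
    obtain ⟨ty, p, hp, hyp⟩ := placed_cover hA y
    have hne : ¬ (ty = some i ∧ p = q) := by
      rintro ⟨rfl, rfl⟩
      have : inCage i (y - p) := hyp
      simp only [inCage, inBox, inBub, Pi.sub_apply, y0, y1, y2] at this
      omega
    by_cases hb : ty = none ∧ ∃ j < K, inBub j (y - p)
    · obtain ⟨rfl, j, hj, hbj⟩ := hb
      simp only [inBub, Pi.sub_apply, y0, y1, y2] at hbj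
      refine ⟨p, j, hj, hp, ?_, ?_, ?_, ?_⟩ <;> omega
    · exfalso
      obtain ⟨d, hd0, hd, hpd⟩ := exists_nbr hyp hb
      have hcage : piece K (some i) (y + d - q) := by
        show inCage i (y + d - q)
        simp only [inCage, inBox, inBub, Pi.sub_apply, Pi.add_apply, y0, y1, y2, hd0]
        rcases hd with ⟨d1, d2 | d2⟩ | ⟨d2, d1 | d1⟩ <;> rw [d1, d2] <;> constructor <;> omega
      have e : y - p + d = y + d - p := by abel
      rw [e] at hpd
      have := placed_unique hA hp hpd h hcage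
      exact hne this
  choose! P J hJ hPl h2 h3 h4 h5 using main
  -- all the big pieces coincide
  have hPeq : ∀ m : ℕ, m ≤ (i : ℕ) → P 0 = P m := by
    intro m hm
    apply cube_disjoint hA (hPl 0 (Nat.zero_le _)) (hPl m hm)
    have hm' : (m : ℤ) ≤ ((i : ℕ) : ℤ) := by exact_mod_cast hm
    have hm0 : (0 : ℤ) ≤ (m : ℤ) := by positivity
    have a1 := h2 0 (Nat.zero_le _)
    have a2 := h3 0 (Nat.zero_le _)
    have a3 := h4 0 (Nat.zero_le _)
    have a4 := h5 0 (Nat.zero_le _)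
    have b1 := h2 m hm
    have b2 := h3 m hm
    have b3 := h4 m hm
    have b4 := h5 m hm
    have j0 : ((J 0 : ℕ) : ℤ) + 1 ≤ K := by exact_mod_cast hJ 0 (Nat.zero_le _)
    have jm : ((J m : ℕ) : ℤ) + 1 ≤ K := by exact_mod_cast hJ m hm
    have cz : ((0 : ℕ) : ℤ) = 0 := rfl
    rw [cz] at a1 a2
    intro l
    fin_cases l
    · show |P m 0 - P 0 0| < MM K
      rw [abs_lt]; constructor <;> omega
    · show |P m 1 - P 0 1| < MM K
      rw [abs_lt]; constructor <;> omega
    · show |P m 2 - P 0 2| < MM K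
      rw [abs_lt]; constructor <;> omega
  set p := P 0 with hp
  set j := J 0 with hj
  have hjK : j < K := hJ 0 (Nat.zero_le _)
  have a1 := h2 0 (Nat.zero_le _)
  have a2 := h3 0 (Nat.zero_le _)
  have a3 := h4 0 (Nat.zero_le _)
  have a4 := h5 0 (Nat.zero_le _)
  have b1 := h2 i le_rfl
  have b2 := h3 i le_rfl
  have b3 := h4 i le_rfl
  rw [← hPeq i le_rfl] at b1 b2 b3
  rw [← hp] at a1 a2 a3 a4
  rw [← hj] at a2 a3
  have cz : ((0 : ℕ) : ℤ) = 0 := rfl
  rw [cz] at a1 a2
  have hJi : J i = j := by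
    have : ((J i : ℕ) : ℤ) = (j : ℤ) := by omega
    exact_mod_cast this
  rw [hJi] at b2 b3
  have hp0 : Placed F0 G A none p := hPl 0 (Nat.zero_le _)
  -- no bubble point before
  have c1 : p 0 = q 0 := by
    by_contra hne
    let z : Z3 := q + ![1, 4 * ((i : ℕ) : ℤ) + 2, 2]
    have z0 : z 0 = q 0 + 1 := rfl
    have z1 : z 1 = q 1 + (4 * ((i : ℕ) : ℤ) + 2) := rfl
    have z2 : z 2 = q 2 + 2 := rfl
    have hz1 : piece K none (z - p) := by
      apply inC0_of_inBub hjK
      simp only [inBub, Pi.sub_apply, z0, z1, z2]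
      refine ⟨by omega, by omega, by omega, by omega⟩
    have hz2 : piece K (some i) (z - q) := by
      show inCage i (z - q)
      simp only [inCage, inBox, inBub, Pi.sub_apply, z0, z1, z2]
      constructor <;> omega
    have := (placed_unique hA hp0 hz1 h hz2).1
    simp at this
  have c2 : (j : ℤ) ≤ ((i : ℕ) : ℤ) := by
    by_contra hne
    push Not at hne
    let z : Z3 := q + ![((i : ℕ) : ℤ) + 3, 4 * ((i : ℕ) : ℤ) + 2, 2]
    have z0 : z 0 = q 0 + (((i : ℕ) : ℤ) + 3) := rfl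
    have z1 : z 1 = q 1 + (4 * ((i : ℕ) : ℤ) + 2) := rfl
    have z2 : z 2 = q 2 + 2 := rfl
    have hz1 : piece K none (z - p) := by
      apply inC0_of_inBub hjK
      simp only [inBub, Pi.sub_apply, z0, z1, z2]
      refine ⟨by omega, by omega, by omega, by omega⟩
    have hz2 : piece K (some i) (z - q) := by
      show inCage i (z - q)
      simp only [inCage, inBox, inBub, Pi.sub_apply, z0, z1, z2]
      constructor <;> omega
    have := (placed_unique hA hp0 hz1 h hz2).1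
    simp at this
  have hpq : p = q := by
    funext l
    fin_cases l
    · exact c1
    · show p 1 = q 1
      omega
    · show p 2 = q 2
      omega
  rw [← hpq]; exact hp0

/-- the shifts of `F0` by unit vectors belong to the system -/
def HasShifts (F0 : Finset Z3) (G : Fin K → Finset Z3) : Prop :=
  ∀ j : Fin 3, ∀ s : ℤ, (s = 1 ∨ s = -1) → ∃ i, ∀ f ∈ F0, f + Pi.single j s ∈ G i

theorem placed_shift (hA : IsTilingBy (mergedTile F0 G) A) (hs : HasShifts F0 G) {p : Z3}
    (h : Placed F0 G A none p) (j : Fin 3) (s : ℤ) (hs1 : s = 1 ∨ s = -1) :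
    Placed F0 G A none (p + MM K • (Pi.single j s : Z3)) := by
  obtain ⟨i, hi⟩ := hs j s hs1
  obtain ⟨a, ha, f, hf, rfl⟩ := h
  apply cage_forces hA (i := i)
  exact ⟨a, ha, f + Pi.single j s, hi f hf, by rw [smul_add]; abel⟩

theorem placed_shift_int (hA : IsTilingBy (mergedTile F0 G) A) (hs : HasShifts F0 G) {p : Z3}
    (h : Placed F0 G A none p) (j : Fin 3) (n : ℤ) :
    Placed F0 G A none (p + MM K • (Pi.single j n : Z3)) := by
  induction n using Int.induction_on with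
  | zero => simpa using h
  | succ n ih =>
    have := placed_shift hA hs ih j 1 (Or.inl rfl)
    have e : p + MM K • (Pi.single j (n : ℤ) : Z3) + MM K • (Pi.single j 1 : Z3) =
        p + MM K • (Pi.single j ((n : ℤ) + 1) : Z3) := by
      rw [add_assoc, ← smul_add, ← Pi.single_add]
    rwa [e] at this
  | pred n ih =>
    have := placed_shift hA hs ih j (-1) (Or.inr rfl)
    have e : p + MM K • (Pi.single j (-(n : ℤ)) : Z3) + MM K • (Pi.single j (-1) : Z3) =
        p + MM K • (Pi.single j (-(n : ℤ) - 1) : Z3) := by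
      rw [add_assoc, ← smul_add, ← Pi.single_add, sub_eq_add_neg]
    rwa [e] at this

theorem placed_shift_all (hA : IsTilingBy (mergedTile F0 G) A) (hs : HasShifts F0 G) {p : Z3}
    (h : Placed F0 G A none p) (v : Z3) : Placed F0 G A none (p + MM K • v) := by
  have h1 := placed_shift_int hA hs h 0 (v 0)
  have h2 := placed_shift_int hA hs h1 1 (v 1)
  have h3 := placed_shift_int hA hs h2 2 (v 2)
  have e : p + MM K • (Pi.single 0 (v 0) : Z3) + MM K • (Pi.single 1 (v 1) : Z3) +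
      MM K • (Pi.single 2 (v 2) : Z3) = p + MM K • v := by
    have hv : v = (Pi.single 0 (v 0) : Z3) + Pi.single 1 (v 1) + Pi.single 2 (v 2) := by
      funext l
      fin_cases l <;> simp
    conv_rhs => rw [hv]
    rw [smul_add, smul_add]; abel
  rwa [e] at h3

/-- two placed big pieces differ by a multiple of the scale -/
theorem placed_diff (hA : IsTilingBy (mergedTile F0 G) A) (hs : HasShifts F0 G) {p p' : Z3}
    (h : Placed F0 G A none p) (h' : Placed F0 G A none p') : ∃ v, p' = p + MM K • v := by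
  have hM := MM_pos K
  refine ⟨quo3 (MM K) (p' - p), ?_⟩
  have h1 := placed_shift_all hA hs h (quo3 (MM K) (p' - p))
  have h2 := cube_disjoint hA h1 h' ?_
  · exact h2.symm
  · intro j
    have e : p' - (p + MM K • quo3 (MM K) (p' - p)) = rem3 (MM K) (p' - p) := by
      have := rem3_add_quo3 (MM K) (p' - p)
      rw [← sub_sub]
      nth_rewrite 1 [← this]
      abel
    have e' := congrFun e j
    have hb := rem3_bounds hM (p' - p) j
    rw [Pi.sub_apply] at e'
    rw [e', abs_lt]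
    constructor <;> linarith [hb.1, hb.2]

theorem exists_scale (hA : IsTilingBy (mergedTile F0 G) A) (hs : HasShifts F0 G)
    (hF0 : F0.Nonempty) {a b : Z3} (ha : a ∈ A) (hb : b ∈ A) : ∃ v, b = a + MM K • v := by
  obtain ⟨f, hf⟩ := hF0
  obtain ⟨v, hv⟩ := placed_diff hA hs (p := a + MM K • f) (p' := b + MM K • f)
    ⟨a, ha, f, hf, rfl⟩ ⟨b, hb, f, hf, rfl⟩
  refine ⟨v, ?_⟩
  have : b + MM K • f = (a + MM K • v) + MM K • f := by rw [hv]; abel
  exact add_right_cancel this

/-- the tiling set of the system extracted from a tiling set of the merged tile -/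
def unscaled (M : ℤ) (c : Z3) (A : Set Z3) : Set Z3 := {v | c + M • v ∈ A}

theorem isTilingBy_unscaled (hA : IsTilingBy (mergedTile F0 G) A) (hs : HasShifts F0 G)
    (hF0 : F0.Nonempty) {c : Z3} (hc : c ∈ A) (ty : Option (Fin K)) {r : Z3}
    (hr : piece K ty r) : IsTilingBy (tileOf F0 G ty) (unscaled (MM K) c A) := by
  intro w
  have hM := MM_pos K
  obtain ⟨⟨a, t⟩, ⟨ha, ht, hat⟩, huniq⟩ := hA (c + MM K • w + r)
  simp only at ha ht hat
  obtain ⟨v, hv⟩ := exists_scale hA hs hF0 hc ha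
  have ht' : t = r + MM K • (w - v) := by
    have : t = (c + MM K • w + r) - a := by rw [← hat]; abel
    rw [this, hv, smul_sub]; abel
  rw [ht', mem_mergedTile_of F0 G hr] at ht
  refine ⟨(v, w - v), ⟨?_, ht, by simp⟩, ?_⟩
  · show c + MM K • v ∈ A
    rw [← hv]; exact ha
  · rintro ⟨v', f'⟩ ⟨hv', hf', hw⟩
    simp only at hv' hf' hw
    have h1 := huniq (c + MM K • v', r + MM K • f') ⟨hv', (mem_mergedTile_of F0 G hr).2 hf', by
      simp only
      rw [← hw, smul_add]; abel⟩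
    simp only [Prod.mk.injEq] at h1
    have h2 : v' = v := by
      have h3 := h1.1
      rw [hv] at h3
      exact smul_inj hM (add_left_cancel h3)
    subst h2
    have h4 : f' = w - v' := by rw [← hw]; abel
    rw [h4]

/-- the corner of the cube is in the big piece -/
theorem piece_none_zero : piece K none (0 : Z3) := by
  have hMM : MM K = 4 * K + 8 := rfl
  apply inC0_of_bdry _ 0
  · left; rfl
  · intro j
    constructor
    · exact le_rfl
    · exact MM_pos K

theorem piece_some_corner (i : Fin K) :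
    piece K (some i) (![1, 4 * ((i : ℕ) : ℤ) + 1, 1] : Z3) := by
  have k0 : (![1, 4 * ((i : ℕ) : ℤ) + 1, 1] : Z3) 0 = 1 := rfl
  have k1 : (![1, 4 * ((i : ℕ) : ℤ) + 1, 1] : Z3) 1 = 4 * ((i : ℕ) : ℤ) + 1 := rfl
  have k2 : (![1, 4 * ((i : ℕ) : ℤ) + 1, 1] : Z3) 2 = 1 := rfl
  show inCage i _
  simp only [inCage, inBox, inBub, k0, k1, k2]
  constructor <;> omega

theorem isFullyPeriodic_unscaled {M : ℤ} {c : Z3} {A : Set Z3} (h : IsFullyPeriodic A) :
    IsFullyPeriodic (unscaled M c A) := by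
  obtain ⟨H, hH, hper⟩ := h
  refine ⟨H.comap (zsmulAddGroupHom M), ?_, ?_⟩
  · have := hH
    constructor
    rw [AddSubgroup.index_comap]
    exact (inferInstance : (H.addSubgroupOf (zsmulAddGroupHom M).range).FiniteIndex).index_ne_zero
  · intro v hv a ha
    have h1 : M • v ∈ H := hv
    have h2 : c + M • a ∈ A := ha
    show c + M • (v + a) ∈ A
    have := hper _ h1 _ h2
    have e : M • v + (c + M • a) = c + M • (v + a) := by rw [smul_add]; abel
    rwa [e] at this

end rigid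

/-! ### The merging theorem -/

/-- The list of tiles: the given ones and the six shifts of `F0`. -/
def fullList {m : ℕ} (F0 : Finset Z3) (F : Fin m → Finset Z3) : Fin (m + 6) → Finset Z3 :=
  Fin.append F (fun k : Fin 6 => F0.image (fun f => f + Pi.single (⟨k.1 / 2, by omega⟩ : Fin 3)
    (if k.1 % 2 = 0 then 1 else -1)))

theorem isTilingBy_image_add {F : Finset Z3} {A : Set Z3} (h : IsTilingBy F A) (w : Z3) :
    IsTilingBy (F.image (fun f => f + w)) A := by
  intro x
  obtain ⟨⟨a, f⟩, ⟨ha, hf, haf⟩, huniq⟩ := h (x - w)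
  simp only at ha hf haf
  refine ⟨(a, f + w), ⟨ha, Finset.mem_image.2 ⟨f, hf, rfl⟩, ?_⟩, ?_⟩
  · show a + (f + w) = x
    rw [← add_assoc, haf]; abel
  · rintro ⟨a', t'⟩ ⟨ha', ht', hat'⟩
    obtain ⟨f', hf', rfl⟩ := Finset.mem_image.1 ht'
    simp only at ha' hat'
    have := huniq (a', f') ⟨ha', hf', by simp only; rw [← hat']; abel⟩
    simp only [Prod.mk.injEq] at this
    rw [this.1, this.2]

theorem hasShifts_fullList {m : ℕ} (F0 : Finset Z3) (F : Fin m → Finset Z3) :
    HasShifts F0 (fullList F0 F) := by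
  intro j s hs
  rcases hs with rfl | rfl
  · refine ⟨Fin.natAdd m ⟨2 * j.1, by omega⟩, fun f hf => ?_⟩
    unfold fullList
    rw [Fin.append_right]
    refine Finset.mem_image.2 ⟨f, hf, ?_⟩
    have e1 : (⟨2 * j.1 / 2, by omega⟩ : Fin 3) = j := by ext; simp
    have e2 : 2 * j.1 % 2 = 0 := by omega
    simp only [e1, e2, if_true]
  · refine ⟨Fin.natAdd m ⟨2 * j.1 + 1, by omega⟩, fun f hf => ?_⟩
    unfold fullList
    rw [Fin.append_right]
    refine Finset.mem_image.2 ⟨f, hf, ?_⟩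
    have e1 : (⟨(2 * j.1 + 1) / 2, by omega⟩ : Fin 3) = j := by ext; simp only; omega
    have e2 : ¬ ((2 * j.1 + 1) % 2 = 0) := by omega
    simp only [e1, e2, if_false]

/-- **Merging theorem.** -/
theorem merge {m : ℕ} (F0 : Finset Z3) (F : Fin m → Finset Z3) (hF0 : F0.Nonempty)
    (hex : ∃ A, IsTilingBy F0 A ∧ ∀ i, IsTilingBy (F i) A)
    (hnp : ∀ A, IsTilingBy F0 A → (∀ i, IsTilingBy (F i) A) → ¬ IsFullyPeriodic A) :
    ∃ T : Finset Z3, T.Nonempty ∧ (∃ A, IsTilingBy T A) ∧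
      (∀ A, IsTilingBy T A → ¬ IsFullyPeriodic A) ∧
      ∃ M : ℕ, 2 ≤ M ∧ ∀ A, IsTilingBy T A → ∀ a ∈ A, ∀ b ∈ A, ∀ i, (M : ℤ) ∣ a i - b i := by
  have hs := hasShifts_fullList F0 F
  refine ⟨mergedTile F0 (fullList F0 F), ?_, ?_, ?_, 4 * (m + 6) + 8, by omega, ?_⟩
  · obtain ⟨f, hf⟩ := hF0
    exact ⟨0 + MM (m + 6) • f, (mem_mergedTile_of F0 (fullList F0 F) piece_none_zero).2 hf⟩
  · obtain ⟨A, h0, hA⟩ := hex
    refine ⟨_, isTilingBy_scaled F0 (fullList F0 F) h0 ?_⟩
    intro i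
    refine Fin.addCases (fun i => ?_) (fun i => ?_) i
    · unfold fullList; rw [Fin.append_left]; exact hA i
    · unfold fullList; rw [Fin.append_right]; exact isTilingBy_image_add h0 _
  · intro A hA hper
    obtain ⟨⟨c, t⟩, ⟨hc, -, -⟩, -⟩ := hA 0
    refine hnp (unscaled (MM (m + 6)) c A)
      (isTilingBy_unscaled hA hs hF0 hc none piece_none_zero) ?_ (isFullyPeriodic_unscaled hper)
    intro i
    have := isTilingBy_unscaled hA hs hF0 hc (some (Fin.castAdd 6 i)) (piece_some_corner _)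
    simp only [tileOf, fullList, Fin.append_left] at this
    exact this
  · intro A hA a ha b hb i
    obtain ⟨v, hv⟩ := exists_scale hA hs hF0 hb ha
    have : a i - b i = MM (m + 6) * v i := by
      rw [hv]; simp
    rw [this]
    have e : (((4 * (m + 6) + 8 : ℕ)) : ℤ) = MM (m + 6) := by unfold MM; push_cast; ring
    rw [e]
    exact dvd_mul_right _ _

end Crest.Agent.R046
private theorem rz_28462fa160 : type_of% @_root_.Crest.Agent.R046.tileOf.eq_1 := @_root_.Crest.Agent.R046.tileOf.eq_1 -- L92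
end

-- ▼ part R046/Lift
section

set_option autoImplicit false

/-! Row 46: from a system of tile equations in a quotient `ℤ³ / ⟨w⟩` to one tile in `ℤ³`. -/

namespace Crest.Agent.R046

open Crest.CombinatoricsR.Tiling

section lift

variable {G : Type*} [AddCommGroup G] (π : Z3 →+ G)

open Classical in
/-- the lift of a tile along a section -/
noncomputable def liftTile (s : G → Z3) (F : Finset G) : Finset Z3 := F.image s

theorem mem_liftTile {s : G → Z3} {F : Finset G} {t : Z3} :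
    t ∈ liftTile s F ↔ ∃ f ∈ F, s f = t := by
  classical
  unfold liftTile
  exact Finset.mem_image

theorem isTilingBy_lift {s : G → Z3} (hs : ∀ g, π (s g) = g) {F : Finset G} {A : Set G}
    (h : IsTilingBy F A) : IsTilingBy (liftTile s F) (π ⁻¹' A) := by
  intro x
  obtain ⟨⟨a, f⟩, ⟨ha, hf, haf⟩, huniq⟩ := h (π x)
  simp only at ha hf haf
  refine ⟨(x - s f, s f), ⟨?_, mem_liftTile.2 ⟨f, hf, rfl⟩, by simp⟩, ?_⟩
  · show π (x - s f) ∈ A
    rw [map_sub, hs, ← haf]; simpa using ha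
  · rintro ⟨a', t'⟩ ⟨ha', ht', hat'⟩
    obtain ⟨f', hf', rfl⟩ := mem_liftTile.1 ht'
    simp only at ha' hat'
    have h1 := huniq (π a', f') ⟨ha', hf', by
      simp only
      rw [← hat', map_add, hs]⟩
    simp only [Prod.mk.injEq] at h1
    obtain ⟨-, h2⟩ := h1
    subst h2
    have h3 : a' = x - s f' := by rw [← hat']; abel
    rw [h3]

theorem isTilingBy_push {w : Z3} (hw : π w = 0) (hker : ∀ x, π x = 0 → ∃ n : ℤ, x = n • w)
    (hπ : Function.Surjective π)
    {s : G → Z3} (hs : ∀ g, π (s g) = g) {F : Finset G} {A : Set Z3}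
    (hA : ∀ a ∈ A, ∀ n : ℤ, a + n • w ∈ A) (h : IsTilingBy (liftTile s F) A) :
    IsTilingBy F (π '' A) := by
  intro g
  obtain ⟨x, rfl⟩ := hπ g
  obtain ⟨⟨a, t⟩, ⟨ha, ht, hat⟩, huniq⟩ := h x
  obtain ⟨f, hf, rfl⟩ := mem_liftTile.1 ht
  simp only at ha hat
  refine ⟨(π a, f), ⟨⟨a, ha, rfl⟩, hf, ?_⟩, ?_⟩
  · show π a + f = π x
    rw [← hat, map_add, hs]
  · rintro ⟨a', f'⟩ ⟨⟨b, hb, hb'⟩, hf', hat'⟩
    simp only at hb' hf' hat'
    subst hb'
    have h1 : π (x - (b + s f')) = 0 := by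
      rw [map_sub, map_add, hs, hat', sub_self]
    obtain ⟨n, hn⟩ := hker _ h1
    have h2 := huniq (b + n • w, s f') ⟨hA b hb n, mem_liftTile.2 ⟨f', hf', rfl⟩, by
      simp only
      rw [← hn]; abel⟩
    simp only [Prod.mk.injEq] at h2
    obtain ⟨h3, h4⟩ := h2
    have h5 : f' = f := by rw [← hs f', h4, hs]
    have h6 : π b = π a := by rw [← h3, map_add, map_zsmul, hw]; simp
    rw [h5, h6]

/-- two sections that differ at one element by `w` force invariance under `w`. -/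
theorem invariant_of_two {w : Z3} {s : G → Z3} (hs : ∀ g, π (s g) = g) (hw : π w = 0)
    {s' : G → Z3} {f0 : G} (hs'0 : s' f0 = s f0 + w) (hs' : ∀ g, g ≠ f0 → s' g = s g)
    {F : Finset G} (hf0 : f0 ∈ F) {A : Set Z3}
    (h : IsTilingBy (liftTile s F) A) (h' : IsTilingBy (liftTile s' F) A) :
    ∀ a ∈ A, ∀ n : ℤ, a + n • w ∈ A := by
  have hplus : ∀ a ∈ A, a + w ∈ A := by
    intro a ha
    obtain ⟨⟨b, t⟩, ⟨hb, ht, hbt⟩, -⟩ := h (a + s f0 + w)
    obtain ⟨f, hf, rfl⟩ := mem_liftTile.1 ht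
    simp only at hb hbt
    by_cases hff : f = f0
    · subst hff
      have : b = a + w := by
        have := eq_sub_of_add_eq hbt
        rw [this]; abel
      rwa [← this]
    · exfalso
      obtain ⟨q, -, huniq⟩ := h' (a + s f0 + w)
      have e1 := huniq (b, s f) ⟨hb, mem_liftTile.2 ⟨f, hf, hs' f hff⟩, hbt⟩
      have e2 := huniq (a, s f0 + w) ⟨ha, mem_liftTile.2 ⟨f0, hf0, hs'0⟩, by simp only; abel⟩
      have e3 : s f = s f0 + w := by
        have := e1.trans e2.symm
        simp only [Prod.mk.injEq] at this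
        exact this.2
      apply hff
      rw [← hs f, e3, map_add, hw, hs, add_zero]
  have hminus : ∀ a ∈ A, a - w ∈ A := by
    intro a ha
    obtain ⟨⟨b, t⟩, ⟨hb, ht, hbt⟩, -⟩ := h' (a + s f0)
    obtain ⟨f, hf, rfl⟩ := mem_liftTile.1 ht
    simp only at hb hbt
    by_cases hff : f = f0
    · subst hff
      rw [hs'0] at hbt
      have : b = a - w := by
        have := eq_sub_of_add_eq hbt
        rw [this]; abel
      rwa [← this]
    · exfalso
      rw [hs' f hff] at hbt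
      obtain ⟨q, -, huniq⟩ := h (a + s f0)
      have e1 := huniq (b, s f) ⟨hb, mem_liftTile.2 ⟨f, hf, rfl⟩, hbt⟩
      have e2 := huniq (a, s f0) ⟨ha, mem_liftTile.2 ⟨f0, hf0, rfl⟩, rfl⟩
      have e3 : s f = s f0 := by
        have := e1.trans e2.symm
        simp only [Prod.mk.injEq] at this
        exact this.2
      apply hff
      rw [← hs f, e3, hs]
  intro a ha n
  induction n using Int.induction_on with
  | zero => simpa using ha
  | succ n ih =>
    have := hplus _ ih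
    have e : a + (n : ℤ) • w + w = a + ((n : ℤ) + 1) • w := by rw [add_smul, one_smul]; abel
    rwa [e] at this
  | pred n ih =>
    have := hminus _ ih
    have e : a + (-(n : ℤ)) • w - w = a + (-(n : ℤ) - 1) • w := by rw [sub_smul, one_smul]; abel
    rwa [e] at this

theorem isFullyPeriodic_push (hπ : Function.Surjective π) {A : Set Z3} (h : IsFullyPeriodic A) :
    IsFullyPeriodic (π '' A) := by
  obtain ⟨H, hH, hper⟩ := h
  refine ⟨H.map π, ⟨?_⟩, ?_⟩
  · exact ne_zero_of_dvd_ne_zero hH.index_ne_zero (H.index_map_dvd hπ)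
  · rintro _ ⟨h, hh, rfl⟩ _ ⟨a, ha, rfl⟩
    exact ⟨h + a, hper h hh a ha, by simp⟩

/-- The conclusion of the merging theorem. -/
def MergedConclusion : Prop :=
  ∃ T : Finset Z3, T.Nonempty ∧ (∃ A, IsTilingBy T A) ∧
      (∀ A, IsTilingBy T A → ¬ IsFullyPeriodic A) ∧
      ∃ M : ℕ, 2 ≤ M ∧ ∀ A, IsTilingBy T A → ∀ a ∈ A, ∀ b ∈ A, ∀ i, (M : ℤ) ∣ a i - b i

/-- **Merging theorem for a quotient of `ℤ³` by a cyclic group.** -/
theorem merge_quot (hπ : Function.Surjective π) {w : Z3} (hw : π w = 0)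
    (hker : ∀ x, π x = 0 → ∃ n : ℤ, x = n • w) {ι : Type*} [Finite ι]
    (F : ι → Finset G) (hne : ∃ i, (F i).Nonempty)
    (hex : ∃ A, ∀ i, IsTilingBy (F i) A)
    (hnp : ∀ A, (∀ i, IsTilingBy (F i) A) → ¬ IsFullyPeriodic A) : MergedConclusion := by
  classical
  obtain ⟨m, ⟨e⟩⟩ := Finite.exists_equiv_fin ι
  obtain ⟨i0, f0, hf0⟩ := hne
  let s : G → Z3 := Function.surjInv hπ
  have hs : ∀ g, π (s g) = g := Function.surjInv_eq hπ
  let s' : G → Z3 := Function.update s f0 (s f0 + w)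
  have hs'0 : s' f0 = s f0 + w := Function.update_self _ _ _
  have hs'1 : ∀ g, g ≠ f0 → s' g = s g := fun g hg => Function.update_of_ne hg _ _
  have hs' : ∀ g, π (s' g) = g := by
    intro g
    by_cases hg : g = f0
    · rw [hg, hs'0, map_add, hs, hw, add_zero]
    · rw [hs'1 g hg, hs]
  refine merge (liftTile s' (F i0)) (fun i : Fin m => liftTile s (F (e.symm i)))
    ⟨s' f0, mem_liftTile.2 ⟨f0, hf0, rfl⟩⟩ ?_ ?_
  · obtain ⟨A, hA⟩ := hex
    exact ⟨π ⁻¹' A, isTilingBy_lift π hs' (hA i0), fun i => isTilingBy_lift π hs (hA _)⟩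
  · intro A h0 hA hper
    have hAall : ∀ i, IsTilingBy (liftTile s (F i)) A := by
      intro i
      have := hA (e i)
      simpa using this
    have hinv := invariant_of_two π hs hw hs'0 hs'1 hf0 (hAall i0) h0
    exact hnp (π '' A) (fun i => isTilingBy_push π hw hker hπ hs hinv (hAall i))
      (isFullyPeriodic_push π hπ hper)

end lift



end Crest.Agent.R046
end

-- ▼ part R046/Real
section

/-!
# Row 46 (S0065): the integer conjuncts imply the real conjuncts

For any finite nonempty `T ⊂ ℤᵈ`: if `T` tiles `ℤᵈ` but never fully periodically, then the closed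
unit cube thickening of `T` tiles `ℝᵈ` up to null sets, but never lattice-periodically.

Proof of the second part.  An a.e. tiling by `T + [0,1]ᵈ` is locally finite and yields an exact
tiling of `ℝᵈ` by half open unit cubes.  On each line parallel to an axis the left ends of the cubes
form a coset of `ℤ`, so each coordinate may be replaced by its image under a map `ψ : ℝ → ℝ` with
`ψ (r + 1) = ψ r + 1` (Keller/Hajós shift).  With `ψ = ⌊Φ ·⌋`, `Φ : ℝ → ℚ` a `ℚ`-linear map with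
`Φ 1 = 1` whose application to the entries of a period basis stays invertible, one gets a fully
periodic integer tiling by `T`.
-/

set_option autoImplicit false

namespace Crest.Agent.R046.RealPart

open Crest.CombinatoricsR.Tiling MeasureTheory

/-- A family of half-open unit cubes (given by the lower corners) tiling `ℝᵈ` exactly. -/
def Exact {ι : Type*} {d : ℕ} (p : ι → Fin d → ℝ) : Prop :=
  ∀ x : Fin d → ℝ, ∃! i, ∀ k, p i k ≤ x k ∧ x k < p i k + 1

lemma psi_int (ψ : ℝ → ℝ) (hψ : ∀ r, ψ (r + 1) = ψ r + 1) (r : ℝ) (n : ℤ) :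
    ψ (r + n) = ψ r + n := by
  induction n using Int.induction_on with
  | zero => simp
  | succ n ih =>
    have h := hψ (r + (n : ℤ))
    have e : r + (((n : ℤ) + 1 : ℤ) : ℝ) = r + ((n : ℤ) : ℝ) + 1 := by push_cast; ring
    rw [e, h, ih]; push_cast; ring
  | pred n ih =>
    have h := hψ (r + ((-(n : ℤ) - 1 : ℤ) : ℝ))
    have e : r + ((-(n : ℤ) - 1 : ℤ) : ℝ) + 1 = r + ((-(n : ℤ) : ℤ) : ℝ) := by push_cast; ring
    rw [e, ih] at h
    push_cast at h ⊢
    linarith

/-- one dimensional structure: left ends of an exact tiling of `ℝ` by unit intervals -/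
lemma line {ι : Type*} (f : ι → ℝ) (hf : ∀ t : ℝ, ∃! i, f i ≤ t ∧ t < f i + 1) :
    ∃ ρ : ℝ, (∀ i, ∃ n : ℤ, f i = ρ + n) ∧ (∀ n : ℤ, ∃ i, f i = ρ + n) := by
  have hinj : ∀ i j, f i = f j → i = j := by
    intro i j hij
    obtain ⟨a, _, ha⟩ := hf (f i)
    have h1 := ha i ⟨le_refl _, by linarith⟩
    have h2 := ha j ⟨by linarith, by linarith⟩
    rw [h1, h2]
  have hup : ∀ i, ∃ j, f j = f i + 1 := by
    intro i
    obtain ⟨j, ⟨hj1, hj2⟩, -⟩ := hf (f i + 1)
    refine ⟨j, ?_⟩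
    by_contra hne
    have hlt : f j < f i + 1 := lt_of_le_of_ne hj1 hne
    obtain ⟨a, _, ha⟩ := hf (f j)
    have h1 := ha i ⟨by linarith, by linarith⟩
    have h2 := ha j ⟨le_refl _, by linarith⟩
    have : i = j := by rw [h1, h2]
    subst this
    linarith
  have hdown : ∀ i, ∃ j, f j = f i - 1 := by
    intro i
    obtain ⟨j, ⟨hj1, hj2⟩, -⟩ := hf (f i - 1)
    refine ⟨j, ?_⟩
    by_contra hne
    have hlt : f j < f i - 1 := lt_of_le_of_ne hj1 hne
    obtain ⟨l, hl⟩ := hup j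
    obtain ⟨a, _, ha⟩ := hf (f i)
    have h1 := ha i ⟨le_refl _, by linarith⟩
    have h2 := ha l ⟨by linarith, by linarith⟩
    have : i = l := by rw [h1, h2]
    subst this
    linarith
  obtain ⟨i0, -, -⟩ := hf 0
  refine ⟨f i0, ?_, ?_⟩
  swap
  · intro n
    induction n using Int.induction_on with
    | zero => exact ⟨i0, by simp⟩
    | succ n ih =>
      obtain ⟨i, hi⟩ := ih
      obtain ⟨j, hj⟩ := hup i
      exact ⟨j, by rw [hj, hi]; push_cast; ring⟩
    | pred n ih =>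
      obtain ⟨i, hi⟩ := ih
      obtain ⟨j, hj⟩ := hdown i
      exact ⟨j, by rw [hj, hi]; push_cast; ring⟩
  · have hall : ∀ n : ℤ, ∃ i, f i = f i0 + n := by
      intro n
      induction n using Int.induction_on with
      | zero => exact ⟨i0, by simp⟩
      | succ n ih =>
        obtain ⟨i, hi⟩ := ih
        obtain ⟨j, hj⟩ := hup i
        exact ⟨j, by rw [hj, hi]; push_cast; ring⟩
      | pred n ih =>
        obtain ⟨i, hi⟩ := ih
        obtain ⟨j, hj⟩ := hdown i
        exact ⟨j, by rw [hj, hi]; push_cast; ring⟩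
    intro i
    obtain ⟨j, hj⟩ := hall ⌊f i - f i0⌋
    refine ⟨⌊f i - f i0⌋, ?_⟩
    rw [← hj]
    congr 1
    obtain ⟨a, _, ha⟩ := hf (f i)
    have h1 := ha i ⟨le_refl _, by linarith⟩
    have h2 := ha j ⟨by rw [hj]; linarith [Int.floor_le (f i - f i0)],
      by rw [hj]; linarith [Int.lt_floor_add_one (f i - f i0)]⟩
    rw [h1, h2]

lemma line_shift {ι : Type*} (f : ι → ℝ) (hf : ∀ t : ℝ, ∃! i, f i ≤ t ∧ t < f i + 1)
    (ψ : ℝ → ℝ) (hψ : ∀ r, ψ (r + 1) = ψ r + 1) (t : ℝ) :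
    ∃! i, ψ (f i) ≤ t ∧ t < ψ (f i) + 1 := by
  obtain ⟨ρ, h1, h2⟩ := line f hf
  have hinj : ∀ i j, f i = f j → i = j := by
    intro i j hij
    obtain ⟨a, _, ha⟩ := hf (f i)
    have h1 := ha i ⟨le_refl _, by linarith⟩
    have h2 := ha j ⟨by linarith, by linarith⟩
    rw [h1, h2]
  obtain ⟨i, hi⟩ := h2 ⌊t - ψ ρ⌋
  have hψi : ψ (f i) = ψ ρ + ⌊t - ψ ρ⌋ := by rw [hi, psi_int ψ hψ]
  refine ⟨i, ?_, ?_⟩
  · simp only [hψi]
    constructor
    · linarith [Int.floor_le (t - ψ ρ)]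
    · linarith [Int.lt_floor_add_one (t - ψ ρ)]
  · rintro j ⟨hj1, hj2⟩
    obtain ⟨m, hm⟩ := h1 j
    have hψj : ψ (f j) = ψ ρ + m := by rw [hm, psi_int ψ hψ]
    have : ⌊t - ψ ρ⌋ = m := by
      rw [Int.floor_eq_iff]
      rw [hψj] at hj1 hj2
      constructor <;> linarith
    apply hinj
    rw [hm, hi, this]

lemma Exact.shift_one {ι : Type*} {d : ℕ} {p : ι → Fin d → ℝ} (hp : Exact p) (k : Fin d)
    (ψ : ℝ → ℝ) (hψ : ∀ r, ψ (r + 1) = ψ r + 1) :
    Exact (fun i => Function.update (p i) k (ψ (p i k))) := by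
  intro x
  let I := {i : ι // ∀ j, j ≠ k → p i j ≤ x j ∧ x j < p i j + 1}
  have hf : ∀ t : ℝ, ∃! i : I, p i.1 k ≤ t ∧ t < p i.1 k + 1 := by
    intro t
    obtain ⟨i, hi, hu⟩ := hp (Function.update x k t)
    refine ⟨⟨i, ?_⟩, ?_, ?_⟩
    · intro j hj
      have := hi j
      rwa [Function.update_of_ne hj] at this
    · have := hi k
      rwa [Function.update_self] at this
    · rintro ⟨j, hj⟩ hjk
      have := hu j (by
        intro l
        by_cases hl : l = k
        · subst hl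
          rw [Function.update_self]; exact hjk
        · rw [Function.update_of_ne hl]; exact hj l hl)
      subst this; rfl
  obtain ⟨i, hi, hu⟩ := line_shift (fun i : I => p i.1 k) hf ψ hψ (x k)
  refine ⟨i.1, ?_, ?_⟩
  · intro l
    by_cases hl : l = k
    · subst hl
      simp only [Function.update_self]; exact hi
    · simp only [Function.update_of_ne hl]; exact i.2 l hl
  · intro j hj
    have hjI : ∀ l, l ≠ k → p j l ≤ x l ∧ x l < p j l + 1 := by
      intro l hl
      have := hj l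
      simpa only [Function.update_of_ne hl] using this
    have := hu ⟨j, hjI⟩ (by
      have := hj k
      simpa only [Function.update_self] using this)
    rw [← this]

lemma Exact.shift {ι : Type*} {d : ℕ} {p : ι → Fin d → ℝ} (hp : Exact p)
    (ψ : ℝ → ℝ) (hψ : ∀ r, ψ (r + 1) = ψ r + 1) :
    Exact (fun i k => ψ (p i k)) := by
  classical
  have key : ∀ s : Finset (Fin d), Exact (fun i k => if k ∈ s then ψ (p i k) else p i k) := by
    intro s
    induction s using Finset.induction_on with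
    | empty => simpa using hp
    | insert a s ha ih =>
      have := ih.shift_one a ψ hψ
      convert this using 2 with i
      funext k
      by_cases hk : k = a
      · subst hk
        simp [ha]
      · simp [hk]
  simpa using key Finset.univ

/-- An exact tiling by integer cubes is a bijection with `ℤᵈ`. -/
lemma Exact.int {ι : Type*} {d : ℕ} {p : ι → Fin d → ℤ} (hp : Exact (fun i k => (p i k : ℝ)))
    (n : Fin d → ℤ) : ∃! i, p i = n := by
  obtain ⟨i, hi, hu⟩ := hp (fun k => (n k : ℝ))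
  have conv : ∀ j, (∀ k, ((p j k : ℤ) : ℝ) ≤ (n k : ℝ) ∧ (n k : ℝ) < (p j k : ℝ) + 1) ↔ p j = n := by
    intro j
    constructor
    · intro h
      funext k
      obtain ⟨h1, h2⟩ := h k
      have h1' : p j k ≤ n k := by exact_mod_cast h1
      have h2' : n k < p j k + 1 := by exact_mod_cast h2
      omega
    · rintro rfl k
      exact ⟨le_refl _, by linarith⟩
  refine ⟨i, (conv i).1 hi, ?_⟩
  intro j hj
  exact hu j ((conv j).2 hj)

/-- distinct translates of an a.e. tiling do not overlap on open sets -/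
lemma no_overlap {d : ℕ} {T : Finset (Fin d → ℤ)} {B : Set (Fin d → ℝ)}
    (hB : IsAETilingBy (cubeThickening T) B) (b b' : B) (z z' : T) (U : Set (Fin d → ℝ))
    (hU : IsOpen U) (hne : U.Nonempty)
    (h : ∀ x ∈ U, ∀ k, (b : Fin d → ℝ) k + ((z : Fin d → ℤ) k : ℝ) ≤ x k ∧
      x k ≤ (b : Fin d → ℝ) k + ((z : Fin d → ℤ) k : ℝ) + 1)
    (h' : ∀ x ∈ U, ∀ k, (b' : Fin d → ℝ) k + ((z' : Fin d → ℤ) k : ℝ) ≤ x k ∧
      x k ≤ (b' : Fin d → ℝ) k + ((z' : Fin d → ℤ) k : ℝ) + 1) : b = b' := by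
  have hD : Dense {x : Fin d → ℝ | ∃! a, a ∈ B ∧ x - a ∈ cubeThickening T} :=
    Measure.dense_of_ae hB
  obtain ⟨y, hyU, a, -, hu⟩ := hD.inter_open_nonempty U hU hne
  have h1 := hu b ⟨b.2, z, z.2, fun k => by
    have := h y hyU k
    simp only [Pi.sub_apply]
    constructor <;> linarith [this.1, this.2]⟩
  have h2 := hu b' ⟨b'.2, z', z'.2, fun k => by
    have := h' y hyU k
    simp only [Pi.sub_apply]
    constructor <;> linarith [this.1, this.2]⟩
  exact Subtype.ext (h1.trans h2.symm)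

lemma grid_injective {d : ℕ} {T : Finset (Fin d → ℤ)} {B : Set (Fin d → ℝ)}
    (hB : IsAETilingBy (cubeThickening T) B) (z : T) :
    Function.Injective (fun (b : B) (k : Fin d) =>
      ⌊2 * ((b : Fin d → ℝ) k + ((z : Fin d → ℤ) k : ℝ))⌋ + 1) := by
  intro b b' hbb
  refine no_overlap hB b b' z z
    (Set.pi Set.univ (fun k => Set.Ioo ((b : Fin d → ℝ) k + ((z : Fin d → ℤ) k : ℝ))
        ((b : Fin d → ℝ) k + ((z : Fin d → ℤ) k : ℝ) + 1) ∩
      Set.Ioo ((b' : Fin d → ℝ) k + ((z : Fin d → ℤ) k : ℝ))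
        ((b' : Fin d → ℝ) k + ((z : Fin d → ℤ) k : ℝ) + 1)))
    (isOpen_set_pi Set.finite_univ (fun k _ => isOpen_Ioo.inter isOpen_Ioo)) ?_ ?_ ?_
  · refine ⟨fun k => ((⌊2 * ((b : Fin d → ℝ) k + ((z : Fin d → ℤ) k : ℝ))⌋ + 1 : ℤ) : ℝ) / 2, ?_⟩
    intro k _
    have hk : ⌊2 * ((b : Fin d → ℝ) k + ((z : Fin d → ℤ) k : ℝ))⌋ + 1 =
      ⌊2 * ((b' : Fin d → ℝ) k + ((z : Fin d → ℤ) k : ℝ))⌋ + 1 := congrFun hbb k
    have a1 := Int.floor_le (2 * ((b : Fin d → ℝ) k + ((z : Fin d → ℤ) k : ℝ)))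
    have a2 := Int.lt_floor_add_one (2 * ((b : Fin d → ℝ) k + ((z : Fin d → ℤ) k : ℝ)))
    have a3 := Int.floor_le (2 * ((b' : Fin d → ℝ) k + ((z : Fin d → ℤ) k : ℝ)))
    have a4 := Int.lt_floor_add_one (2 * ((b' : Fin d → ℝ) k + ((z : Fin d → ℤ) k : ℝ)))
    have hk' : ((⌊2 * ((b : Fin d → ℝ) k + ((z : Fin d → ℤ) k : ℝ))⌋ : ℤ) : ℝ) =
      (⌊2 * ((b' : Fin d → ℝ) k + ((z : Fin d → ℤ) k : ℝ))⌋ : ℤ) := by
      exact_mod_cast (by omega : ⌊2 * ((b : Fin d → ℝ) k + ((z : Fin d → ℤ) k : ℝ))⌋ =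
        ⌊2 * ((b' : Fin d → ℝ) k + ((z : Fin d → ℤ) k : ℝ))⌋)
    rw [← hk'] at a3 a4
    simp only [Set.mem_inter_iff, Set.mem_Ioo]
    push_cast
    refine ⟨⟨?_, ?_⟩, ?_, ?_⟩ <;> linarith
  · intro x hx k
    have := hx k (Set.mem_univ k)
    exact ⟨this.1.1.le, this.1.2.le⟩
  · intro x hx k
    have := hx k (Set.mem_univ k)
    exact ⟨this.2.1.le, this.2.2.le⟩

lemma near_finite {d : ℕ} {T : Finset (Fin d → ℤ)} {B : Set (Fin d → ℝ)}
    (hB : IsAETilingBy (cubeThickening T) B) (x : Fin d → ℝ) :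
    {i : B × T | ∀ k, x k - 1 ≤ (i.1 : Fin d → ℝ) k + ((i.2 : Fin d → ℤ) k : ℝ) ∧
      (i.1 : Fin d → ℝ) k + ((i.2 : Fin d → ℤ) k : ℝ) ≤ x k + 1}.Finite := by
  have h1 : ∀ z : T, {b : B | ∀ k, x k - 1 ≤ (b : Fin d → ℝ) k + ((z : Fin d → ℤ) k : ℝ) ∧
      (b : Fin d → ℝ) k + ((z : Fin d → ℤ) k : ℝ) ≤ x k + 1}.Finite := by
    intro z
    refine Set.Finite.subset (Set.Finite.preimage ((grid_injective hB z).injOn)
      (Set.finite_Icc (fun k => ⌊2 * (x k - 1)⌋ + 1) (fun k => ⌊2 * (x k + 1)⌋ + 1))) ?_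
    intro b hb
    simp only [Set.mem_preimage, Set.mem_Icc]
    constructor
    · intro k
      have := (hb k).1
      have h := Int.floor_le_floor (show 2 * (x k - 1) ≤ 2 * ((b : Fin d → ℝ) k +
        ((z : Fin d → ℤ) k : ℝ)) by linarith)
      simpa using h
    · intro k
      have := (hb k).2
      have h := Int.floor_le_floor (show 2 * ((b : Fin d → ℝ) k +
        ((z : Fin d → ℤ) k : ℝ)) ≤ 2 * (x k + 1) by linarith)
      simpa using h
  refine Set.Finite.subset (Set.finite_iUnion (fun z : T => (h1 z).image (fun b => (b, z)))) ?_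
  rintro ⟨b, z⟩ hbz
  exact Set.mem_iUnion.2 ⟨z, b, hbz, rfl⟩

/-- an a.e. tiling by `T + [0,1]ᵈ` is an exact tiling by half open cubes -/
lemma exact_of_ae {d : ℕ} {T : Finset (Fin d → ℤ)} {B : Set (Fin d → ℝ)}
    (hB : IsAETilingBy (cubeThickening T) B) :
    Exact (fun (i : B × T) k => (i.1 : Fin d → ℝ) k + ((i.2 : Fin d → ℤ) k : ℝ)) := by
  have hD : Dense {x : Fin d → ℝ | ∃! a, a ∈ B ∧ x - a ∈ cubeThickening T} :=
    Measure.dense_of_ae hB
  intro x
  have hex : ∃ i : B × T, ∀ k, (i.1 : Fin d → ℝ) k + ((i.2 : Fin d → ℤ) k : ℝ) ≤ x k ∧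
      x k < (i.1 : Fin d → ℝ) k + ((i.2 : Fin d → ℤ) k : ℝ) + 1 := by
    by_contra hno
    push Not at hno
    have hfin := near_finite hB x
    have hev : ∀ᶠ ε in nhdsWithin (0 : ℝ) (Set.Ioi 0), ∀ i ∈ {i : B × T | ∀ k,
        x k - 1 ≤ (i.1 : Fin d → ℝ) k + ((i.2 : Fin d → ℤ) k : ℝ) ∧
        (i.1 : Fin d → ℝ) k + ((i.2 : Fin d → ℤ) k : ℝ) ≤ x k + 1},
        ∀ y : Fin d → ℝ, (∀ k, x k < y k ∧ y k < x k + ε) →
          ¬ ∀ k, (i.1 : Fin d → ℝ) k + ((i.2 : Fin d → ℤ) k : ℝ) ≤ y k ∧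
            y k ≤ (i.1 : Fin d → ℝ) k + ((i.2 : Fin d → ℤ) k : ℝ) + 1 := by
      rw [Filter.eventually_all_finite hfin]
      intro i _
      obtain ⟨k, hk⟩ := hno i
      by_cases hlt : x k < (i.1 : Fin d → ℝ) k + ((i.2 : Fin d → ℤ) k : ℝ)
      · have : Set.Ioo (0 : ℝ) ((i.1 : Fin d → ℝ) k + ((i.2 : Fin d → ℤ) k : ℝ) - x k) ∈
            nhdsWithin (0 : ℝ) (Set.Ioi 0) := Ioo_mem_nhdsGT (by linarith)
        filter_upwards [this] with ε hε y hy hcon
        have h1 := (hcon k).1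
        have h2 := (hy k).2
        have h3 := hε.2
        linarith
      · have h4 := hk (by linarith)
        refine Filter.Eventually.of_forall ?_
        intro ε y hy hcon
        have h1 := (hcon k).2
        have h2 := (hy k).1
        linarith
    have hsmall : Set.Ioo (0 : ℝ) 1 ∈ nhdsWithin (0 : ℝ) (Set.Ioi 0) :=
      Ioo_mem_nhdsGT (by norm_num)
    obtain ⟨ε, hε, hε1⟩ := (hev.and hsmall).exists
    obtain ⟨y, hyU, a, ⟨haB, z, hz, haz⟩, -⟩ := hD.inter_open_nonempty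
      (Set.pi Set.univ (fun k => Set.Ioo (x k) (x k + ε)))
      (isOpen_set_pi Set.finite_univ (fun k _ => isOpen_Ioo))
      ⟨fun k => x k + ε / 2, fun k _ => ⟨by linarith [hε1.1], by linarith [hε1.1]⟩⟩
    have hy : ∀ k, x k < y k ∧ y k < x k + ε := fun k => hyU k (Set.mem_univ k)
    have haz' : ∀ k, a k + (z k : ℝ) ≤ y k ∧ y k ≤ a k + (z k : ℝ) + 1 := by
      intro k
      have := haz k
      simp only [Pi.sub_apply] at this
      constructor <;> linarith [this.1, this.2]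
    refine hε (⟨a, haB⟩, ⟨z, hz⟩) ?_ y hy haz'
    intro k
    have h1 := haz' k
    have h2 := hy k
    have h3 := hε1.2
    constructor <;> simp only <;> linarith [h1.1, h1.2, h2.1, h2.2]
  obtain ⟨i, hi⟩ := hex
  refine ⟨i, hi, ?_⟩
  intro j hj
  have hb : j.1 = i.1 := by
    refine no_overlap hB j.1 i.1 j.2 i.2
      (Set.pi Set.univ (fun k => Set.Ioo (x k) (x k + min
        ((i.1 : Fin d → ℝ) k + ((i.2 : Fin d → ℤ) k : ℝ) + 1 - x k)
        ((j.1 : Fin d → ℝ) k + ((j.2 : Fin d → ℤ) k : ℝ) + 1 - x k))))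
      (isOpen_set_pi Set.finite_univ (fun k _ => isOpen_Ioo)) ?_ ?_ ?_
    · refine Set.univ_pi_nonempty_iff.2 (fun k => Set.nonempty_Ioo.2 ?_)
      have h1 := (hi k).2
      have h2 := (hj k).2
      have : 0 < min ((i.1 : Fin d → ℝ) k + ((i.2 : Fin d → ℤ) k : ℝ) + 1 - x k)
        ((j.1 : Fin d → ℝ) k + ((j.2 : Fin d → ℤ) k : ℝ) + 1 - x k) :=
        lt_min (by linarith) (by simp only at h2; linarith)
      linarith
    · intro y hy k
      have h1 := hy k (Set.mem_univ k)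
      have h2 := hj k
      simp only at h2
      have h3 := min_le_right ((i.1 : Fin d → ℝ) k + ((i.2 : Fin d → ℤ) k : ℝ) + 1 - x k)
        ((j.1 : Fin d → ℝ) k + ((j.2 : Fin d → ℤ) k : ℝ) + 1 - x k)
      constructor <;> linarith [h1.1, h1.2, h2.1, h2.2]
    · intro y hy k
      have h1 := hy k (Set.mem_univ k)
      have h2 := hi k
      have h3 := min_le_left ((i.1 : Fin d → ℝ) k + ((i.2 : Fin d → ℤ) k : ℝ) + 1 - x k)
        ((j.1 : Fin d → ℝ) k + ((j.2 : Fin d → ℤ) k : ℝ) + 1 - x k)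
      constructor <;> linarith [h1.1, h1.2, h2.1, h2.2]
  refine Prod.ext hb (Subtype.ext (funext fun k => ?_))
  have h1 := hi k
  have h2 := hj k
  simp only at h2
  rw [hb] at h2
  have h3 : ((j.2 : Fin d → ℤ) k : ℝ) < ((i.2 : Fin d → ℤ) k : ℝ) + 1 := by linarith [h1.2, h2.1]
  have h4 : ((i.2 : Fin d → ℤ) k : ℝ) < ((j.2 : Fin d → ℤ) k : ℝ) + 1 := by linarith [h1.1, h2.2]
  have h3' : (j.2 : Fin d → ℤ) k < (i.2 : Fin d → ℤ) k + 1 := by exact_mod_cast h3
  have h4' : (i.2 : Fin d → ℤ) k < (j.2 : Fin d → ℤ) k + 1 := by exact_mod_cast h4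
  omega

/-! ### integer tilings from a.e. tilings -/

lemma phi_int (Φ : ℝ →ₗ[ℚ] ℚ) (h1 : Φ 1 = 1) (n : ℤ) : Φ (n : ℝ) = n := by
  have : ((n : ℝ)) = (n : ℚ) • (1 : ℝ) := by
    rw [Rat.smul_def]; push_cast; ring
  rw [this, map_smul, h1]; simp

lemma floor_phi_add (Φ : ℝ →ₗ[ℚ] ℚ) (h1 : Φ 1 = 1) (r : ℝ) (n : ℤ) :
    ⌊Φ (r + n)⌋ = ⌊Φ r⌋ + n := by
  rw [map_add, phi_int Φ h1, Int.floor_add_intCast]

lemma int_tiling {d : ℕ} {T : Finset (Fin d → ℤ)} {B : Set (Fin d → ℝ)}
    (hB : IsAETilingBy (cubeThickening T) B) (Φ : ℝ →ₗ[ℚ] ℚ) (h1 : Φ 1 = 1) :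
    IsTilingBy T {a : Fin d → ℤ | ∃ b ∈ B, ∀ k, a k = ⌊Φ (b k)⌋} := by
  have hE := (exact_of_ae hB).shift (fun r => ((⌊Φ r⌋ : ℤ) : ℝ)) (by
    intro r
    have := floor_phi_add Φ h1 r 1
    push_cast at this
    rw [this]; push_cast; ring)
  have hE' := Exact.int (p := fun (i : B × T) k =>
    ⌊Φ ((i.1 : Fin d → ℝ) k + ((i.2 : Fin d → ℤ) k : ℝ))⌋) hE
  intro n
  obtain ⟨⟨⟨b, hb⟩, ⟨z, hz⟩⟩, hi, hu⟩ := hE' n
  have hi' : ∀ k, ⌊Φ (b k)⌋ + z k = n k := by
    intro k
    rw [← floor_phi_add Φ h1]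
    exact congrFun hi k
  refine ⟨(fun k => ⌊Φ (b k)⌋, z), ⟨⟨b, hb, fun k => rfl⟩, hz, funext hi'⟩, ?_⟩
  rintro ⟨a', z'⟩ ⟨⟨b', hb', ha'⟩, hz', hsum⟩
  simp only at ha' hz' hsum
  have hj : (⟨⟨b', hb'⟩, ⟨z', hz'⟩⟩ : B × T) = ⟨⟨b, hb⟩, ⟨z, hz⟩⟩ := by
    apply hu
    funext k
    simp only
    rw [floor_phi_add Φ h1, ← ha' k]
    exact congrFun hsum k
  have hb2 : b' = b := by
    have := congrArg (fun q : B × T => (q.1 : Fin d → ℝ)) hj
    exact this
  have hz2 : z' = z := by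
    have := congrArg (fun q : B × T => (q.2 : Fin d → ℤ)) hj
    exact this
  subst hb2 hz2
  refine Prod.ext (funext fun k => ?_) rfl
  exact ha' k

lemma exists_hamel : ∃ (ι : Type) (β : Module.Basis ι ℚ ℝ) (i0 : ι), β i0 = 1 := by
  have hli : LinearIndepOn ℚ id ({1} : Set ℝ) := by
    rw [linearIndepOn_singleton_iff]
    exact one_ne_zero
  exact ⟨_, Module.Basis.extend hli,
    ⟨1, Module.Basis.subset_extend hli (Set.mem_singleton 1)⟩,
    Module.Basis.extend_apply_self hli _⟩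

/-- A `ℚ`-linear functional `ℝ → ℚ` fixing `1` and keeping a given real matrix invertible. -/
lemma exists_phi {d : ℕ} (M : Matrix (Fin d) (Fin d) ℝ) (hM : M.det ≠ 0) :
    ∃ Φ : ℝ →ₗ[ℚ] ℚ, Φ 1 = 1 ∧ (Matrix.of fun i j => Φ (M i j)).det ≠ 0 := by
  classical
  obtain ⟨ι, β, i0, hi0⟩ := exists_hamel
  let s : Finset (ι) :=
    Finset.univ.biUnion fun i : Fin d => Finset.univ.biUnion fun j : Fin d =>
      (β.repr (M i j)).support
  have hs : ∀ i j, (β.repr (M i j)).support ⊆ s := by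
    intro i j t ht
    simp only [s, Finset.mem_biUnion, Finset.mem_univ, true_and]
    exact ⟨i, j, ht⟩
  let N : (ι → ℝ) → Matrix (Fin d) (Fin d) ℝ := fun τ =>
    Matrix.of fun i j => ∑ t ∈ s, ((β.repr (M i j) t : ℚ) : ℝ) * τ t
  have hNβ : N (fun t => β t) = M := by
    ext i j
    simp only [N, Matrix.of_apply]
    have h := β.linearCombination_repr (M i j)
    rw [Finsupp.linearCombination_apply,
      Finsupp.sum_of_support_subset _ (hs i j) _ (by simp)] at h
    conv_rhs => rw [← h]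
    refine Finset.sum_congr rfl fun t _ => ?_
    rw [Rat.smul_def]
  have hcont : Continuous (fun τ : ι → ℝ =>
      (N (Function.update τ i0 1)).det) := by
    apply Continuous.matrix_det
    apply continuous_matrix
    intro i j
    simp only [N, Matrix.of_apply]
    refine continuous_finsetSum _ fun t _ => continuous_const.mul ?_
    by_cases ht : t = i0
    · subst ht
      simpa using continuous_const
    · simp only [Function.update_of_ne ht]
      exact continuous_apply t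
  have hdense : DenseRange (fun (q : ι → ℚ) t => ((q t : ℚ) : ℝ)) :=
    DenseRange.piMap (fun _ => Rat.denseRange_cast)
  have hopen : IsOpen {τ : ι → ℝ |
      (N (Function.update τ i0 1)).det ≠ 0} := isOpen_ne.preimage hcont
  obtain ⟨q, hq⟩ := hdense.exists_mem_open hopen ⟨fun t => β t, by
    have h2 : Function.update (fun t => β t) i0 1 = fun t => β t := by
      rw [← hi0]; exact Function.update_eq_self _ _
    show (N (Function.update (fun t => β t) i0 1)).det ≠ 0
    rw [h2, hNβ]; exact hM⟩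
  refine ⟨β.constr ℕ (Function.update q i0 1), ?_, ?_⟩
  · rw [← hi0, Module.Basis.constr_basis]; simp
  · intro hdet
    apply hq
    have hcast : N (Function.update (fun t => ((q t : ℚ) : ℝ)) i0 1) =
        (Matrix.of fun i j => β.constr ℕ (Function.update q i0 1) (M i j)).map
          (Rat.castHom ℝ) := by
      ext i j
      simp only [N, Matrix.of_apply, Matrix.map_apply]
      rw [Module.Basis.constr_apply, Finsupp.sum_of_support_subset _ (hs i j) _ (by simp)]
      rw [map_sum]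
      refine Finset.sum_congr rfl fun t _ => ?_
      simp only [smul_eq_mul, map_mul, eq_ratCast]
      congr 1
      by_cases ht : t = i0
      · subst ht; simp
      · simp [Function.update_of_ne ht]
    show (N (Function.update (fun t => ((q t : ℚ) : ℝ)) i0 1)).det = 0
    rw [hcast, ← RingHom.mapMatrix_apply, ← RingHom.map_det, hdet, map_zero]

/-- the period group of the integer tiling -/
def perGroup {d : ℕ} (Φ : ℝ →ₗ[ℚ] ℚ) (L : Submodule ℤ (Fin d → ℝ)) :
    AddSubgroup (Fin d → ℤ) where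
  carrier := {h | ∃ v ∈ L, ∀ k, Φ (v k) = h k}
  zero_mem' := ⟨0, L.zero_mem, fun k => by simp⟩
  add_mem' := by
    rintro a b ⟨v, hv, hva⟩ ⟨w, hw, hwb⟩
    exact ⟨v + w, L.add_mem hv hw, fun k => by simp [hva, hwb]⟩
  neg_mem' := by
    rintro a ⟨v, hv, hva⟩
    exact ⟨-v, L.neg_mem hv, fun k => by simp [hva]⟩

lemma exists_int_matrix {d : ℕ} (D : Matrix (Fin d) (Fin d) ℚ) :
    ∃ (n : ℤ) (D' : Matrix (Fin d) (Fin d) ℤ), n ≠ 0 ∧ ∀ i j, (D' i j : ℚ) = n * D i j := by
  classical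
  refine ⟨∏ i, ∏ j, ((D i j).den : ℤ),
    fun i j => (D i j).num * (∏ p ∈ (Finset.univ.erase (i, j)), ((D p.1 p.2).den : ℤ)), ?_, ?_⟩
  · refine Finset.prod_ne_zero_iff.2 fun i _ => Finset.prod_ne_zero_iff.2 fun j _ => ?_
    exact_mod_cast (D i j).den_ne_zero
  · intro i j
    have h1 : (∏ i, ∏ j, ((D i j).den : ℤ)) =
        ((D i j).den : ℤ) * (∏ p ∈ (Finset.univ.erase (i, j)), ((D p.1 p.2).den : ℤ)) := by
      rw [← Finset.prod_product', Finset.univ_product_univ,
        ← Finset.mul_prod_erase Finset.univ (fun p : Fin d × Fin d => ((D p.1 p.2).den : ℤ))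
          (Finset.mem_univ (i, j))]
    rw [h1]
    have h2 : ((D i j).den : ℚ) * D i j = (D i j).num := by
      exact_mod_cast Rat.den_mul_eq_num (D i j)
    push_cast
    rw [← h2]; ring

lemma perGroup_finiteIndex {d : ℕ} (Φ : ℝ →ₗ[ℚ] ℚ) (b : Fin d → (Fin d → ℝ))
    (hdet : (Matrix.of fun i j => Φ (b i j)).det ≠ 0) :
    (perGroup Φ (Submodule.span ℤ (Set.range b))).FiniteIndex := by
  classical
  obtain ⟨n, D', hn, hD'⟩ := exists_int_matrix (Matrix.of fun i j => Φ (b i j))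
  have hdet' : D'.det ≠ 0 := by
    intro h0
    have h1 : (D'.map (Int.castRingHom ℚ)).det = 0 := by
      rw [← RingHom.mapMatrix_apply, ← RingHom.map_det, h0, map_zero]
    have h2 : D'.map (Int.castRingHom ℚ) = (n : ℚ) • (Matrix.of fun i j => Φ (b i j)) := by
      ext i j
      simp only [Matrix.map_apply, eq_intCast, Matrix.smul_apply, smul_eq_mul]
      exact hD' i j
    rw [h2, Matrix.det_smul] at h1
    rcases mul_eq_zero.1 h1 with h | h
    · exact pow_ne_zero _ (Int.cast_ne_zero.2 hn) h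
    · exact hdet h
  set δ : ℤ := D'.det with hδ
  have hmul : ∀ w : Fin d → ℤ, δ • w ∈ perGroup Φ (Submodule.span ℤ (Set.range b)) := by
    intro w
    let u : Fin d → ℤ := Matrix.vecMul w D'.adjugate
    have hu : Matrix.vecMul u D' = δ • w := by
      simp only [u]
      rw [Matrix.vecMul_vecMul, Matrix.adjugate_mul, ← hδ, Matrix.vecMul_smul, Matrix.vecMul_one]
    refine ⟨∑ j, (u j * n) • b j, Submodule.sum_mem _ fun j _ =>
      Submodule.smul_mem _ _ (Submodule.subset_span ⟨j, rfl⟩), ?_⟩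
    intro k
    rw [← hu]
    simp only [Finset.sum_apply, Pi.smul_apply, Matrix.vecMul, dotProduct]
    rw [map_sum]
    push_cast
    refine Finset.sum_congr rfl fun j _ => ?_
    rw [map_zsmul, hD' j k, zsmul_eq_mul]
    push_cast
    simp only [Matrix.of_apply]
    ring
  have hδ0 : δ.natAbs ≠ 0 := by simpa using hdet'
  have : NeZero δ.natAbs := ⟨hδ0⟩
  let f : (Fin d → ℤ) →+ (Fin d → ZMod δ.natAbs) :=
    { toFun := fun w k => (w k : ZMod δ.natAbs)
      map_zero' := by funext k; simp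
      map_add' := by intro x y; funext k; simp }
  have : f.ker.FiniteIndex := inferInstance
  refine AddSubgroup.finiteIndex_of_le (H := f.ker) ?_
  intro w hw
  have hw' : ∀ k, (w k : ZMod δ.natAbs) = 0 := fun k => congrFun hw k
  have hdiv : ∀ k, δ ∣ w k := by
    intro k
    have := (ZMod.intCast_zmod_eq_zero_iff_dvd (w k) δ.natAbs).1 (hw' k)
    exact Int.natAbs_dvd.1 this
  choose c hc using hdiv
  have : w = δ • c := by
    funext k
    simpa using hc k
  rw [this]
  exact hmul c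

/-- **Real from integer, negative part.** -/
theorem not_latticePeriodic {d : ℕ} {T : Finset (Fin d → ℤ)}
    (h : ∀ A : Set (Fin d → ℤ), IsTilingBy T A → ¬ IsFullyPeriodic A)
    (B : Set (Fin d → ℝ)) (hB : IsAETilingBy (cubeThickening T) B) : ¬ IsLatticePeriodic B := by
  classical
  rintro ⟨b, hb⟩
  have hM : (Matrix.of fun i j => b i j).det ≠ 0 := by
    have h1 : LinearIndependent ℝ (Matrix.of fun i j => b i j).row := b.linearIndependent
    have h2 := (Matrix.linearIndependent_rows_iff_isUnit).1 h1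
    exact ((Matrix.isUnit_iff_isUnit_det _).1 h2).ne_zero
  obtain ⟨Φ, hΦ1, hΦ⟩ := exists_phi _ hM
  refine h _ (int_tiling hB Φ hΦ1)
    ⟨perGroup Φ (Submodule.span ℤ (Set.range b)), perGroup_finiteIndex Φ b hΦ, ?_⟩
  rintro g ⟨v, hv, hvg⟩ a ⟨x, hx, hxa⟩
  refine ⟨v + x, hb v hv x hx, ?_⟩
  intro k
  simp only [Pi.add_apply]
  rw [hxa k, map_add, hvg k, Int.floor_intCast_add]

/-- **Real from integer, positive part.** -/
theorem exists_ae_tiling {d : ℕ} {T : Finset (Fin d → ℤ)} {A : Set (Fin d → ℤ)}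
    (hA : IsTilingBy T A) :
    IsAETilingBy (cubeThickening T) ((fun (a : Fin d → ℤ) k => (a k : ℝ)) '' A) := by
  have hae : ∀ᵐ x : Fin d → ℝ, ∀ (k : Fin d) (n : ℤ), x k ≠ n := by
    rw [ae_all_iff]
    intro k
    rw [ae_all_iff]
    intro n
    have : (volume : Measure (Fin d → ℝ)) {x | x k = n} = 0 := by
      rw [volume_pi]
      exact Measure.pi_hyperplane (fun _ : Fin d => (volume : Measure ℝ)) k (n : ℝ)
    rw [ae_iff]
    simpa using this
  filter_upwards [hae] with x hx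
  have key : ∀ a z : Fin d → ℤ, (∀ k, (z k : ℝ) ≤ x k - a k ∧ x k - a k ≤ z k + 1) ↔
      a + z = fun k => ⌊x k⌋ := by
    intro a z
    constructor
    · intro h
      funext k
      obtain ⟨h1, h2⟩ := h k
      symm
      rw [Int.floor_eq_iff]
      simp only [Pi.add_apply]
      push_cast
      refine ⟨by linarith, lt_of_le_of_ne (by linarith) ?_⟩
      have := hx k (a k + z k + 1)
      push_cast at this
      exact this
    · intro h k
      have hk := congrFun h k
      simp only [Pi.add_apply] at hk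
      have hk' : (a k : ℝ) + z k = (⌊x k⌋ : ℤ) := by exact_mod_cast hk
      have h1 := Int.floor_le (x k)
      have h2 := Int.lt_floor_add_one (x k)
      constructor <;> linarith
  obtain ⟨⟨a, z⟩, ⟨ha, hz, haz⟩, hu⟩ := hA (fun k => ⌊x k⌋)
  refine ⟨fun k => (a k : ℝ), ⟨⟨a, ha, rfl⟩, z, hz, (key a z).2 haz⟩, ?_⟩
  rintro _ ⟨⟨a', ha', rfl⟩, z', hz', haz'⟩
  have := hu (a', z') ⟨ha', hz', (key a' z').1 haz'⟩
  have h1 : a' = a := congrArg Prod.fst this
  rw [h1]

/-- **Row 46**: the integer conjuncts imply the real ones, for every finite tile. -/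
theorem real_part {d : ℕ} {T : Finset (Fin d → ℤ)}
    (hex : ∃ A : Set (Fin d → ℤ), IsTilingBy T A)
    (h : ∀ A : Set (Fin d → ℤ), IsTilingBy T A → ¬ IsFullyPeriodic A) :
    (∃ B : Set (Fin d → ℝ), IsAETilingBy (cubeThickening T) B) ∧
      ∀ B : Set (Fin d → ℝ), IsAETilingBy (cubeThickening T) B → ¬ IsLatticePeriodic B := by
  obtain ⟨A, hA⟩ := hex
  exact ⟨⟨_, exists_ae_tiling hA⟩, not_latticePeriodic h⟩

end Crest.Agent.R046.RealPart
end

-- ▼ part R046/Product
section

set_option autoImplicit false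
set_option linter.unusedSectionVars false

/-! Row 46: fibrewise products of component systems.

Base group `B` (later `ℤ × ℤ`), finite fibre groups `H i` (`i : I`), total group
`B × ∀ i, H i`.  Every component `A i ⊆ B × H i` is transversal to `{0} × T i`.
The tiles `indTile T i s` force a common complement to be a fibrewise product `fprod A`, and the
tile `extTile T i F` is then the tile `F` for the component `A i`. -/

namespace Crest.Agent.R046

open Crest.CombinatoricsR.Tiling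

section basic

variable {G : Type*} [AddCommGroup G]

theorem isTilingBy_iff {F : Finset G} {A : Set G} :
    IsTilingBy F A ↔ ∀ x, ∃! f, f ∈ F ∧ x - f ∈ A := by
  constructor
  · intro h x
    obtain ⟨⟨a, f⟩, ⟨ha, hf, haf⟩, hu⟩ := h x
    simp only at ha hf haf
    refine ⟨f, ⟨hf, by rw [← haf]; simpa using ha⟩, ?_⟩
    rintro f' ⟨hf', ha'⟩
    have := hu (x - f', f') ⟨ha', hf', by simp⟩
    exact congrArg Prod.snd this
  · intro h x
    obtain ⟨f, ⟨hf, ha⟩, hu⟩ := h x
    refine ⟨(x - f, f), ⟨ha, hf, by simp⟩, ?_⟩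
    rintro ⟨a', f'⟩ ⟨ha', hf', haf'⟩
    simp only at ha' hf' haf'
    have h1 : a' = x - f' := by rw [← haf']; abel
    have h2 := hu f' ⟨hf', by rw [← h1]; exact ha'⟩
    rw [h1, h2]

end basic

section product

variable {B : Type*} [AddCommGroup B] [DecidableEq B]
variable {I : Type*} [Fintype I] [DecidableEq I]
variable {H : I → Type*} [∀ i, AddCommGroup (H i)] [∀ i, Fintype (H i)] [∀ i, DecidableEq (H i)]

/-- the tile `{0} × T` -/
def fibTile {K : Type*} [DecidableEq K] (T : Finset K) : Finset (B × K) :=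
  T.image (fun h => ((0 : B), h))

theorem mem_fibTile {K : Type*} [DecidableEq K] {T : Finset K} {p : B × K} :
    p ∈ fibTile (B := B) T ↔ p.1 = 0 ∧ p.2 ∈ T := by
  unfold fibTile
  rw [Finset.mem_image]
  constructor
  · rintro ⟨h, hh, rfl⟩; exact ⟨rfl, hh⟩
  · rintro ⟨h1, h2⟩; exact ⟨p.2, h2, by rw [← h1]⟩

/-- `A` meets every translate of `-T` in every fibre exactly once -/
def Transv {K : Type*} [AddCommGroup K] (T : Finset K) (A : Set (B × K)) : Prop :=
  ∀ (b : B) (h : K), ∃! t, t ∈ T ∧ (b, h - t) ∈ A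

theorem isTilingBy_fibTile {K : Type*} [AddCommGroup K] [DecidableEq K] {T : Finset K}
    {A : Set (B × K)} : IsTilingBy (fibTile T) A ↔ Transv T A := by
  rw [isTilingBy_iff]
  constructor
  · intro hh b h
    obtain ⟨⟨c, t⟩, ⟨hf, ha⟩, hu⟩ := hh (b, h)
    rw [mem_fibTile] at hf
    obtain ⟨h1, h2⟩ := hf
    simp only at h1 h2
    subst h1
    refine ⟨t, ⟨h2, by simpa using ha⟩, ?_⟩
    rintro t' ⟨ht', ha'⟩
    have := hu (0, t') ⟨mem_fibTile.2 ⟨rfl, ht'⟩, by simpa using ha'⟩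
    exact congrArg Prod.snd this
  · rintro hh ⟨b, h⟩
    obtain ⟨t, ⟨ht, ha⟩, hu⟩ := hh b h
    refine ⟨(0, t), ⟨mem_fibTile.2 ⟨rfl, ht⟩, by simpa using ha⟩, ?_⟩
    rintro ⟨c, t'⟩ ⟨hf', ha'⟩
    rw [mem_fibTile] at hf'
    obtain ⟨h1, h2⟩ := hf'
    simp only at h1 h2
    subst h1
    rw [hu t' ⟨h2, by simpa using ha'⟩]

/-- the fibrewise product of the components -/
def fprod (A : ∀ i, Set (B × H i)) : Set (B × ∀ i, H i) := {p | ∀ i, (p.1, p.2 i) ∈ A i}

omit [AddCommGroup B] [DecidableEq B] [Fintype I] [DecidableEq I] [∀ i, AddCommGroup (H i)]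
  [∀ i, Fintype (H i)] [∀ i, DecidableEq (H i)] in
theorem mem_fprod {A : ∀ i, Set (B × H i)} {p : B × ∀ i, H i} :
    p ∈ fprod A ↔ ∀ i, (p.1, p.2 i) ∈ A i := Iff.rfl

/-- the tile `F` of component `i`, times the full transversals of the other components -/
def extTile (T : ∀ i, Finset (H i)) (i : I) (F : Finset (B × H i)) : Finset (B × ∀ i, H i) :=
  ((F.image Prod.fst) ×ˢ Finset.univ).filter
    (fun p => (p.1, p.2 i) ∈ F ∧ ∀ j, j ≠ i → p.2 j ∈ T j)

theorem mem_extTile {T : ∀ i, Finset (H i)} {i : I} {F : Finset (B × H i)}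
    {p : B × ∀ i, H i} :
    p ∈ extTile T i F ↔ (p.1, p.2 i) ∈ F ∧ ∀ j, j ≠ i → p.2 j ∈ T j := by
  unfold extTile
  rw [Finset.mem_filter, Finset.mem_product, Finset.mem_image]
  constructor
  · exact fun h => h.2
  · exact fun h => ⟨⟨⟨_, h.1, rfl⟩, Finset.mem_univ _⟩, h⟩

/-- the independence tile -/
def indTile (T : ∀ i, Finset (H i)) (i : I) (s : ∀ i, H i) : Finset (B × ∀ i, H i) :=
  (({0} : Finset B) ×ˢ Finset.univ).filter
    (fun p => (p.2 i ∈ T i ∧ p.2 i ≠ 0 ∧ ∀ j, j ≠ i → p.2 j ∈ T j) ∨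
      (p.2 i = 0 ∧ ∀ j, j ≠ i → p.2 j - s j ∈ T j))

theorem mem_indTile {T : ∀ i, Finset (H i)} {i : I} {s : ∀ i, H i} {p : B × ∀ i, H i} :
    p ∈ indTile (B := B) T i s ↔ p.1 = 0 ∧
      ((p.2 i ∈ T i ∧ p.2 i ≠ 0 ∧ ∀ j, j ≠ i → p.2 j ∈ T j) ∨
      (p.2 i = 0 ∧ ∀ j, j ≠ i → p.2 j - s j ∈ T j)) := by
  unfold indTile
  rw [Finset.mem_filter, Finset.mem_product, Finset.mem_singleton]
  constructor
  · exact fun h => ⟨h.1.1, h.2⟩
  · exact fun h => ⟨⟨h.1, Finset.mem_univ _⟩, h.2⟩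

variable {T : ∀ i, Finset (H i)} {A : ∀ i, Set (B × H i)}

theorem tiles_ext_iff (hT : ∀ i, Transv (T i) (A i)) (i : I) (F : Finset (B × H i)) :
    IsTilingBy (extTile T i F) (fprod A) ↔ IsTilingBy F (A i) := by
  rw [isTilingBy_iff, isTilingBy_iff]
  -- the choice of the other coordinates
  choose t ht htu using hT
  simp only at ht htu
  constructor
  · rintro hh ⟨b, x⟩
    obtain ⟨⟨c, f⟩, ⟨hf, ha⟩, hu⟩ := hh (b, Function.update 0 i x)
    rw [mem_extTile] at hf
    rw [mem_fprod] at ha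
    simp only at hf ha
    refine ⟨(c, f i), ⟨hf.1, by simpa using ha i⟩, ?_⟩
    rintro ⟨c', u'⟩ ⟨hf', ha'⟩
    simp only [Prod.mk_sub_mk] at ha'
    let f' : ∀ j, H j := Function.update
      (fun j => t j (b - c') ((Function.update (0 : ∀ j, H j) i x) j)) i u'
    have hf'i : f' i = u' := Function.update_self _ _ _
    have hf'j : ∀ j, j ≠ i → f' j = t j (b - c') ((Function.update (0 : ∀ j, H j) i x) j) :=
      fun j hj => Function.update_of_ne hj _ _
    have h1 : ((c', f') : B × ∀ j, H j) = (c, f) := by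
      refine hu (c', f') ⟨mem_extTile.2 ⟨by simp only [hf'i]; exact hf', ?_⟩, ?_⟩
      · intro j hj
        simp only
        rw [hf'j j hj]
        exact (ht j _ _).1
      · rw [mem_fprod]
        intro j
        simp only [Prod.mk_sub_mk, Pi.sub_apply]
        by_cases hj : j = i
        · subst hj
          rw [hf'i, Function.update_self]; exact ha'
        · rw [hf'j j hj]; exact (ht j _ _).2
    have h2 := congrArg Prod.fst h1
    have h3 := congrArg Prod.snd h1
    simp only at h2 h3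
    rw [← h2, ← h3, hf'i]
  · rintro hh ⟨b, h⟩
    obtain ⟨⟨c, u⟩, ⟨hf, ha⟩, hu⟩ := hh (b, h i)
    simp only [Prod.mk_sub_mk] at ha
    let f : ∀ j, H j := Function.update (fun j => t j (b - c) (h j)) i u
    have hfi : f i = u := Function.update_self _ _ _
    have hfj : ∀ j, j ≠ i → f j = t j (b - c) (h j) :=
      fun j hj => Function.update_of_ne hj _ _
    refine ⟨(c, f), ⟨mem_extTile.2 ⟨by simp only [hfi]; exact hf, ?_⟩, ?_⟩, ?_⟩
    · intro j hj
      simp only
      rw [hfj j hj]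
      exact (ht j _ _).1
    · rw [mem_fprod]
      intro j
      simp only [Prod.mk_sub_mk, Pi.sub_apply]
      by_cases hj : j = i
      · subst hj
        rw [hfi]; exact ha
      · rw [hfj j hj]; exact (ht j _ _).2
    · rintro ⟨c', f'⟩ ⟨hf', ha'⟩
      rw [mem_extTile] at hf'
      rw [mem_fprod] at ha'
      simp only [Prod.mk_sub_mk, Pi.sub_apply] at hf' ha'
      have h1 := hu (c', f' i) ⟨hf'.1, by simpa using ha' i⟩
      have h2 := congrArg Prod.fst h1
      have h3 := congrArg Prod.snd h1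
      simp only at h2 h3
      subst h2
      congr 1
      funext j
      by_cases hj : j = i
      · subst hj
        rw [hfi, h3]
      · rw [hfj j hj]
        exact htu j _ _ _ ⟨hf'.2 j hj, ha' j⟩

theorem tiles_ind (hT : ∀ i, Transv (T i) (A i)) (h0 : ∀ i, 0 ∈ T i) (i : I) (s : ∀ i, H i) :
    IsTilingBy (indTile T i s) (fprod A) := by
  rw [isTilingBy_iff]
  choose t ht htu using hT
  simp only at ht htu
  rintro ⟨b, h⟩
  by_cases hti : t i b (h i) = 0
  · let f : ∀ j, H j := Function.update (fun j => s j + t j b (h j - s j)) i 0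
    have hfi : f i = 0 := Function.update_self _ _ _
    have hfj : ∀ j, j ≠ i → f j = s j + t j b (h j - s j) :=
      fun j hj => Function.update_of_ne hj _ _
    refine ⟨(0, f), ⟨mem_indTile.2 ⟨rfl, Or.inr ⟨hfi, ?_⟩⟩, ?_⟩, ?_⟩
    · intro j hj
      simp only
      rw [hfj j hj, add_sub_cancel_left]
      exact (ht j _ _).1
    · rw [mem_fprod]
      intro j
      simp only [Prod.mk_sub_mk, Pi.sub_apply, sub_zero]
      by_cases hj : j = i
      · subst hj
        have := (ht j b (h j)).2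
        rw [hti] at this
        rw [hfi]; exact this
      · rw [hfj j hj]
        have := (ht j b (h j - s j)).2
        rwa [sub_sub] at this
    · rintro ⟨c', f'⟩ ⟨hf', ha'⟩
      rw [mem_indTile] at hf'
      rw [mem_fprod] at ha'
      obtain ⟨hc, hf'⟩ := hf'
      simp only at hc
      subst hc
      simp only [Prod.mk_sub_mk, Pi.sub_apply, sub_zero] at hf' ha'
      congr 1
      rcases hf' with ⟨h1, h2, h3⟩ | ⟨h1, h2⟩
      · exact absurd ((htu i b (h i) (f' i) ⟨h1, ha' i⟩).trans hti) h2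
      · funext j
        by_cases hj : j = i
        · subst hj
          rw [hfi, h1]
        · rw [hfj j hj]
          have := htu j b (h j - s j) (f' j - s j) ⟨h2 j hj, by
            have := ha' j
            rwa [sub_sub, add_sub_cancel]⟩
          rw [← this]; abel
  · refine ⟨(0, fun j => t j b (h j)), ⟨mem_indTile.2 ⟨rfl, Or.inl ⟨(ht i _ _).1, hti, ?_⟩⟩, ?_⟩, ?_⟩
    · intro j _
      exact (ht j _ _).1
    · rw [mem_fprod]
      intro j
      simp only [Prod.mk_sub_mk, Pi.sub_apply, sub_zero]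
      exact (ht j _ _).2
    · rintro ⟨c', f'⟩ ⟨hf', ha'⟩
      rw [mem_indTile] at hf'
      rw [mem_fprod] at ha'
      obtain ⟨hc, hf'⟩ := hf'
      simp only at hc
      subst hc
      simp only [Prod.mk_sub_mk, Pi.sub_apply, sub_zero] at hf' ha'
      congr 1
      rcases hf' with ⟨h1, h2, h3⟩ | ⟨h1, h2⟩
      · funext j
        by_cases hj : j = i
        · subst hj
          exact htu j b (h j) (f' j) ⟨h1, ha' j⟩
        · exact htu j b (h j) (f' j) ⟨h3 j hj, ha' j⟩
      · exfalso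
        apply hti
        symm
        refine htu i b (h i) 0 ⟨h0 i, ?_⟩
        have := ha' i
        rwa [h1] at this

/-- `x = (b, h)` is covered by the `i`-th zero block -/
def Cov (T : ∀ i, Finset (H i)) (i : I) (A : Set (B × ∀ i, H i)) (b : B) (h : ∀ i, H i) : Prop :=
  ∃ q : ∀ i, H i, q i = 0 ∧ (∀ j, j ≠ i → q j ∈ T j) ∧ (b, h - q) ∈ A

/-- **Product structure.** -/
theorem exists_fprod [Nonempty I] (h0 : ∀ i, 0 ∈ T i) {A : Set (B × ∀ i, H i)}
    (hA : ∀ i s, IsTilingBy (indTile T i s) A) :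
    ∃ A' : ∀ i, Set (B × H i), (∀ i, Transv (T i) (A' i)) ∧ A = fprod A' := by
  -- the full fibre tile
  have hP : ∀ (b : B) (h : ∀ i, H i), ∃! p : ∀ i, H i, (∀ j, p j ∈ T j) ∧ (b, h - p) ∈ A := by
    intro b h
    obtain ⟨i⟩ := ‹Nonempty I›
    have := isTilingBy_iff.1 (hA i 0) (b, h)
    obtain ⟨⟨c, p⟩, ⟨hp, ha⟩, hu⟩ := this
    rw [mem_indTile] at hp
    obtain ⟨hc, hp⟩ := hp
    simp only at hc
    subst hc
    refine ⟨p, ⟨?_, by simpa using ha⟩, ?_⟩
    · intro j
      rcases hp with ⟨h1, h2, h3⟩ | ⟨h1, h2⟩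
      · by_cases hj : j = i
        · subst hj; exact h1
        · exact h3 j hj
      · by_cases hj : j = i
        · subst hj; simp only at h1; rw [h1]; exact h0 j
        · simpa using h2 j hj
    · rintro p' ⟨hp', ha'⟩
      have := hu (0, p') ⟨mem_indTile.2 ⟨rfl, ?_⟩, by simpa using ha'⟩
      · exact congrArg Prod.snd this
      · by_cases hpi : p' i = 0
        · exact Or.inr ⟨hpi, fun j _ => by simpa using hp' j⟩
        · exact Or.inl ⟨hp' i, hpi, fun j _ => hp' j⟩
  have hcov : ∀ i b h s, s i = 0 → Cov T i A b h → Cov T i A b (h - s) := by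
    rintro i b h s hs ⟨q, hq0, hqT, hqA⟩
    have hqP : ∀ j, q j ∈ T j := by
      intro j
      by_cases hj : j = i
      · subst hj; rw [hq0]; exact h0 j
      · exact hqT j hj
    obtain ⟨⟨c, f⟩, ⟨hf, ha⟩, -⟩ := isTilingBy_iff.1 (hA i s) (b, h)
    rw [mem_indTile] at hf
    obtain ⟨hc, hf⟩ := hf
    simp only at hc
    subst hc
    simp only [Prod.mk_sub_mk, sub_zero] at ha
    rcases hf with ⟨h1, h2, h3⟩ | ⟨h1, h2⟩
    · exfalso
      have hfP : ∀ j, f j ∈ T j := by
        intro j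
        by_cases hj : j = i
        · subst hj; exact h1
        · exact h3 j hj
      have := (hP b h).unique ⟨hfP, ha⟩ ⟨hqP, hqA⟩
      apply h2
      simp only
      rw [this, hq0]
    · refine ⟨f - s, ?_, ?_, ?_⟩
      · simp only at h1
        simp [h1, hs]
      · intro j hj
        exact h2 j hj
      · rw [sub_sub_sub_cancel_right]; exact ha
  have hcov' : ∀ i b h h', h i = h' i → (Cov T i A b h ↔ Cov T i A b h') := by
    intro i b h h' hh
    constructor
    · intro hc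
      have := hcov i b h (h - h') (by simp [hh]) hc
      rwa [sub_sub_cancel] at this
    · intro hc
      have := hcov i b h' (h' - h) (by simp [hh]) hc
      rwa [sub_sub_cancel] at this
  refine ⟨fun i => {p | Cov T i A p.1 (Function.update 0 i p.2)}, ?_, ?_⟩
  · intro i b x
    obtain ⟨p, ⟨hpT, hpA⟩, hpu⟩ := hP b (Function.update 0 i x)
    refine ⟨p i, ⟨hpT i, ?_⟩, ?_⟩
    · show Cov T i A b (Function.update 0 i (x - p i))
      rw [hcov' i b _ (Function.update (0 : ∀ j, H j) i x - Function.update (0 : ∀ j, H j) i (p i))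
        (by simp)]
      refine ⟨Function.update p i 0, by simp, ?_, ?_⟩
      · intro j hj
        rw [Function.update_of_ne hj]; exact hpT j
      · convert hpA using 2
        funext j
        by_cases hj : j = i
        · subst hj; simp
        · simp [Function.update_of_ne hj]
    · rintro t ⟨htT, htA⟩
      have htA' : Cov T i A b (Function.update 0 i (x - t)) := htA
      rw [hcov' i b _ (Function.update (0 : ∀ j, H j) i x - Function.update (0 : ∀ j, H j) i t)
        (by simp)] at htA'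
      obtain ⟨q, hq0, hqT, hqA⟩ := htA'
      have := hpu (Function.update q i t) ⟨?_, ?_⟩
      · rw [← this]; simp
      · intro j
        by_cases hj : j = i
        · subst hj; simpa using htT
        · rw [Function.update_of_ne hj]; exact hqT j hj
      · convert hqA using 2
        funext j
        by_cases hj : j = i
        · subst hj; simp [hq0]
        · simp [Function.update_of_ne hj]
  · ext ⟨b, h⟩
    rw [mem_fprod]
    constructor
    · intro hbh i
      show Cov T i A b (Function.update 0 i (h i))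
      rw [hcov' i b _ h (by simp)]
      exact ⟨0, rfl, fun j _ => h0 j, by simpa using hbh⟩
    · intro hbh
      obtain ⟨p, ⟨hpT, hpA⟩, hpu⟩ := hP b h
      have hp0 : p = 0 := by
        funext i
        have h1 : Cov T i A b (Function.update 0 i (h i)) := hbh i
        rw [hcov' i b _ h (by simp)] at h1
        obtain ⟨q, hq0, hqT, hqA⟩ := h1
        have hqP : ∀ j, q j ∈ T j := by
          intro j
          by_cases hj : j = i
          · subst hj; rw [hq0]; exact h0 j
          · exact hqT j hj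
        rw [← hpu q ⟨hqP, hqA⟩, hq0]; rfl
      rw [hp0, sub_zero] at hpA
      exact hpA

end product

end Crest.Agent.R046
end

-- ▼ part R046/Final
section

set_option autoImplicit false

/-! Row 46: from component systems and clauses to the statement S0065. -/

namespace Crest.Agent.R046

open Crest.CombinatoricsR.Tiling

/-! ### cyclicity of the product of the fibres -/

theorem exists_generator (H : Type*) [AddCommGroup H] [IsAddCyclic H] :
    ∃ g : H, ∀ h : H, ∃ n : ℤ, n • g = h := by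
  obtain ⟨g, hg⟩ := IsAddCyclic.exists_generator (α := H)
  exact ⟨g, fun h => AddSubgroup.mem_zmultiples_iff.1 (hg h)⟩

theorem isAddCyclic_pi {I : Type*} [Fintype I] {H : I → Type*} [∀ i, AddCommGroup (H i)]
    [∀ i, Fintype (H i)] [∀ i, IsAddCyclic (H i)]
    (hco : Pairwise fun i j => Nat.Coprime (Fintype.card (H i)) (Fintype.card (H j))) :
    IsAddCyclic (∀ i, H i) := by
  classical
  choose g hg using fun i => exists_generator (H i)
  refine ⟨⟨g, fun h => ?_⟩⟩
  choose n hn using fun i => hg i (h i)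
  -- Chinese remainder theorem
  have hcop : Pairwise fun i j => IsCoprime ((Fintype.card (H i) : ℤ)) (Fintype.card (H j) : ℤ) :=
    fun i j hij => Nat.isCoprime_iff_coprime.2 (hco hij)
  obtain ⟨m, hm⟩ : ∃ m : ℤ, ∀ i, (Fintype.card (H i) : ℤ) ∣ m - n i := by
    have hI : Pairwise fun i j => IsCoprime (Ideal.span {(Fintype.card (H i) : ℤ)})
        (Ideal.span {(Fintype.card (H j) : ℤ)}) :=
      fun i j hij => (Ideal.isCoprime_span_singleton_iff _ _).2 (hcop hij)
    obtain ⟨m, hm⟩ := Ideal.exists_forall_sub_mem_ideal hI n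
    exact ⟨m, fun i => Ideal.mem_span_singleton.1 (hm i)⟩
  refine ⟨m, ?_⟩
  show m • g = h
  funext i
  obtain ⟨k, hk⟩ := hm i
  have h1 : m = n i + Fintype.card (H i) * k := by linarith
  rw [Pi.smul_apply, h1, add_smul, hn i, mul_comm, mul_smul]
  have : (Fintype.card (H i) : ℤ) • g i = 0 := by
    rw [natCast_zsmul]
    exact card_nsmul_eq_zero
  rw [this, smul_zero, add_zero]

/-! ### merging for `ℤ² × H`, `H` cyclic -/

/-- the projection `ℤ³ → ℤ² × H` -/
def projH {H : Type*} [AddCommGroup H] (g : H) : Z3 →+ (ℤ × ℤ) × H where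
  toFun x := ((x 0, x 1), x 2 • g)
  map_zero' := by simp
  map_add' x y := by simp [add_smul]

theorem merge_cyclic {H : Type*} [AddCommGroup H] [IsAddCyclic H] {ι : Type*} [Finite ι]
    (F : ι → Finset ((ℤ × ℤ) × H)) (hne : ∃ i, (F i).Nonempty)
    (hex : ∃ A, ∀ i, IsTilingBy (F i) A)
    (hnp : ∀ A, (∀ i, IsTilingBy (F i) A) → ¬ IsFullyPeriodic A) : MergedConclusion := by
  obtain ⟨g, hg⟩ := exists_generator H
  refine merge_quot (projH g) ?_ (w := Pi.single 2 (addOrderOf g : ℤ)) ?_ ?_ F hne hex hnp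
  · rintro ⟨⟨a, b⟩, c⟩
    obtain ⟨z, rfl⟩ := hg c
    exact ⟨![a, b, z], rfl⟩
  · simp [projH]
  · intro x hx
    simp only [projH, AddMonoidHom.coe_mk, ZeroHom.coe_mk, Prod.mk_eq_zero] at hx
    obtain ⟨⟨h0, h1⟩, h2⟩ := hx
    rw [← addOrderOf_dvd_iff_zsmul_eq_zero] at h2
    obtain ⟨n, hn⟩ := h2
    refine ⟨n, ?_⟩
    funext j
    fin_cases j
    · simpa using h0
    · simpa using h1
    · simp only [Fin.reduceFinMk, Pi.smul_apply, Pi.single_eq_same, smul_eq_mul]
      rw [hn]; ring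

/-! ### periods -/

theorem exists_period {H : Type*} [AddCommGroup H] {A : Set ((ℤ × ℤ) × H)}
    (h : IsFullyPeriodic A) : ∃ N : ℕ, 0 < N ∧ ∀ (b v : ℤ × ℤ) (x : H),
      (b, x) ∈ A ↔ (b + (N : ℤ) • v, x) ∈ A := by
  obtain ⟨K, hK, hper⟩ := h
  refine ⟨K.index, Nat.pos_of_ne_zero hK.index_ne_zero, ?_⟩
  have key : ∀ (b v : ℤ × ℤ) (x : H), (b, x) ∈ A → (b + (K.index : ℤ) • v, x) ∈ A := by
    intro b v x hb
    have h1 : K.index • ((v, 0) : (ℤ × ℤ) × H) ∈ K := K.nsmul_index_mem _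
    have h2 := hper _ h1 _ hb
    convert h2 using 1
    rw [← natCast_zsmul]
    ext <;> simp [add_comm]
  intro b v x
  refine ⟨key b v x, fun hb => ?_⟩
  have := key _ (-v) x hb
  convert this using 2
  simp

theorem exists_period_fprod {I : Type*} [Fintype I] {H : I → Type*} [∀ i, AddCommGroup (H i)]
    {T : ∀ i, Finset (H i)} {A : ∀ i, Set ((ℤ × ℤ) × H i)} (hT : ∀ i, Transv (T i) (A i))
    (h : IsFullyPeriodic (fprod A)) : ∃ N : ℕ, 0 < N ∧ ∀ i (b v : ℤ × ℤ) (x : H i),
      (b, x) ∈ A i ↔ (b + (N : ℤ) • v, x) ∈ A i := by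
  classical
  obtain ⟨N, hN, hper⟩ := exists_period h
  refine ⟨N, hN, ?_⟩
  have key : ∀ i (b v : ℤ × ℤ) (x : H i), (b, x) ∈ A i → (b + (N : ℤ) • v, x) ∈ A i := by
    intro i b v x hx
    choose t ht _ using hT
    let y : ∀ j, H j := Function.update (fun j => 0 - t j b 0) i x
    have hy : (b, y) ∈ fprod A := by
      rw [mem_fprod]
      intro j
      by_cases hj : j = i
      · subst hj
        simpa [y] using hx
      · simp only [y, Function.update_of_ne hj]
        exact (ht j b 0).2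
    have h1 := (hper b v y).1 hy
    rw [mem_fprod] at h1
    have h2 := h1 i
    simpa [y] using h2
  intro i b v x
  refine ⟨key i b v x, fun hb => ?_⟩
  have := key i _ (-v) x hb
  convert this using 2
  simp

/-! ### the statement from components and clauses -/

theorem s0065_of_components {I : Type} [Fintype I] [DecidableEq I] [Nonempty I] {H : I → Type}
    [∀ i, AddCommGroup (H i)] [∀ i, Fintype (H i)] [∀ i, DecidableEq (H i)]
    [∀ i, IsAddCyclic (H i)]
    (hco : Pairwise fun i j => Nat.Coprime (Fintype.card (H i)) (Fintype.card (H j)))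
    (T : ∀ i, Finset (H i)) (h0 : ∀ i, 0 ∈ T i)
    {κ : I → Type} [∀ i, Finite (κ i)] (S : ∀ i, κ i → Finset ((ℤ × ℤ) × H i))
    {γ : Type} [Finite γ] (C : γ → Finset ((ℤ × ℤ) × ∀ i, H i))
    (hex : ∃ A : ∀ i, Set ((ℤ × ℤ) × H i), (∀ i, Transv (T i) (A i)) ∧
      (∀ i k, IsTilingBy (S i k) (A i)) ∧ ∀ c, IsTilingBy (C c) (fprod A))
    (hno : ∀ A : ∀ i, Set ((ℤ × ℤ) × H i), (∀ i, Transv (T i) (A i)) →
      (∀ i k, IsTilingBy (S i k) (A i)) → (∀ c, IsTilingBy (C c) (fprod A)) →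
      ∀ N : ℕ, 0 < N → (∀ i (b v : ℤ × ℤ) (x : H i),
        (b, x) ∈ A i ↔ (b + (N : ℤ) • v, x) ∈ A i) → False) :
    ∃ T : Finset (Fin 3 → ℤ), T.Nonempty ∧
      (∃ A : Set (Fin 3 → ℤ), IsTilingBy T A) ∧
      (∀ A : Set (Fin 3 → ℤ), IsTilingBy T A → ¬ IsFullyPeriodic A) ∧
      (∃ B : Set (Fin 3 → ℝ), IsAETilingBy (cubeThickening T) B) ∧
      ∀ B : Set (Fin 3 → ℝ), IsAETilingBy (cubeThickening T) B → ¬ IsLatticePeriodic B := by
  have : IsAddCyclic (∀ i, H i) := isAddCyclic_pi hco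
  let F : (I × (∀ i, H i)) ⊕ ((Σ i, κ i) ⊕ γ) → Finset ((ℤ × ℤ) × ∀ i, H i) :=
    Sum.elim (fun p => indTile T p.1 p.2) (Sum.elim (fun p => extTile T p.1 (S p.1 p.2)) C)
  have hmain : MergedConclusion := by
    refine merge_cyclic F ?_ ?_ ?_
    · obtain ⟨i⟩ := ‹Nonempty I›
      refine ⟨Sum.inl (i, 0), ⟨(0, 0), mem_indTile.2 ⟨rfl, Or.inr ⟨rfl, fun j _ => ?_⟩⟩⟩⟩
      simpa using h0 j
    · obtain ⟨A, hT, hS, hC⟩ := hex
      refine ⟨fprod A, ?_⟩
      rintro (⟨i, s⟩ | ⟨i, k⟩ | c)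
      · exact tiles_ind hT h0 i s
      · exact (tiles_ext_iff hT i _).2 (hS i k)
      · exact hC c
    · intro A hA hper
      obtain ⟨A', hT, rfl⟩ := exists_fprod h0 (A := A) (fun i s => hA (Sum.inl (i, s)))
      obtain ⟨N, hN, hN'⟩ := exists_period_fprod hT hper
      exact hno A' hT (fun i k => (tiles_ext_iff hT i _).1 (hA (Sum.inr (Sum.inl ⟨i, k⟩))))
        (fun c => hA (Sum.inr (Sum.inr c))) N hN hN'
  obtain ⟨T, h1, h2, h3, -⟩ := hmain
  exact ⟨T, h1, h2, h3, RealPart.real_part h2 h3⟩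

end Crest.Agent.R046
end

-- ▼ part R046/Data

set_option autoImplicit false

/-! Row 46: concrete fibres, clauses as data.

`s0065_of_data` reduces S0065 to: component systems, a finite list of negative clauses on the
predicates `Bad`, one solution, and the impossibility of a common period. -/

namespace Crest.Agent.R046

open Crest.CombinatoricsR.Tiling Crest.Agent.R046.Comp

section fib

/-- the fibre of a component: position coordinate in `ZMod (p^3)` and one coordinate in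
`ZMod (r a)` for every label `a` -/
abbrev Fib (p : ℕ) {L : Type} (r : L → ℕ) : Type := ZMod (p ^ 3) × (∀ a : L, ZMod (r a))

variable (p : ℕ) {L : Type} (r : L → ℕ)

section T
variable [NeZero p] [Fintype L] [DecidableEq L] [∀ a, NeZero (r a)]

/-- the fibre tile: position divisible by `p`, all labels -/
def fT : Finset (Fib p r) := Finset.univ.filter (fun h => r31 p h.1 = 0)

variable {p r} in
theorem mem_fT {h : Fib p r} : h ∈ fT p r ↔ r31 p h.1 = 0 := by
  simp [fT]

theorem zero_mem_fT : (0 : Fib p r) ∈ fT p r := by simp [mem_fT]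

end T

variable {p r}

/-- the labels `a` of the points over `v` are not all equal -/
def Bad {B : Type*} (A : Set (B × Fib p r)) (a : L) (v : B) : Prop :=
  ∃ g g', (v, g) ∈ A ∧ (v, g') ∈ A ∧ g.2 a ≠ g'.2 a

theorem not_bad_iff {B : Type*} {A : Set (B × Fib p r)} {a : L} {v : B} :
    ¬ Bad A a v ↔ ∀ g ∈ {h | (v, h) ∈ A}, ∀ g' ∈ {h | (v, h) ∈ A}, g.2 a = g'.2 a := by
  unfold Bad
  push Not
  constructor
  · intro h g hg g' hg'; exact h g g' hg hg'
  · intro h g g' hg hg'; exact h g hg g' hg'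

theorem r31_surjective (p : ℕ) (x : ZMod p) : ∃ n : ℤ, r31 p (n : ZMod (p ^ 3)) = x := by
  obtain ⟨n, rfl⟩ := ZMod.intCast_surjective x
  exact ⟨n, map_intCast _ n⟩

theorem transv_iff [NeZero p] [Fintype L] [DecidableEq L] [∀ a, NeZero (r a)]
    {B : Type*} {A : Set (B × Fib p r)} :
    Transv (fT p r) A ↔ ∀ (b : B) (ρ : ZMod p), ∃! g, (b, g) ∈ A ∧ r31 p g.1 = ρ := by
  constructor
  · intro h b ρ
    obtain ⟨n, hn⟩ := r31_surjective p ρ
    obtain ⟨t, ⟨ht, hA⟩, hu⟩ := h b ((n : ZMod (p ^ 3)), 0)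
    rw [mem_fT] at ht
    refine ⟨_, ⟨hA, by simp [ht, ← hn]⟩, ?_⟩
    rintro g ⟨hg, hgρ⟩
    have := hu (((n : ZMod (p ^ 3)), 0) - g) ⟨mem_fT.2 (by simp [hgρ, ← hn]), by
      rwa [sub_sub_cancel]⟩
    rw [← this, sub_sub_cancel]
  · intro h b x
    obtain ⟨g, ⟨hg, hgρ⟩, hu⟩ := h b (r31 p x.1)
    refine ⟨x - g, ⟨mem_fT.2 (by simp [hgρ]), by rwa [sub_sub_cancel]⟩, ?_⟩
    rintro t ⟨ht, htA⟩
    rw [mem_fT] at ht
    have := hu (x - t) ⟨htA, by simp [ht]⟩
    rw [← this, sub_sub_cancel]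

end fib

/-! ### cyclicity -/

theorem isAddCyclic_prod_of_coprime {M N : Type*} [AddCommGroup M] [AddCommGroup N] [Fintype M]
    [Fintype N] [IsAddCyclic M] [IsAddCyclic N]
    (hco : Nat.Coprime (Fintype.card M) (Fintype.card N)) : IsAddCyclic (M × N) := by
  obtain ⟨g, hg⟩ := exists_generator M
  obtain ⟨g', hg'⟩ := exists_generator N
  refine ⟨⟨(g, g'), fun h => ?_⟩⟩
  obtain ⟨a, ha⟩ := hg h.1
  obtain ⟨b, hb⟩ := hg' h.2
  obtain ⟨u, v, huv⟩ := Nat.isCoprime_iff_coprime.2 hco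
  -- `m ≡ a mod |M|`, `m ≡ b mod |N|`
  have h0 : (Fintype.card M : ℤ) • g = 0 := by rw [natCast_zsmul]; exact card_nsmul_eq_zero
  have h0' : (Fintype.card N : ℤ) • g' = 0 := by rw [natCast_zsmul]; exact card_nsmul_eq_zero
  refine ⟨a + u * Fintype.card M * (b - a), ?_⟩
  show (a + u * Fintype.card M * (b - a)) • (g, g') = h
  ext
  · show (a + u * Fintype.card M * (b - a)) • g = h.1
    have : a + u * Fintype.card M * (b - a) = a + (u * (b - a)) * Fintype.card M := by ring
    rw [this, add_smul, mul_smul, h0, smul_zero, add_zero, ha]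
  · show (a + u * Fintype.card M * (b - a)) • g' = h.2
    have : a + u * Fintype.card M * (b - a) = b + (v * (a - b)) * Fintype.card N := by
      have : u * Fintype.card M = 1 - v * Fintype.card N := by linarith
      rw [this]; ring
    rw [this, add_smul, mul_smul, h0', smul_zero, add_zero, hb]

theorem isAddCyclic_fib (p : ℕ) {L : Type} [Fintype L] [DecidableEq L] (r : L → ℕ) [NeZero p]
    [∀ a, NeZero (r a)] (hpr : ∀ a, Nat.Coprime p (r a))
    (hrr : Pairwise fun a b => Nat.Coprime (r a) (r b)) : IsAddCyclic (Fib p r) := by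
  have : IsAddCyclic (∀ a : L, ZMod (r a)) := by
    refine isAddCyclic_pi ?_
    intro a b hab
    simpa [ZMod.card] using hrr hab
  refine isAddCyclic_prod_of_coprime ?_
  rw [Fintype.card_pi, ZMod.card]
  refine Nat.Coprime.pow_left _ (Nat.Coprime.prod_right fun a _ => ?_)
  rw [ZMod.card]
  exact hpr a

theorem card_fib (p : ℕ) {L : Type} [Fintype L] [DecidableEq L] (r : L → ℕ) [NeZero p]
    [∀ a, NeZero (r a)] : Fintype.card (Fib p r) = p ^ 3 * ∏ a, r a := by
  rw [Fintype.card_prod, Fintype.card_pi, ZMod.card]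
  simp [ZMod.card]

/-! ### the clause tile -/

section clause

variable {B : Type*} [AddCommGroup B] [DecidableEq B]

theorem tiles_fibTile_iff {K : Type*} [AddCommGroup K] [DecidableEq K] (C : Finset K)
    (A : Set (B × K)) : IsTilingBy (fibTile C) A ↔ ∀ b, IsTilingBy C {h | (b, h) ∈ A} := by
  rw [isTilingBy_fibTile]
  refine forall_congr' fun b => ?_
  rw [isTilingBy_iff]
  rfl

variable {n : ℕ} [NeZero n] (p : Fin n → ℕ) (L : Fin n → Type) (r : ∀ i, L i → ℕ)
  [∀ i, NeZero (p i)] [∀ i, Fintype (L i)] [∀ i, DecidableEq (L i)] [∀ i a, NeZero (r i a)]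

/-- the clause tile: forbids that all components of `J` are bad for the labels `lab` -/
def clTile (J : Finset (Fin n)) (lab : ∀ i, L i) : Finset (B × ∀ i, Fib (p i) (r i)) :=
  fibTile (Clause.clauseTile (Clause.trans (fun i => fT (p i) (r i))
    (fun i => (fT (p i) (r i)).filter (fun h => h.2 (lab i) = 0)) (fun _ => (1, 0)) J))

theorem clTile_iff (hp : ∀ i, 2 ≤ p i) (J : Finset (Fin n)) (hJ : J.Nonempty) (lab : ∀ i, L i)
    (A : ∀ i, Set (B × Fib (p i) (r i))) (hA : ∀ i, Transv (fT (p i) (r i)) (A i)) :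
    IsTilingBy (clTile p L r J lab) (fprod A) ↔ ∀ b, ∃ i ∈ J, ¬ Bad (A i) (lab i) b := by
  unfold clTile
  rw [tiles_fibTile_iff]
  refine forall_congr' fun b => ?_
  have hsl : {h | (b, h) ∈ fprod A} = Set.univ.pi (fun i => {h | (b, h) ∈ A i}) := by
    ext h
    simp [fprod]
  have hA' : ∀ i, IsTilingBy (fT (p i) (r i)) {h | (b, h) ∈ A i} := fun i =>
    (tiles_fibTile_iff _ _).1 ((isTilingBy_fibTile).2 (hA i)) b
  have h1 : ∀ i, r31 (p i) (1 : ZMod (p i ^ 3)) ≠ 0 := by
    intro i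
    rw [map_one]
    have : Fact (1 < p i) := ⟨hp i⟩
    exact one_ne_zero
  rw [hsl, Clause.clause_iff _ _ _ J hJ (fun i _ => Finset.filter_subset _ _) ?_ _ hA']
  · refine exists_congr fun i => and_congr_right fun hi => ?_
    rw [not_bad_iff]
    refine Clause.good_iff (fT (p i) (r i)) (zero_mem_fT _ _) ?_ _
      ((Pi.evalAddMonoidHom (fun a => ZMod (r i a)) (lab i)).comp
        (AddMonoidHom.snd (ZMod (p i ^ 3)) (∀ a, ZMod (r i a)))) ?_ ((1 : ZMod (p i ^ 3)), 0) ?_ ?_
      ?_ _ (hA' i)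
    · intro a ha b hb
      rw [mem_fT] at *
      simp [ha, hb]
    · intro f
      rw [Finset.mem_filter]
      rfl
    · rfl
    · intro h
      obtain ⟨k, hk⟩ := ZMod.intCast_surjective (r31 (p i) h.1)
      refine ⟨k, mem_fT.2 ?_⟩
      simp [← hk]
    · intro l
      refine ⟨(0, Pi.single (lab i) l), mem_fT.2 (by simp), ?_⟩
      simp
  · intro i _ f hf g hg hfg
    rw [mem_fT] at hf hg
    rw [hfg] at hf
    simp only [Prod.fst_add, map_add, hg, zero_add] at hf
    exact h1 i hf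

end clause

/-! ### the statement from data -/

/-- version for the index type `Fin n` -/
theorem s0065_of_data_fin {n : ℕ} [NeZero n] (p : Fin n → ℕ) (L : Fin n → Type)
    (r : ∀ i, L i → ℕ)
    [∀ i, NeZero (p i)] [∀ i, Fintype (L i)] [∀ i, DecidableEq (L i)] [∀ i a, NeZero (r i a)]
    (hp : ∀ i, 2 ≤ p i)
    (hpp : Pairwise fun i j => Nat.Coprime (p i) (p j))
    (hpr : ∀ i j a, Nat.Coprime (p i) (r j a))
    (hrr : ∀ i, Pairwise fun a b => Nat.Coprime (r i a) (r i b))
    (hrr' : ∀ i j, i ≠ j → ∀ a b, Nat.Coprime (r i a) (r j b))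
    {κ : Fin n → Type} [∀ i, Finite (κ i)] (S : ∀ i, κ i → Finset ((ℤ × ℤ) × Fib (p i) (r i)))
    {γ : Type} [Finite γ] (J : γ → Finset (Fin n)) (hJ : ∀ c, (J c).Nonempty)
    (lab : γ → ∀ i, L i)
    (hex : ∃ A : ∀ i, Set ((ℤ × ℤ) × Fib (p i) (r i)), (∀ i, Transv (fT (p i) (r i)) (A i)) ∧
      (∀ i k, IsTilingBy (S i k) (A i)) ∧ ∀ c v, ∃ i ∈ J c, ¬ Bad (A i) (lab c i) v)
    (hno : ∀ A : ∀ i, Set ((ℤ × ℤ) × Fib (p i) (r i)), (∀ i, Transv (fT (p i) (r i)) (A i)) →
      (∀ i k, IsTilingBy (S i k) (A i)) → (∀ c v, ∃ i ∈ J c, ¬ Bad (A i) (lab c i) v) →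
      ∀ N : ℕ, 0 < N → (∀ i (b v : ℤ × ℤ) (x : Fib (p i) (r i)),
        (b, x) ∈ A i ↔ (b + (N : ℤ) • v, x) ∈ A i) → False) :
    ∃ T : Finset (Fin 3 → ℤ), T.Nonempty ∧
      (∃ A : Set (Fin 3 → ℤ), IsTilingBy T A) ∧
      (∀ A : Set (Fin 3 → ℤ), IsTilingBy T A → ¬ IsFullyPeriodic A) ∧
      (∃ B : Set (Fin 3 → ℝ), IsAETilingBy (cubeThickening T) B) ∧
      ∀ B : Set (Fin 3 → ℝ), IsAETilingBy (cubeThickening T) B → ¬ IsLatticePeriodic B := by
  have hcyc : ∀ i, IsAddCyclic (Fib (p i) (r i)) := fun i =>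
    isAddCyclic_fib _ _ (hpr i i) (hrr i)
  refine s0065_of_components (H := fun i => Fib (p i) (r i)) ?_ (fun i => fT (p i) (r i))
    (fun i => zero_mem_fT _ _) S (fun c : γ => clTile p L r (J c) (lab c)) ?_ ?_
  · intro i j hij
    show Nat.Coprime (Fintype.card (Fib (p i) (r i))) (Fintype.card (Fib (p j) (r j)))
    rw [card_fib, card_fib]
    refine Nat.Coprime.mul_left (Nat.Coprime.mul_right ?_ ?_) (Nat.Coprime.mul_right ?_ ?_)
    · exact Nat.Coprime.pow _ _ (hpp hij)
    · exact Nat.Coprime.pow_left _ (Nat.Coprime.prod_right fun a _ => hpr i j a)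
    · exact Nat.Coprime.pow_right _ (Nat.Coprime.prod_left fun a _ => (hpr j i a).symm)
    · exact Nat.Coprime.prod_left fun a _ => Nat.Coprime.prod_right fun b _ => hrr' i j hij a b
  · obtain ⟨A, hT, hS, hC⟩ := hex
    exact ⟨A, hT, hS, fun c => (clTile_iff p L r hp (J c) (hJ c) (lab c) A hT).2 (hC c)⟩
  · intro A hT hS hC N hN hper
    exact hno A hT hS (fun c => (clTile_iff p L r hp (J c) (hJ c) (lab c) A hT).1 (hC c)) N hN hper

/-- **S0065 from data.** -/
theorem s0065_of_data {I : Type} [Fintype I] [DecidableEq I] [Nonempty I] (p : I → ℕ)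
    (L : I → Type) (r : ∀ i, L i → ℕ)
    [∀ i, NeZero (p i)] [∀ i, Fintype (L i)] [∀ i, DecidableEq (L i)] [∀ i a, NeZero (r i a)]
    (hp : ∀ i, 2 ≤ p i)
    (hpp : Pairwise fun i j => Nat.Coprime (p i) (p j))
    (hpr : ∀ i j a, Nat.Coprime (p i) (r j a))
    (hrr : ∀ i, Pairwise fun a b => Nat.Coprime (r i a) (r i b))
    (hrr' : ∀ i j, i ≠ j → ∀ a b, Nat.Coprime (r i a) (r j b))
    {κ : I → Type} [∀ i, Finite (κ i)] (S : ∀ i, κ i → Finset ((ℤ × ℤ) × Fib (p i) (r i)))
    {γ : Type} [Finite γ] (J : γ → Finset I) (hJ : ∀ c, (J c).Nonempty)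
    (lab : γ → ∀ i, L i)
    (hex : ∃ A : ∀ i, Set ((ℤ × ℤ) × Fib (p i) (r i)), (∀ i, Transv (fT (p i) (r i)) (A i)) ∧
      (∀ i k, IsTilingBy (S i k) (A i)) ∧ ∀ c v, ∃ i ∈ J c, ¬ Bad (A i) (lab c i) v)
    (hno : ∀ A : ∀ i, Set ((ℤ × ℤ) × Fib (p i) (r i)), (∀ i, Transv (fT (p i) (r i)) (A i)) →
      (∀ i k, IsTilingBy (S i k) (A i)) → (∀ c v, ∃ i ∈ J c, ¬ Bad (A i) (lab c i) v) →
      ∀ N : ℕ, 0 < N → (∀ i (b v : ℤ × ℤ) (x : Fib (p i) (r i)),
        (b, x) ∈ A i ↔ (b + (N : ℤ) • v, x) ∈ A i) → False) :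
    ∃ T : Finset (Fin 3 → ℤ), T.Nonempty ∧
      (∃ A : Set (Fin 3 → ℤ), IsTilingBy T A) ∧
      (∀ A : Set (Fin 3 → ℤ), IsTilingBy T A → ¬ IsFullyPeriodic A) ∧
      (∃ B : Set (Fin 3 → ℝ), IsAETilingBy (cubeThickening T) B) ∧
      ∀ B : Set (Fin 3 → ℝ), IsAETilingBy (cubeThickening T) B → ¬ IsLatticePeriodic B := by
  classical
  let m := Fintype.card I
  have : NeZero m := ⟨Fintype.card_ne_zero⟩
  let e : Fin m ≃ I := (Fintype.equivFin I).symm
  refine s0065_of_data_fin (fun k => p (e k)) (fun k => L (e k)) (fun k => r (e k))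
    (fun k => hp _) (fun k l hkl => hpp (fun h => hkl (e.injective h))) (fun k l a => hpr _ _ _)
    (fun k => hrr _) (fun k l hkl => hrr' _ _ (fun h => hkl (e.injective h)))
    (fun k => S (e k)) (fun c => (J c).map e.symm.toEmbedding)
    (fun c => by simpa using hJ c) (fun c k => lab c (e k)) ?_ ?_
  · obtain ⟨A, hT, hS, hC⟩ := hex
    refine ⟨fun k => A (e k), fun k => hT _, fun k => hS _, fun c v => ?_⟩
    obtain ⟨i, hi, hb⟩ := hC c v
    obtain ⟨k, rfl⟩ := e.surjective i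
    exact ⟨k, by simpa using hi, hb⟩
  · intro A hT hS hC N hN hper
    let P : I → Type := fun i => Set ((ℤ × ℤ) × Fib (p i) (r i))
    let A' : ∀ i, P i := (Equiv.piCongrLeft P e) A
    have hA' : ∀ k, A' (e k) = A k := fun k => Equiv.piCongrLeft_apply_apply P e A k
    refine hno A' ?_ ?_ ?_ N hN ?_
    · rw [e.surjective.forall]
      intro k
      rw [hA']
      exact hT k
    · rw [e.surjective.forall]
      intro k
      rw [hA']
      exact hS k
    · intro c v
      obtain ⟨k, hk, hb⟩ := hC c v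
      refine ⟨e k, by simpa using hk, ?_⟩
      rw [hA']
      exact hb
    · rw [e.surjective.forall]
      intro k
      rw [hA']
      exact hper k

end Crest.Agent.R046
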