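import Mathlib
import Crest.Agent.R046.Data

-- ▼ part R046/Moduli
section

set_option autoImplicit false

/-! Row 46: the choice of the moduli. -/

namespace Crest.Agent.R046

theorem exists_primes_above (J : Type*) [Finite J] (N : ℕ) :
    ∃ g : J → ℕ, Function.Injective g ∧ ∀ j, (g j).Prime ∧ N < g j := by
  have hinf : {q : ℕ | q.Prime ∧ N < q}.Infinite := by
    intro hfin
    obtain ⟨b, hb⟩ := hfin.bddAbove
    obtain ⟨q, hq, hqp⟩ := Nat.exists_infinite_primes (max b N + 1)
    have h1 : q ≤ b := hb ⟨hqp, by omega⟩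
    omega
  have : Infinite {q : ℕ | q.Prime ∧ N < q} := hinf.to_subtype
  cases nonempty_fintype J
  let e : J ↪ ℕ := (Fintype.equivFin J).toEmbedding.trans Fin.valEmbedding
  let f := e.trans (Infinite.natEmbedding {q : ℕ | q.Prime ∧ N < q})
  exact ⟨fun j => (f j : ℕ), fun a b h => f.injective (Subtype.ext h), fun j => (f j).2⟩

/-- extend an injective prime-valued function from `A` to everything, with large new values -/
theorem extend_primes {J : Type*} [Finite J] (A : Set J) (m0 : J → ℕ) (hinj : Set.InjOn m0 A)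
    (hp : ∀ j ∈ A, (m0 j).Prime) (N : ℕ) :
    ∃ m : J → ℕ, (∀ j ∈ A, m j = m0 j) ∧ Function.Injective m ∧ (∀ j, (m j).Prime) ∧
      ∀ j, j ∉ A → N < m j := by
  classical
  cases nonempty_fintype J
  obtain ⟨g, hg, hg'⟩ := exists_primes_above J (max N (Finset.univ.sup m0))
  have hle : ∀ j, m0 j ≤ Finset.univ.sup m0 := fun j => Finset.le_sup (Finset.mem_univ j)
  refine ⟨fun j => if j ∈ A then m0 j else g j, fun j hj => if_pos hj, ?_, ?_, ?_⟩
  · intro a b hab
    simp only at hab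
    split_ifs at hab with h1 h2 h2
    · exact hinj h1 h2 hab
    · have := hle a; have := (hg' b).2; omega
    · have := hle b; have := (hg' a).2; omega
    · exact hg hab
  · intro j
    simp only
    split_ifs with h
    · exact hp j h
    · exact (hg' j).1
  · intro j hj
    simp only [if_neg hj]
    have := (hg' j).2
    omega

/-- the moduli: `m (inl i)` is the role number of component `i`, `m (inr ⟨i, a⟩)` the modulus of
its label `a` -/
theorem exists_moduli {I : Type*} [Finite I] (L : I → Type*) [∀ i, Fintype (L i)] (U W : I)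
    (hUW : U ≠ W) (D : Set I) (Q : I → I) (hQ : ∀ n ∈ D, Q n ≠ U ∧ Q n ≠ W) :
    ∃ m : I ⊕ (Σ i, L i) → ℕ, Function.Injective m ∧ (∀ j, (m j).Prime) ∧
      m (Sum.inl U) = 2 ∧ m (Sum.inl W) = 5 ∧
      ∀ n ∈ D, 2 * ∏ a, m (Sum.inr ⟨n, a⟩) ≤ m (Sum.inl (Q n)) := by
  classical
  cases nonempty_fintype I
  have hinj : Set.InjOn (fun j : I ⊕ (Σ i, L i) => if j = Sum.inl U then 2 else 5)
      {Sum.inl U, Sum.inl W} := by
    intro a ha b hb hab
    rcases ha with rfl | rfl <;> rcases hb with rfl | rfl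
    · rfl
    · simp [Ne.symm hUW] at hab
    · simp [Ne.symm hUW] at hab
    · rfl
  have hpr : ∀ j ∈ ({Sum.inl U, Sum.inl W} : Set (I ⊕ (Σ i, L i))),
      ((fun j : I ⊕ (Σ i, L i) => if j = Sum.inl U then 2 else 5) j).Prime := by
    intro j _
    simp only
    split_ifs
    · exact Nat.prime_two
    · norm_num
  obtain ⟨m1, h1, h2, h3, -⟩ := extend_primes (J := I ⊕ (Σ i, L i))
    {Sum.inl U, Sum.inl W} (fun j => if j = Sum.inl U then 2 else 5) hinj hpr 0
  · obtain ⟨m2, k1, k2, k3, k4⟩ := extend_primes (J := I ⊕ (Σ i, L i))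
      {j | ¬ ∃ n ∈ D, j = Sum.inl (Q n)} m1 h2.injOn (fun j _ => h3 j)
      (Finset.univ.sup (fun n => 2 * ∏ a, m1 (Sum.inr ⟨n, a⟩)))
    have hr : ∀ q : Σ i, L i, m2 (Sum.inr q) = m1 (Sum.inr q) := by
      intro q
      apply k1
      rintro ⟨n, -, hn⟩
      exact absurd hn (by simp)
    refine ⟨m2, k2, k3, ?_, ?_, ?_⟩
    · rw [k1, h1 _ (by simp)]
      · simp
      · rintro ⟨n, hn, hn'⟩
        exact (hQ n hn).1 (Sum.inl.inj hn').symm
    · rw [k1, h1 _ (by simp)]
      · simp [Ne.symm hUW]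
      · rintro ⟨n, hn, hn'⟩
        exact (hQ n hn).2 (Sum.inl.inj hn').symm
    · intro n hn
      have := k4 (Sum.inl (Q n)) (fun h => h ⟨n, hn, rfl⟩)
      refine le_trans (le_trans (le_of_eq ?_)
        (Finset.le_sup (f := fun n => 2 * ∏ a, m1 (Sum.inr ⟨n, a⟩)) (Finset.mem_univ n))) this.le
      simp only [hr]

section coprime

variable {I : Type*} {L : I → Type*} {m : I ⊕ (Σ i, L i) → ℕ} (hm : Function.Injective m)
  (hp : ∀ j, (m j).Prime)
include hm hp

theorem moduli_coprime {j j' : I ⊕ (Σ i, L i)} (h : j ≠ j') : Nat.Coprime (m j) (m j') :=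
  (Nat.coprime_primes (hp j) (hp j')).2 (fun e => h (hm e))

theorem moduli_pp : Pairwise fun i j => Nat.Coprime (m (Sum.inl i)) (m (Sum.inl j)) :=
  fun _ _ hij => moduli_coprime hm hp (fun h => hij (Sum.inl.inj h))

theorem moduli_pr (i j : I) (a : L j) : Nat.Coprime (m (Sum.inl i)) (m (Sum.inr ⟨j, a⟩)) :=
  moduli_coprime hm hp (by simp)

theorem moduli_rr (i : I) :
    Pairwise fun a b : L i => Nat.Coprime (m (Sum.inr ⟨i, a⟩)) (m (Sum.inr ⟨i, b⟩)) :=
  fun _ _ hab => moduli_coprime hm hp (fun h => hab (by simpa using h))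

theorem moduli_rr' (i j : I) (hij : i ≠ j) (a : L i) (b : L j) :
    Nat.Coprime (m (Sum.inr ⟨i, a⟩)) (m (Sum.inr ⟨j, b⟩)) :=
  moduli_coprime hm hp (fun h => hij (by
    have := Sum.inr.inj h
    exact congrArg Sigma.fst this))

end coprime

end Crest.Agent.R046
end

-- ▼ part R046/Clauses
section

set_option autoImplicit false

/-! Row 46: the ten components, their line geometry and the list of clauses (definitions only).

Digit components `F` (lines `x`), `E` (lines `y`), `K` (lines `x + y`), `G` (lines `x + 8 y`);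
alignment gates `QF, QE, QK, QG` (lines across), parity gates `U` (rows), `W` (columns). -/

namespace Crest.Agent.R046.Glue

inductive Cmp | F | E | K | G | QF | QE | QK | QG | U | W
  deriving DecidableEq

instance : Fintype Cmp where
  elems := {.F, .E, .K, .G, .QF, .QE, .QK, .QG, .U, .W}
  complete := fun x => by cases x <;> decide

instance : Nonempty Cmp := ⟨.F⟩

/-- letters of a component (`Unit` for the gates) -/
def L : Cmp → Type
  | .F => ZMod 8 × ZMod 8
  | .E => ZMod 8 × ZMod 8 × ZMod 2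
  | .K => ZMod 8 × ZMod 8
  | .G => ZMod 8
  | _ => Unit

instance instFintypeL (i : Cmp) : Fintype (L i) := by
  cases i <;> simp only [L] <;> infer_instance

instance instDecidableEqL (i : Cmp) : DecidableEq (L i) := by
  cases i <;> simp only [L] <;> infer_instance

/-- line index of a point -/
def li : Cmp → ℤ × ℤ → ℤ
  | .F => fun v => v.1
  | .E => fun v => v.2
  | .K => fun v => v.1 + v.2
  | .G => fun v => v.1 + 8 * v.2
  | .QF => fun v => v.2
  | .QE => fun v => v.1
  | .QK => fun v => v.1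
  | .QG => fun v => v.2
  | .U => fun v => v.2
  | .W => fun v => v.1

/-- position of a point on its line -/
def ti : Cmp → ℤ × ℤ → ℤ
  | .F => fun v => v.2
  | .E => fun v => v.1
  | .K => fun v => v.1
  | .G => fun v => v.2
  | .QF => fun v => v.1
  | .QE => fun v => v.2
  | .QK => fun v => v.1 + v.2
  | .QG => fun v => v.1 + 8 * v.2
  | .U => fun v => v.1
  | .W => fun v => v.2

/-- the gate across a digit component -/
inductive Dig | F | E | K | G
  deriving DecidableEq

instance : Fintype Dig where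
  elems := {.F, .E, .K, .G}
  complete := fun x => by cases x <;> decide

/-- digit component -/
def Dig.cmp : Dig → Cmp
  | .F => .F
  | .E => .E
  | .K => .K
  | .G => .G

/-- the alignment gate of a digit component -/
def Dig.gate : Dig → Cmp
  | .F => .QF
  | .E => .QE
  | .K => .QK
  | .G => .QG

/-- the label of a gate -/
def Dig.star : (n : Dig) → L n.gate
  | .F => ()
  | .E => ()
  | .K => ()
  | .G => ()

def starU : L .U := ()
def starW : L .W := ()

/-- the pointwise relation (`s = F x`, `e = E y`, `k = K (x + y)`, `g = G (x + q y)`) -/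
def Rel {q : ℕ} (s e k g : ZMod q) : Prop :=
  (k = e → g = s + e ∨ g = e ∨ s = -e) ∧ (g = s → k = s + e ∨ k = s ∨ e = -s)

/-- parity of a residue modulo 8 -/
def par : ZMod 8 →+* ZMod 2 := ZMod.castHom (by norm_num) (ZMod 2)

/-- the clauses, as implications between the predicates `Bad` -/
structure Clauses (Bad : ∀ i : Cmp, L i → ℤ × ℤ → Prop) : Prop where
  cauchy : ∀ v (a : L .F) (b : L .E) (c : L .K), Bad .F a v → Bad .E b v → Bad .K c v →
    a.1 + b.1 = c.1
  rel : ∀ v (a : L .F) (b : L .E) (c : L .K) (d : L .G), Bad .F a v → Bad .E b v → Bad .K c v →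
    Bad .G d v → Rel a.2 b.2.1 c.2 d
  okF : ∀ v (a : L .F), Bad .F a v → a.2 ≠ 0 ∧ (a.1 ≠ 0 → a.2 = a.1)
  okE : ∀ v (b : L .E), Bad .E b v → b.2.1 ≠ 0 ∧ (b.1 ≠ 0 → b.2.1 = b.1)
  okK : ∀ v (c : L .K), Bad .K c v → c.2 ≠ 0 ∧ (c.1 ≠ 0 → c.2 = c.1)
  okG : ∀ v (d : L .G), Bad .G d v → d ≠ (0 : ZMod 8)
  parU : ∀ v (a : L .F) (b : L .E), Bad .U starU v → Bad .F a v → Bad .E b v →
    par a.1 = b.2.2
  parW : ∀ v (a : L .F) (b : L .E), Bad .W starW v → Bad .F a v → Bad .E b v →
    par a.1 ≠ b.2.2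
  align : ∀ (n : Dig) v (a : L n.cmp), Bad n.gate n.star v → Bad n.cmp a v → False

theorem li_gate (n : Dig) (v : ℤ × ℤ) : li n.gate v = ti n.cmp v := by cases n <;> rfl

theorem ti_gate (n : Dig) (v : ℤ × ℤ) : ti n.gate v = li n.cmp v := by cases n <;> rfl

end Crest.Agent.R046.Glue
private theorem rz_c35d719cba : type_of% @_root_.Crest.Agent.R046.Glue.Dig.cmp.eq_1 := @_root_.Crest.Agent.R046.Glue.Dig.cmp.eq_1 -- L70
private theorem rz_04fc7b3674 : type_of% @_root_.Crest.Agent.R046.Glue.L.eq_1 := @_root_.Crest.Agent.R046.Glue.L.eq_1 -- L22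
private theorem rz_ca6ab5ca3d : type_of% @_root_.Crest.Agent.R046.Glue.li.eq_1 := @_root_.Crest.Agent.R046.Glue.li.eq_1 -- L36
private theorem rz_de9bc96093 : type_of% @_root_.Crest.Agent.R046.Glue.ti.eq_1 := @_root_.Crest.Agent.R046.Glue.ti.eq_1 -- L49
end

-- ▼ part R046/DigitTruth
section

/-! Row 46: the true sudoku in base `q` (`q = 9` in the application): `dig q n` = last nonzero
base `q` digit of `n` (and `1` at `0`), `chi n = (n : ZMod q)`; all digit clauses hold. -/

set_option autoImplicit false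

namespace Crest.Agent.R046.DigitTruth

variable {q : ℕ}

theorem exists_rep (hq : 1 < q) (x : ℤ) (hx : x ≠ 0) :
    ∃ (v : ℕ) (m : ℤ), (m : ZMod q) ≠ 0 ∧ x = (q : ℤ) ^ v * m := by
  have hf : FiniteMultiplicity (q : ℤ) x := by
    rw [Int.finiteMultiplicity_iff]; exact ⟨by simp; omega, hx⟩
  obtain ⟨c, hc, hc'⟩ := hf.exists_eq_pow_mul_and_not_dvd
  exact ⟨_, c, fun h => hc' ((ZMod.intCast_zmod_eq_zero_iff_dvd c q).mp h), hc⟩

theorem rep_unique (hq : 1 < q) {v w : ℕ} {m l : ℤ} (hm : (m : ZMod q) ≠ 0)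
    (hl : (l : ZMod q) ≠ 0) (h : (q : ℤ) ^ v * m = (q : ℤ) ^ w * l) : m = l := by
  have hq0 : (q : ℤ) ≠ 0 := by exact_mod_cast (by omega : q ≠ 0)
  rcases lt_trichotomy v w with hvw | hvw | hvw
  · exfalso
    obtain ⟨d, rfl⟩ := Nat.exists_eq_add_of_lt hvw
    have : m = (q : ℤ) ^ (d + 1) * l := by
      have h2 : (q : ℤ) ^ v * m = (q : ℤ) ^ v * ((q : ℤ) ^ (d + 1) * l) := by rw [h]; ring
      exact mul_left_cancel₀ (pow_ne_zero _ hq0) h2
    apply hm
    rw [this]; push_cast
    simp [pow_succ]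
  · subst hvw
    exact mul_left_cancel₀ (pow_ne_zero _ hq0) h
  · exfalso
    obtain ⟨d, rfl⟩ := Nat.exists_eq_add_of_lt hvw
    have : l = (q : ℤ) ^ (d + 1) * m := by
      have h2 : (q : ℤ) ^ w * l = (q : ℤ) ^ w * ((q : ℤ) ^ (d + 1) * m) := by rw [← h]; ring
      exact mul_left_cancel₀ (pow_ne_zero _ hq0) h2
    apply hl
    rw [this]; push_cast
    simp [pow_succ]

open Classical in
/-- the last nonzero digit in base `q` (and `1` at `0`) -/
noncomputable def dig (q : ℕ) (n : ℤ) : ZMod q :=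
  if h : ∃ m : ℤ, (m : ZMod q) ≠ 0 ∧ n ≠ 0 ∧ ∃ v : ℕ, n = (q : ℤ) ^ v * m then (h.choose : ZMod q)
  else 1

theorem dig_zero : dig q 0 = 1 := by
  unfold dig
  rw [dif_neg]
  rintro ⟨m, -, h, -⟩
  exact h rfl

theorem dig_pow_mul (hq : 1 < q) (v : ℕ) (m : ℤ) (hm : (m : ZMod q) ≠ 0) :
    dig q ((q : ℤ) ^ v * m) = m := by
  have hq0 : (q : ℤ) ≠ 0 := by exact_mod_cast (by omega : q ≠ 0)
  have hm0 : m ≠ 0 := by rintro rfl; simp at hm
  have h : ∃ l : ℤ, (l : ZMod q) ≠ 0 ∧ (q : ℤ) ^ v * m ≠ 0 ∧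
      ∃ w : ℕ, (q : ℤ) ^ v * m = (q : ℤ) ^ w * l :=
    ⟨m, hm, mul_ne_zero (pow_ne_zero _ hq0) hm0, v, rfl⟩
  unfold dig
  rw [dif_pos h]
  obtain ⟨h1, h2, w, h3⟩ := h.choose_spec
  exact congrArg (fun a : ℤ => (a : ZMod q)) (rep_unique hq hm h1 h3).symm

theorem dig_ne_zero (hq : 1 < q) (n : ℤ) : dig q n ≠ 0 := by
  have : Fact (1 < q) := ⟨hq⟩
  by_cases hn : n = 0
  · subst hn; rw [dig_zero]; exact one_ne_zero
  · obtain ⟨v, m, hm, rfl⟩ := exists_rep hq n hn
    rw [dig_pow_mul hq v m hm]; exact hm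

theorem dig_of_not (hq : 1 < q) (n : ℤ) (hn : (n : ZMod q) ≠ 0) : dig q n = n := by
  have := dig_pow_mul hq 0 n hn
  simpa using this

theorem cast_pow (k : ℕ) : (((q : ℤ) ^ (k + 1) : ℤ) : ZMod q) = 0 := by
  push_cast
  simp [pow_succ]

/-- the pointwise relation (`s = f x`, `e = f y`, `k = f (x + y)`, `g = f (x + q y)`) -/
def Rel (q : ℕ) (s e k g : ZMod q) : Prop :=
  (k = e → g = s + e ∨ g = e ∨ s + e = 0) ∧ (g = s → k = s + e ∨ k = s ∨ s + e = 0)

/-- the true digits satisfy the pointwise relation -/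
theorem rel_dig (hq : 1 < q) (x y : ℤ) :
    Rel q (dig q x) (dig q y) (dig q (x + y)) (dig q (x + q * y)) := by
  by_cases hx : x = 0
  · subst hx
    by_cases hy : y = 0
    · subst hy
      simp only [mul_zero, add_zero, dig_zero]
      exact ⟨fun _ => Or.inr (Or.inl rfl), fun _ => Or.inr (Or.inl rfl)⟩
    · obtain ⟨w, m, hm, rfl⟩ := exists_rep hq y hy
      have e1 : (0 : ℤ) + q * (q ^ w * m) = q ^ (w + 1) * m := by ring
      rw [e1, zero_add, dig_pow_mul hq _ m hm, dig_pow_mul hq _ m hm]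
      exact ⟨fun _ => Or.inr (Or.inl rfl), fun h => Or.inr (Or.inl h)⟩
  · obtain ⟨v, l, hl, rfl⟩ := exists_rep hq x hx
    by_cases hy : y = 0
    · subst hy
      rw [mul_zero, add_zero]
      exact ⟨fun h => Or.inr (Or.inl h), fun _ => Or.inr (Or.inl rfl)⟩
    · obtain ⟨w, m, hm, rfl⟩ := exists_rep hq y hy
      rcases lt_trichotomy v w with hvw | hvw | hvw
      · obtain ⟨d, rfl⟩ := Nat.exists_eq_add_of_lt hvw
        have e1 : (q : ℤ) ^ v * l + q ^ (v + d + 1) * m = q ^ v * (l + q ^ (d + 1) * m) := by ring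
        have e2 : (q : ℤ) ^ v * l + q * (q ^ (v + d + 1) * m) = q ^ v * (l + q ^ (d + 1 + 1) * m) := by
          ring
        have c1 : ((l + q ^ (d + 1) * m : ℤ) : ZMod q) = l := by
          rw [Int.cast_add, Int.cast_mul, cast_pow]; ring
        have c2 : ((l + q ^ (d + 1 + 1) * m : ℤ) : ZMod q) = l := by
          rw [Int.cast_add, Int.cast_mul, cast_pow]; ring
        rw [e1, e2, dig_pow_mul hq _ l hl, dig_pow_mul hq _ (l + q ^ (d + 1) * m) (by rw [c1]; exact hl),
          dig_pow_mul hq _ (l + q ^ (d + 1 + 1) * m) (by rw [c2]; exact hl), dig_pow_mul hq _ m hm, c1, c2]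
        exact ⟨fun h => Or.inr (Or.inl h), fun _ => Or.inr (Or.inl rfl)⟩
      · subst hvw
        have e2 : (q : ℤ) ^ v * l + q * (q ^ v * m) = q ^ v * (l + q ^ (0 + 1) * m) := by ring
        have c2 : ((l + q ^ (0 + 1) * m : ℤ) : ZMod q) = l := by
          rw [Int.cast_add, Int.cast_mul, cast_pow]; ring
        rw [e2, dig_pow_mul hq _ l hl, dig_pow_mul hq _ (l + q ^ (0 + 1) * m) (by rw [c2]; exact hl),
          dig_pow_mul hq _ m hm, c2]
        by_cases hlm : (l : ZMod q) + m = 0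
        · exact ⟨fun _ => Or.inr (Or.inr hlm), fun _ => Or.inr (Or.inr hlm)⟩
        · have e1 : (q : ℤ) ^ v * l + q ^ v * m = q ^ v * (l + m) := by ring
          have c1 : ((l + m : ℤ) : ZMod q) = l + m := by push_cast; rfl
          rw [e1, dig_pow_mul hq _ (l + m) (by rw [c1]; exact hlm), c1]
          refine ⟨fun h => ?_, fun _ => Or.inl rfl⟩
          exact absurd (by linear_combination h) hl
      · obtain ⟨d, rfl⟩ := Nat.exists_eq_add_of_lt hvw
        have e1 : (q : ℤ) ^ (w + d + 1) * l + q ^ w * m = q ^ w * (q ^ (d + 1) * l + m) := by ring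
        have c1 : ((q ^ (d + 1) * l + m : ℤ) : ZMod q) = m := by
          rw [Int.cast_add, Int.cast_mul, cast_pow]; ring
        rw [e1, dig_pow_mul hq _ l hl, dig_pow_mul hq _ (q ^ (d + 1) * l + m) (by rw [c1]; exact hm),
          dig_pow_mul hq _ m hm, c1]
        rcases Nat.eq_zero_or_pos d with hd | hd
        · subst hd
          have e2 : (q : ℤ) ^ (w + 0 + 1) * l + q * (q ^ w * m) = q ^ (w + 1) * (l + m) := by ring
          rw [e2]
          by_cases hlm : (l : ZMod q) + m = 0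
          · exact ⟨fun _ => Or.inr (Or.inr hlm), fun _ => Or.inr (Or.inr hlm)⟩
          · have c2 : ((l + m : ℤ) : ZMod q) = l + m := by push_cast; rfl
            rw [dig_pow_mul hq _ (l + m) (by rw [c2]; exact hlm), c2]
            refine ⟨fun _ => Or.inl rfl, fun h => ?_⟩
            exact absurd (by linear_combination h) hm
        · obtain ⟨d, rfl⟩ := Nat.exists_eq_add_of_lt hd
          have e2 : (q : ℤ) ^ (w + (0 + d + 1) + 1) * l + q * (q ^ w * m) =
              q ^ (w + 1) * (q ^ (d + 1) * l + m) := by ring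
          have c2 : ((q ^ (d + 1) * l + m : ℤ) : ZMod q) = m := by
            rw [Int.cast_add, Int.cast_mul, cast_pow]; ring
          rw [e2, dig_pow_mul hq _ (q ^ (d + 1) * l + m) (by rw [c2]; exact hm), c2]
          exact ⟨fun _ => Or.inr (Or.inl rfl), fun h => Or.inr (Or.inl h)⟩


end Crest.Agent.R046.DigitTruth
end

-- ▼ part R046/TruthLogic
section

set_option autoImplicit false

/-! Row 46: the intended letters, gate offsets and holes satisfy all clauses. -/

namespace Crest.Agent.R046.Glue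

/-- `t` is at distance `1, …, p - 1` from `o` modulo `p ^ 2` -/
def Near (p : ℕ) (o t : ℤ) : Prop := ∃ i : ℤ, i ≠ 0 ∧ |i| < p ∧ (p : ℤ) ^ 2 ∣ t - o - i

theorem near_unique {p R : ℕ} (hp : 2 * R ≤ p) {η η' l : ℤ} (h0 : 0 ≤ η) (h1 : η < R)
    (h0' : 0 ≤ η') (h1' : η' < R) (h : Near p (2 * p * η) l) (h' : Near p (2 * p * η') l) :
    η = η' := by
  obtain ⟨i, -, hi, hd⟩ := h
  obtain ⟨i', -, hi', hd'⟩ := h'
  have hd2 : (p : ℤ) ^ 2 ∣ 2 * p * (η' - η) + (i' - i) := by
    have := dvd_sub hd hd'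
    have e : l - 2 * p * η - i - (l - 2 * p * η' - i') = 2 * p * (η' - η) + (i' - i) := by ring
    rwa [e] at this
  have hp' : 2 * (R : ℤ) ≤ p := by exact_mod_cast hp
  rw [abs_lt] at hi hi'
  have hR : (1 : ℤ) ≤ R := by omega
  have hpos : (0 : ℤ) < p := by omega
  have hz : 2 * p * (η' - η) + (i' - i) = 0 := by
    apply Int.eq_zero_of_abs_lt_dvd hd2
    rw [abs_lt]
    constructor
    · nlinarith
    · nlinarith
  by_contra hne
  rcases lt_or_gt_of_ne hne with hlt | hlt
  · nlinarith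
  · nlinarith

theorem near_not {p : ℕ} (hp : 5 ≤ p) {y : ℤ} (h : Near p (2 * p) y) : ¬ Near p 0 y := by
  rintro ⟨i', -, hi', hd'⟩
  obtain ⟨i, -, hi, hd⟩ := h
  have hd2 : (p : ℤ) ^ 2 ∣ 2 * p + (i - i') := by
    have := dvd_sub hd' hd
    have e : y - 0 - i' - (y - 2 * p - i) = 2 * p + (i - i') := by ring
    rwa [e] at this
  have hp' : (5 : ℤ) ≤ p := by exact_mod_cast hp
  rw [abs_lt] at hi hi'
  have hz : 2 * (p : ℤ) + (i - i') = 0 := by
    apply Int.eq_zero_of_abs_lt_dvd hd2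
    rw [abs_lt]
    constructor
    · nlinarith
    · nlinarith
  omega

theorem near_two {o t : ℤ} (h : Near 2 o t) : ((t : ℤ) : ZMod 2) = o + 1 := by
  obtain ⟨i, hi0, hi, hd⟩ := h
  rw [abs_lt] at hi
  have hi' : i = 1 ∨ i = -1 := by push_cast at hi; omega
  have hd2 : (2 : ℤ) ∣ t - o - i := dvd_trans (by norm_num) hd
  have hd3 : (2 : ℤ) ∣ t - (o + 1) := by
    rcases hi' with rfl | rfl
    · rwa [sub_add_eq_sub_sub]
    · have := dvd_sub hd2 (dvd_refl (2 : ℤ))
      have e : t - o - -1 - 2 = t - (o + 1) := by ring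
      rwa [e] at this
  have := (ZMod.intCast_zmod_eq_zero_iff_dvd (t - (o + 1)) 2).2 (by exact_mod_cast hd3)
  push_cast at this
  exact sub_eq_zero.1 this

theorem par_intCast (x : ℤ) : par (x : ZMod 8) = (x : ZMod 2) := map_intCast _ _

open Classical in
/-- the true extra bit of a row -/
noncomputable def bst (pW : ℕ) (y : ℤ) : ZMod 2 := if Near pW 0 y then 1 else 0

open DigitTruth in
/-- the true letters -/
noncomputable def lamT (pW : ℕ) : (n : Dig) → ℤ → L n.cmp
  | .F => fun x => ((x : ZMod 8), dig 8 x)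
  | .E => fun y => ((y : ZMod 8), dig 8 y, bst pW y)
  | .K => fun x => ((x : ZMod 8), dig 8 x)
  | .G => fun x => dig 8 x

/-- the product of the label moduli of a digit component -/
def prodR (r : ∀ i, L i → ℕ) (n : Dig) : ℕ := ∏ a, r n.cmp a

open Classical in
/-- the true offsets of the gates -/
noncomputable def offT (p : Cmp → ℕ) (r : ∀ i, L i → ℕ) : Cmp → ℤ → ℤ
  | .QF => fun t => 2 * p .QF * (t % prodR r .F)
  | .QE => fun t => 2 * p .QE * (t % prodR r .E)
  | .QK => fun t => 2 * p .QK * (t % prodR r .K)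
  | .QG => fun t => 2 * p .QG * (t % prodR r .G)
  | .U => fun y => if Near (p .W) 0 y then 0 else 1
  | .W => fun x => if Even x then 0 else 2 * p .W
  | _ => fun _ => 0

theorem offT_gate (p : Cmp → ℕ) (r : ∀ i, L i → ℕ) (n : Dig) (t : ℤ) :
    offT p r n.gate t = 2 * p n.gate * (t % prodR r n) := by
  cases n <;> rfl

open Classical in
/-- the true holes of the digit lines -/
noncomputable def holT (p : Cmp → ℕ) (r : ∀ i, L i → ℕ) (n : Dig) (l : ℤ) : ℤ :=
  if h : ∃ η : ℤ, 0 ≤ η ∧ η < prodR r n ∧ Near (p n.gate) (2 * p n.gate * η) l then h.choose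
  else 0

/-- **Truth logic**: the intended letters, holes and offsets satisfy all clauses. -/
theorem clauses_of_truth (p : Cmp → ℕ) (r : ∀ i, L i → ℕ) (hU : p .U = 2) (hW : 5 ≤ p .W)
    (hr : ∀ (n : Dig) a, 0 < r n.cmp a) (hQ : ∀ n : Dig, 2 * prodR r n ≤ p n.gate)
    (Bad : ∀ i : Cmp, L i → ℤ × ℤ → Prop)
    (hD : ∀ (n : Dig) (a : L n.cmp) v, Bad n.cmp a v → lamT (p .W) n (li n.cmp v) = a ∧
      ((ti n.cmp v : ℤ) : ZMod (r n.cmp a)) ≠ (holT p r n (li n.cmp v) : ℤ))
    (hG : ∀ (n : Dig) v, Bad n.gate n.star v →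
      Near (p n.gate) (offT p r n.gate (li n.gate v)) (ti n.gate v))
    (hGU : ∀ v, Bad .U starU v → Near (p .U) (offT p r .U (li .U v)) (ti .U v))
    (hGW : ∀ v, Bad .W starW v → Near (p .W) (offT p r .W (li .W v)) (ti .W v)) :
    Clauses Bad := by
  have hFF : ∀ v (a : L .F), Bad .F a v → a = ((v.1 : ZMod 8), DigitTruth.dig 8 v.1) :=
    fun v a h => ((hD .F a v h).1).symm
  have hEE : ∀ v (a : L .E), Bad .E a v →
      a = ((v.2 : ZMod 8), DigitTruth.dig 8 v.2, bst (p .W) v.2) :=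
    fun v a h => ((hD .E a v h).1).symm
  have hKK : ∀ v (a : L .K), Bad .K a v →
      a = (((v.1 + v.2 : ℤ) : ZMod 8), DigitTruth.dig 8 (v.1 + v.2)) :=
    fun v a h => ((hD .K a v h).1).symm
  have hGG : ∀ v (a : L .G), Bad .G a v → a = DigitTruth.dig 8 (v.1 + 8 * v.2) :=
    fun v a h => ((hD .G a v h).1).symm
  have h8 : 1 < 8 := by norm_num
  constructor
  · intro v a b c ha hb hc
    rw [hFF v a ha, hEE v b hb, hKK v c hc]
    push_cast
    rfl
  · intro v a b c d ha hb hc hd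
    rw [hFF v a ha, hEE v b hb, hKK v c hc, hGG v d hd]
    have := DigitTruth.rel_dig h8 v.1 v.2
    refine ⟨fun h => ?_, fun h => ?_⟩
    · rcases this.1 h with h' | h' | h'
      · exact Or.inl h'
      · exact Or.inr (Or.inl h')
      · exact Or.inr (Or.inr (eq_neg_of_add_eq_zero_left h'))
    · rcases this.2 h with h' | h' | h'
      · exact Or.inl h'
      · exact Or.inr (Or.inl h')
      · exact Or.inr (Or.inr (eq_neg_of_add_eq_zero_right h'))
  · intro v a ha
    rw [hFF v a ha]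
    exact ⟨DigitTruth.dig_ne_zero h8 _, fun h => DigitTruth.dig_of_not h8 _ h⟩
  · intro v a ha
    rw [hEE v a ha]
    exact ⟨DigitTruth.dig_ne_zero h8 _, fun h => DigitTruth.dig_of_not h8 _ h⟩
  · intro v a ha
    rw [hKK v a ha]
    exact ⟨DigitTruth.dig_ne_zero h8 _, fun h => DigitTruth.dig_of_not h8 _ h⟩
  · intro v a ha
    rw [hGG v a ha]
    exact DigitTruth.dig_ne_zero h8 _
  · intro v a b hu ha hb
    have h1 := hGU v hu
    rw [hFF v a ha, hEE v b hb]
    rw [hU] at h1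
    have h2 := near_two h1
    show par ((v.1 : ℤ) : ZMod 8) = bst (p .W) v.2
    rw [par_intCast]
    have h3 : ((v.1 : ℤ) : ZMod 2) = ((offT p r .U v.2 : ℤ) : ZMod 2) + 1 := h2
    rw [h3]
    unfold offT bst
    by_cases hn : Near (p .W) 0 v.2
    · simp [hn]
    · simp only [hn, if_false]
      decide
  · intro v a b hw ha hb
    have h1 : Near (p .W) (offT p r .W v.1) v.2 := hGW v hw
    rw [hFF v a ha, hEE v b hb]
    show par ((v.1 : ℤ) : ZMod 8) ≠ bst (p .W) v.2
    rw [par_intCast]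
    unfold offT at h1
    by_cases he : Even v.1
    · simp only [he, if_true] at h1
      have h0 : ((v.1 : ℤ) : ZMod 2) = 0 := (ZMod.intCast_zmod_eq_zero_iff_dvd _ _).2 he.two_dvd
      rw [h0]
      unfold bst
      rw [if_pos h1]
      decide
    · simp only [he, if_false] at h1
      have h2 := near_not hW h1
      have h0 : ((v.1 : ℤ) : ZMod 2) ≠ 0 := by
        intro h
        have := (ZMod.intCast_zmod_eq_zero_iff_dvd _ _).1 h
        exact he (even_iff_two_dvd.2 (by exact_mod_cast this))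
      unfold bst
      rw [if_neg h2]
      exact h0
  · intro n v a hq ha
    have h1 := hG n v hq
    rw [offT_gate, li_gate, ti_gate] at h1
    obtain ⟨-, h2⟩ := hD n a v ha
    apply h2
    have hRpos : 0 < prodR r n := Finset.prod_pos fun a _ => hr n a
    have hRpos' : (0 : ℤ) < prodR r n := by exact_mod_cast hRpos
    have hex : ∃ η : ℤ, 0 ≤ η ∧ η < prodR r n ∧
        Near (p n.gate) (2 * p n.gate * η) (li n.cmp v) :=
      ⟨_, Int.emod_nonneg _ hRpos'.ne', Int.emod_lt_of_pos _ hRpos', h1⟩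
    have hh : holT p r n (li n.cmp v) = ti n.cmp v % prodR r n := by
      unfold holT
      rw [dif_pos hex]
      obtain ⟨c0, c1, c2⟩ := hex.choose_spec
      exact near_unique (hQ n) c0 c1 (Int.emod_nonneg _ hRpos'.ne')
        (Int.emod_lt_of_pos _ hRpos') c2 h1
    rw [hh]
    have hdvd : (r n.cmp a : ℤ) ∣ ti n.cmp v - ti n.cmp v % prodR r n := by
      have e1 : (prodR r n : ℤ) ∣ ti n.cmp v - ti n.cmp v % prodR r n := by
        exact Int.dvd_self_sub_emod
      refine dvd_trans ?_ e1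
      exact_mod_cast Finset.dvd_prod_of_mem _ (Finset.mem_univ a)
    rw [← sub_eq_zero, ← Int.cast_sub]
    exact (ZMod.intCast_zmod_eq_zero_iff_dvd _ _).2 hdvd

end Crest.Agent.R046.Glue
end

-- ▼ part R046/Exact
section

/-! Row 46: the EXACT four-direction sudoku, digits modulo any `q ≥ 5` (helper229).

`exact_sudoku`: digit functions `F, E, K, G : ℤ → ZMod q` (nowhere zero) with the pointwise
relation `Rel (F x) (E y) (K (x + y)) (G (x + q * y))` for all `x y`, and `E (b + m) = u * m`,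
`K (a + b + m) = u * m` for `q ∤ m` (`u` a unit), are not periodic.

`exact_parity`: letters `(χ, f)` modulo 8 with the Cauchy relation `χF x + χE y = χK (x + y)`,
`f = χ` where `χ ≠ 0`, and the two parity gates. -/

set_option autoImplicit false

namespace Crest.Agent.R046.Exact

variable {q : ℕ}

/-- the pointwise relation (`s = F x`, `e = E y`, `k = K (x + y)`, `g = G (x + q y)`) -/
def Rel {q : ℕ} (s e k g : ZMod q) : Prop :=
  (k = e → g = s + e ∨ g = e ∨ s + e = 0) ∧ (g = s → k = s + e ∨ k = s ∨ s + e = 0)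

theorem exists_avoid (hq : 5 ≤ q) (a b c d : ZMod q) :
    ∃ i : ℤ, (i : ZMod q) ≠ a ∧ (i : ZMod q) ≠ b ∧ (i : ZMod q) ≠ c ∧ (i : ZMod q) ≠ d := by
  have : NeZero q := ⟨by omega⟩
  have hcard : ({a, b, c, d} : Finset (ZMod q)).card < (Finset.univ : Finset (ZMod q)).card := by
    rw [Finset.card_univ, ZMod.card]
    exact lt_of_le_of_lt Finset.card_le_four (by omega)
  obtain ⟨x, -, hx⟩ := Finset.exists_mem_notMem_of_card_lt_card hcard
  obtain ⟨i, rfl⟩ := ZMod.intCast_surjective x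
  simp only [Finset.mem_insert, Finset.mem_singleton, not_or] at hx
  exact ⟨i, hx.1, hx.2.1, hx.2.2.1, hx.2.2.2⟩

/-- the star lemma -/
theorem star (hq : 5 ≤ q) (φ β : ℤ → ZMod q) (hφ : ∀ m : ℤ, φ m ≠ m)
    (h : ∀ m m' : ℤ, (m : ZMod q) ≠ m' → β m' = φ m ∨ β m' = m ∨ φ m = m') :
    ∃ c : ZMod q, (∀ m : ℤ, (m : ZMod q) ≠ c → φ m = c) ∧
      (∀ m : ℤ, (m : ZMod q) ≠ c → β m = c) := by
  -- any two edges meet
  have hint : ∀ m n : ℤ, (m : ZMod q) = n ∨ (m : ZMod q) = φ n ∨ φ m = n ∨ φ m = φ n := by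
    intro m n
    by_contra hcon
    push Not at hcon
    obtain ⟨h1, h2, h3, h4⟩ := hcon
    obtain ⟨w, w1, w2, w3, w4⟩ := exists_avoid hq (m : ZMod q) (φ m) (n : ZMod q) (φ n)
    have e1 := h m w w1.symm
    have e2 := h n w w3.symm
    grind
  -- a common point
  have hstar : ∃ c : ZMod q, ∀ m : ℤ, (m : ZMod q) = c ∨ φ m = c := by
    by_contra hcon
    push Not at hcon
    obtain ⟨n, hn1, hn2⟩ := hcon ((0 : ℤ) : ZMod q)
    obtain ⟨k, hk1, hk2⟩ := hcon (φ 0)
    have h0n := hint 0 n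
    have h0k := hint 0 k
    have hnk := hint n k
    have hφ0 := hφ 0
    have hφn := hφ n
    have hφk := hφ k
    -- the third point
    obtain ⟨x, hx1, hx2⟩ : ∃ x : ZMod q, (((n : ZMod q) = φ 0 ∧ φ n = x) ∨ ((n : ZMod q) = x ∧ φ n = φ 0)) ∧
        (((k : ZMod q) = ((0 : ℤ) : ZMod q) ∧ φ k = x) ∨ ((k : ZMod q) = x ∧ φ k = ((0 : ℤ) : ZMod q))) := by
      clear h hcon hint hφ
      generalize ((0 : ℤ) : ZMod q) = a at *
      generalize (n : ZMod q) = n1 at *
      generalize (k : ZMod q) = k1 at *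
      generalize φ n = n2 at *
      generalize φ k = k2 at *
      generalize φ 0 = b at *
      by_cases hc : n1 = b
      · exact ⟨n2, by grind, by grind⟩
      · exact ⟨n1, by grind, by grind⟩
    obtain ⟨w, w1, w2, w3, -⟩ := exists_avoid hq ((0 : ℤ) : ZMod q) (φ 0) x x
    have a1 := hint w 0
    have a2 := hint w n
    have a3 := hint w k
    grind
  obtain ⟨c, hc⟩ := hstar
  have hA : ∀ m : ℤ, (m : ZMod q) ≠ c → φ m = c := fun m hm => (hc m).resolve_left hm
  refine ⟨c, hA, fun m' hm' => ?_⟩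
  obtain ⟨w, w1, w2, -, -⟩ := exists_avoid hq (m' : ZMod q) c c c
  obtain ⟨w', v1, v2, v3, -⟩ := exists_avoid hq (m' : ZMod q) c (w : ZMod q) c
  have e1 := h w m' w1
  have e2 := h w' m' v1
  rw [hA w w2] at e1
  rw [hA w' v2] at e2
  grind

/-- the step lemma -/
theorem core (hq : 5 ≤ q) (A B : ℤ → ZMod q) (hA : ∀ n, A n ≠ 0)
    (h : ∀ m m' : ℤ, ((m' - m : ℤ) : ZMod q) ≠ 0 →
      B m' = A m + ((m' - m : ℤ) : ZMod q) ∨ B m' = ((m' - m : ℤ) : ZMod q) ∨
        A m + ((m' - m : ℤ) : ZMod q) = 0) :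
    ∃ c : ℤ, (∀ m : ℤ, ((m - c : ℤ) : ZMod q) ≠ 0 → A m = ((m - c : ℤ) : ZMod q)) ∧
      (∀ m : ℤ, ((m - c : ℤ) : ZMod q) ≠ 0 → B m = ((m - c : ℤ) : ZMod q)) := by
  obtain ⟨c, hc1, hc2⟩ := star hq (fun m => m - A m) (fun m => m - B m)
    (fun m hm => hA m (by simpa using hm))
    (by
      intro m m' hm
      have hne : ((m' - m : ℤ) : ZMod q) ≠ 0 := by
        push_cast
        rw [sub_ne_zero]
        exact hm.symm
      have h1 := h m m' hne
      push_cast at h1
      rcases h1 with h1 | h1 | h1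
      · left; rw [h1]; ring
      · right; left; rw [h1]; ring
      · right; right
        have : A m = -((m' : ZMod q) - m) := eq_neg_of_add_eq_zero_left h1
        rw [this]; ring)
  obtain ⟨c, rfl⟩ := ZMod.intCast_surjective c
  refine ⟨c, fun m hm => ?_, fun m hm => ?_⟩
  · have h1 := hc1 m (by
      intro h2
      apply hm
      push_cast
      rw [h2, sub_self])
    push_cast
    rw [← h1]; ring
  · have h1 := hc2 m (by
      intro h2
      apply hm
      push_cast
      rw [h2, sub_self])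
    push_cast
    rw [← h1]; ring

/-- the structure at level `k` -/
def Lev (q : ℕ) (E K : ℤ → ZMod q) (k : ℕ) (a b : ℤ) : Prop :=
  ∀ m : ℤ, (m : ZMod q) ≠ 0 → E (b + q ^ k * m) = m ∧ K (a + b + q ^ k * m) = m

theorem lev_step (hq : 5 ≤ q) {F E K G : ℤ → ZMod q} (hF : ∀ n, F n ≠ 0) (hE : ∀ n, E n ≠ 0)
    (hrel : ∀ x y : ℤ, Rel (F x) (E y) (K (x + y)) (G (x + q * y)))
    {k : ℕ} {a b : ℤ} (h : Lev q E K k a b) : ∃ a' b' : ℤ, Lev q E K (k + 1) a' b' := by
  obtain ⟨c, hcA, hcB⟩ := core hq (fun m => F (a + q ^ (k + 1) * m))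
    (fun m => G (a + q * b + q ^ (k + 1) * m)) (fun n => hF _) (by
      intro m m' hm
      have h1 := hrel (a + q ^ (k + 1) * m) (b + q ^ k * (m' - m))
      have h2 := h (m' - m) hm
      have h3 := h (q * m + (m' - m)) (by
        push_cast
        rw [ZMod.natCast_self, zero_mul, zero_add]
        push_cast at hm
        exact hm)
      have e1 : a + (q : ℤ) ^ (k + 1) * m + (b + q ^ k * (m' - m))
          = a + b + q ^ k * (q * m + (m' - m)) := by ring
      have e2 : a + (q : ℤ) ^ (k + 1) * m + q * (b + q ^ k * (m' - m))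
          = a + q * b + q ^ (k + 1) * m' := by ring
      rw [e1, e2, h3.2, h2.1] at h1
      have e3 : ((q * m + (m' - m) : ℤ) : ZMod q) = ((m' - m : ℤ) : ZMod q) := by
        push_cast
        rw [ZMod.natCast_self, zero_mul, zero_add]
      have h4 := h1.1 e3
      exact h4)
  obtain ⟨c', hcA', hcB'⟩ := core hq (fun n => E (b + q ^ (k + 1) * n))
    (fun n => K (a + b + q ^ (k + 1) * (n + c))) (fun n => hE _) (by
      intro n n' hn
      have h1 := hrel (a + q ^ (k + 1) * (n' - n + c)) (b + q ^ (k + 1) * n)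
      have h2 := hcA (n' - n + c) (by
        rw [add_sub_cancel_right]
        exact hn)
      have h3 := hcB (n' - n + c + q * n) (by
        push_cast
        rw [ZMod.natCast_self, zero_mul, add_zero]
        push_cast at hn
        rw [add_sub_cancel_right]
        exact hn)
      have e1 : a + (q : ℤ) ^ (k + 1) * (n' - n + c) + (b + q ^ (k + 1) * n)
          = a + b + q ^ (k + 1) * (n' + c) := by ring
      have e2 : a + (q : ℤ) ^ (k + 1) * (n' - n + c) + q * (b + q ^ (k + 1) * n)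
          = a + q * b + q ^ (k + 1) * (n' - n + c + q * n) := by ring
      rw [e1, e2, h3, h2] at h1
      have e3 : ((n' - n + c + q * n - c : ℤ) : ZMod q) = ((n' - n : ℤ) : ZMod q) := by
        push_cast
        rw [ZMod.natCast_self, zero_mul]
        ring
      have e4 : ((n' - n + c - c : ℤ) : ZMod q) = ((n' - n : ℤ) : ZMod q) := by
        rw [add_sub_cancel_right]
      rw [e3, e4] at h1
      have h4 := h1.2 rfl
      rcases h4 with h4 | h4 | h4
      · left; rw [h4]; ring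
      · right; left; exact h4
      · right; right; rw [add_comm]; exact h4)
  refine ⟨a + q ^ (k + 1) * c, b + q ^ (k + 1) * c', fun m hm => ⟨?_, ?_⟩⟩
  · have h1 := hcA' (c' + m) (by rw [add_sub_cancel_left]; exact hm)
    rw [add_sub_cancel_left] at h1
    rw [← h1]
    congr 1
    ring
  · have h1 := hcB' (c' + m) (by rw [add_sub_cancel_left]; exact hm)
    rw [add_sub_cancel_left] at h1
    rw [← h1]
    congr 1
    ring

theorem lev_all (hq : 5 ≤ q) {F E K G : ℤ → ZMod q} (hF : ∀ n, F n ≠ 0) (hE : ∀ n, E n ≠ 0)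
    (hrel : ∀ x y : ℤ, Rel (F x) (E y) (K (x + y)) (G (x + q * y)))
    {a b : ℤ} (h : Lev q E K 0 a b) (k : ℕ) : ∃ a' b' : ℤ, Lev q E K k a' b' := by
  induction k with
  | zero => exact ⟨a, b, h⟩
  | succ k ih =>
    obtain ⟨a', b', h'⟩ := ih
    exact lev_step hq hF hE hrel h'

/-- normalised exact sudoku: `E` is not periodic -/
theorem exact_sudoku_one (hq : 5 ≤ q) {F E K G : ℤ → ZMod q} (hF : ∀ n, F n ≠ 0)
    (hE : ∀ n, E n ≠ 0)
    (hrel : ∀ x y : ℤ, Rel (F x) (E y) (K (x + y)) (G (x + q * y)))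
    {a b : ℤ} (h : Lev q E K 0 a b) {N : ℤ} (hN : 0 < N) (hper : ∀ n, E (n + N) = E n) : False := by
  -- write `N = q ^ j * N'` with `q ∤ N'`
  have hq1 : 1 < q := by omega
  obtain ⟨j, N', hj, hN'⟩ : ∃ (j : ℕ) (N' : ℤ), N = (q : ℤ) ^ j * N' ∧ ¬ (q : ℤ) ∣ N' := by
    have hfin : FiniteMultiplicity (q : ℤ) N := by
      rw [Int.finiteMultiplicity_iff]
      exact ⟨by simpa using hq1.ne', hN.ne'⟩
    obtain ⟨c, hc1, hc2⟩ := hfin.exists_eq_pow_mul_and_not_dvd
    exact ⟨_, c, hc1, hc2⟩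
  obtain ⟨a', b', hl⟩ := lev_all hq hF hE hrel h j
  have hne : ((N' : ℤ) : ZMod q) ≠ 0 := by
    rw [Ne, ZMod.intCast_zmod_eq_zero_iff_dvd]
    exact hN'
  obtain ⟨m, hm1, hm2, -, -⟩ := exists_avoid hq (0 : ZMod q) (-(N' : ZMod q)) 0 0
  have hm3 : ((m + N' : ℤ) : ZMod q) ≠ 0 := by
    intro h0
    apply hm2
    push_cast at h0
    exact eq_neg_of_add_eq_zero_left h0
  have e1 := (hl m hm1).1
  have e2 := (hl (m + N') hm3).1
  have e3 : b' + (q : ℤ) ^ j * (m + N') = b' + q ^ j * m + N := by rw [hj]; ring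
  rw [e3, hper, e1] at e2
  apply hne
  push_cast at e2
  exact (left_eq_add.1 e2)

/-- **Exact sudoku**: with a unit `u` as scale. -/
theorem exact_sudoku (hq : 5 ≤ q) {F E K G : ℤ → ZMod q} (hF : ∀ n, F n ≠ 0)
    (hE : ∀ n, E n ≠ 0)
    (hrel : ∀ x y : ℤ, Rel (F x) (E y) (K (x + y)) (G (x + q * y)))
    {u : ZMod q} (hu : IsUnit u) {a b : ℤ}
    (h : ∀ m : ℤ, (m : ZMod q) ≠ 0 → E (b + m) = u * m ∧ K (a + b + m) = u * m)
    {N : ℤ} (hN : 0 < N) (hper : ∀ n, E (n + N) = E n) : False := by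
  obtain ⟨v, rfl⟩ := hu
  have hv : ∀ x : ZMod q, (v⁻¹ : (ZMod q)ˣ) * x = 0 ↔ x = 0 := fun x => Units.mul_right_eq_zero _
  have hinj : ∀ x y : ZMod q, ((v⁻¹ : (ZMod q)ˣ) : ZMod q) * x = (v⁻¹ : (ZMod q)ˣ) * y ↔ x = y :=
    fun x y => Units.mul_right_inj _
  refine exact_sudoku_one hq (F := fun n => ((v⁻¹ : (ZMod q)ˣ) : ZMod q) * F n)
    (E := fun n => ((v⁻¹ : (ZMod q)ˣ) : ZMod q) * E n)
    (K := fun n => ((v⁻¹ : (ZMod q)ˣ) : ZMod q) * K n)
    (G := fun n => ((v⁻¹ : (ZMod q)ˣ) : ZMod q) * G n) (a := a) (b := b) (N := N)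
    ?_ ?_ ?_ ?_ hN ?_
  · intro n hn; exact hF n ((hv _).1 hn)
  · intro n hn; exact hE n ((hv _).1 hn)
  · intro x y
    have h1 := hrel x y
    unfold Rel at h1 ⊢
    simp only [← mul_add, hinj, hv]
    exact h1
  · intro m hm
    have h1 := h m hm
    simp only [pow_zero, one_mul]
    rw [h1.1, h1.2]
    simp
  · intro n
    simp only [hper]

/-! ### letters modulo 8 -/

/-- parity of a residue modulo 8 -/
def par : ZMod 8 →+* ZMod 2 := ZMod.castHom (by norm_num) (ZMod 2)

theorem isUnit_of_par : ∀ u : ZMod 8, par u ≠ 0 → IsUnit u := by decide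

/-- a Cauchy relation modulo `q` makes the functions affine -/
theorem cauchy {χF χE χK : ℤ → ZMod q} (h : ∀ x y : ℤ, χF x + χE y = χK (x + y)) :
    ∃ u : ZMod q, (∀ x : ℤ, χF x = u * x + χF 0) ∧ (∀ y : ℤ, χE y = u * y + χE 0) := by
  have h1 : ∀ x : ℤ, χF (x + 1) = χF x + (χF 1 - χF 0) := by
    intro x
    have e1 := h (x + 1) 0
    have e2 := h x 1
    have e3 := h 1 0
    have e4 := h 0 1
    rw [add_zero] at e1 e3
    rw [zero_add] at e4
    rw [← e2] at e1
    rw [← e3] at e4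
    linear_combination e1 + e4
  have h2 : ∀ y : ℤ, χE (y + 1) = χE y + (χF 1 - χF 0) := by
    intro y
    have e1 := h 0 (y + 1)
    have e2 := h 1 y
    rw [zero_add] at e1
    rw [add_comm 1 y, ← e1] at e2
    linear_combination -e2
  have aff : ∀ (f : ℤ → ZMod q) (u : ZMod q), (∀ x, f (x + 1) = f x + u) → ∀ x : ℤ, f x = u * x + f 0 := by
    intro f u hf x
    induction x using Int.induction_on with
    | zero => simp
    | succ n ih => rw [hf, ih]; push_cast; ring
    | pred n ih =>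
      have := hf (-(n : ℤ) - 1)
      rw [sub_add_cancel, ih] at this
      push_cast at this ⊢
      linear_combination -this
  exact ⟨χF 1 - χF 0, aff χF _ h1, aff χE _ h2⟩

/-- **Exact sudoku with letters modulo 8 and parity gates**: `E`-digits are not periodic. -/
theorem exact_parity {χF fF χE fE χK fK fG : ℤ → ZMod 8} {bE : ℤ → ZMod 2}
    (hC : ∀ x y : ℤ, χF x + χE y = χK (x + y))
    (hF : ∀ n, fF n ≠ 0) (hE : ∀ n, fE n ≠ 0)
    (hE' : ∀ n, χE n ≠ 0 → fE n = χE n) (hK' : ∀ n, χK n ≠ 0 → fK n = χK n)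
    (hrel : ∀ x y : ℤ, Rel (fF x) (fE y) (fK (x + y)) (fG (x + 8 * y)))
    (hu : ∀ y, ∃ x, par (χF x) = bE y) (hw : ∀ x, ∃ y, par (χF x) ≠ bE y)
    {N : ℤ} (hN : 0 < N) (hper : ∀ n, fE (n + N) = fE n) : False := by
  obtain ⟨u, h1, h2⟩ := cauchy hC
  have hpar : par u ≠ 0 := by
    intro h0
    obtain ⟨y, hy⟩ := hw 0
    obtain ⟨x, hx⟩ := hu y
    apply hy
    rw [← hx, h1 x]
    simp [h0]
  have hunit := isUnit_of_par u hpar
  obtain ⟨v, hv⟩ := hunit
  -- centres
  obtain ⟨a, ha⟩ := ZMod.intCast_surjective (-((v⁻¹ : (ZMod 8)ˣ) : ZMod 8) * χF 0)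
  obtain ⟨b, hb⟩ := ZMod.intCast_surjective (-((v⁻¹ : (ZMod 8)ˣ) : ZMod 8) * χE 0)
  have huv : u * ((v⁻¹ : (ZMod 8)ˣ) : ZMod 8) = 1 := by rw [← hv]; simp
  have hFa : χF a = 0 := by
    rw [h1 a, ha]
    linear_combination (-χF 0) * huv
  have hEb : ∀ m : ℤ, χE (b + m) = u * m := by
    intro m
    rw [h2 (b + m)]
    push_cast
    rw [hb]
    linear_combination (-χE 0) * huv
  refine exact_sudoku (q := 8) (by norm_num) (F := fF) (E := fE) (K := fK) (G := fG) hF hE
    (fun x y => by simpa using hrel x y) (u := u) ⟨v, hv⟩ (a := a) (b := b) ?_ hN hper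
  intro m hm
  have hne : u * (m : ZMod 8) ≠ 0 := by
    rw [← hv]
    intro h0
    exact hm ((Units.mul_right_eq_zero v).1 h0)
  refine ⟨?_, ?_⟩
  · rw [hE' _ (by rw [hEb]; exact hne), hEb]
  · have hK : χK (a + b + m) = u * m := by
      rw [add_assoc, ← hC, hFa, hEb, zero_add]
    rw [hK' _ (by rw [hK]; exact hne), hK]

end Crest.Agent.R046.Exact
end

-- ▼ part R046/Cells
section

/-! Row 46: hole alignment and cells (helper229, note 8170): the forced facts of the ten components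
and the clauses contradict periodicity (`false_of_forced`). -/

set_option autoImplicit false

namespace Crest.Agent.R046.Glue

open Function

/-- the gating components -/
def IsGate : Cmp → Prop
  | .F => False
  | .E => False
  | .K => False
  | .G => False
  | .QF => True
  | .QE => True
  | .QK => True
  | .QG => True
  | .U => True
  | .W => True

/-- all moduli: `p i` and `r i a` -/
def modul (p : Cmp → ℕ) (r : ∀ i, L i → ℕ) : (Σ i, Option (L i)) → ℕ
  | ⟨i, none⟩ => p i
  | ⟨i, some a⟩ => r i a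

/-! ### geometry -/

theorem li_add (i : Cmp) (v w : ℤ × ℤ) : li i (v + w) = li i v + li i w := by
  cases i <;> simp only [li, Prod.fst_add, Prod.snd_add] <;> ring

theorem ti_add (i : Cmp) (v w : ℤ × ℤ) : ti i (v + w) = ti i v + ti i w := by
  cases i <;> simp only [ti, Prod.fst_add, Prod.snd_add] <;> ring

theorem li_smul (i : Cmp) (n : ℤ) (v : ℤ × ℤ) : li i (n • v) = n * li i v := by
  cases i <;> simp only [li, Prod.smul_fst, Prod.smul_snd, smul_eq_mul] <;> ring

theorem ti_smul (i : Cmp) (n : ℤ) (v : ℤ × ℤ) : ti i (n • v) = n * ti i v := by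
  cases i <;> simp only [ti, Prod.smul_fst, Prod.smul_snd, smul_eq_mul] <;> ring

theorem exists_pt (i : Cmp) (l t : ℤ) : ∃ v, li i v = l ∧ ti i v = t := by
  cases i
  · exact ⟨(l, t), rfl, rfl⟩
  · exact ⟨(t, l), rfl, rfl⟩
  · exact ⟨(t, l - t), by simp [li], rfl⟩
  · exact ⟨(l - 8 * t, t), by simp [li], rfl⟩
  · exact ⟨(t, l), rfl, rfl⟩
  · exact ⟨(l, t), rfl, rfl⟩
  · exact ⟨(l, t - l), rfl, by simp [ti]⟩
  · exact ⟨(t - 8 * l, l), rfl, by simp [ti]⟩
  · exact ⟨(t, l), rfl, rfl⟩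
  · exact ⟨(l, t), rfl, rfl⟩

/-! ### Chinese remainders -/

theorem crt {ι : Type*} [Fintype ι] (m : ι → ℕ) (hm : Pairwise (Nat.Coprime on m)) (c : ι → ℤ) :
    ∃ x : ℤ, ∀ i, (x : ZMod (m i)) = c i := by
  obtain ⟨x, hx⟩ := ZMod.intCast_surjective
    ((ZMod.prodEquivPi m hm).symm (fun i => (c i : ZMod (m i))))
  refine ⟨x, fun i => ?_⟩
  have h1 := congrArg (ZMod.prodEquivPi m hm) hx
  rw [RingEquiv.apply_symm_apply, map_intCast] at h1
  have h2 := congrFun h1 i
  rwa [Pi.intCast_apply] at h2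

theorem label_eq (n : Dig) (a : L n.gate) : a = n.star := by cases n <;> rfl

theorem cmp_inj : Injective Dig.cmp := by
  intro a b h
  cases a <;> cases b <;> first | rfl | (exact absurd h (by decide))

theorem gate_inj : Injective Dig.gate := by
  intro a b h
  cases a <;> cases b <;> first | rfl | (exact absurd h (by decide))

theorem cmp_ne_gate (a b : Dig) : a.cmp ≠ b.gate := by
  cases a <;> cases b <;> decide

theorem gate_gate (d : Dig) : IsGate d.gate := by cases d <;> trivial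

section main

variable (p : Cmp → ℕ) (r : ∀ i, L i → ℕ)

/-- forced behaviour of a digit component -/
def ForcedD (Bad : ∀ i, L i → (ℤ × ℤ) → Prop) (i : Cmp) : Prop :=
  ∃ τ : ZMod (p i ^ 2), ∀ l : ℤ, ∃ a : L i, ∃ ρ : ZMod (r i a), ∀ v, li i v = l →
    ((ti i v : ℤ) : ZMod (p i ^ 2)) = τ → ((ti i v : ℤ) : ZMod (r i a)) ≠ ρ → Bad i a v

/-- forced behaviour of a gating component -/
def ForcedG (Bad : ∀ i, L i → (ℤ × ℤ) → Prop) (i : Cmp) : Prop :=
  ∀ l : ℤ, ∃ τ : ZMod (p i ^ 2), ∃ a : L i, ∃ ρ : ZMod (r i a), ∀ v, li i v = l →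
    ((ti i v : ℤ) : ZMod (p i ^ 2)) = τ → ((ti i v : ℤ) : ZMod (r i a)) ≠ ρ → Bad i a v

/-- moduli with the role numbers squared -/
def modsq : (Σ i, Option (L i)) → ℕ
  | ⟨i, none⟩ => p i ^ 2
  | ⟨i, some a⟩ => r i a

variable {p r}

theorem modsq_coprime (hco : Pairwise (Nat.Coprime on modul p r)) :
    Pairwise (Nat.Coprime on modsq p r) := by
  rintro ⟨i, x⟩ ⟨j, y⟩ hxy
  have h := hco hxy
  cases x <;> cases y <;> simp only [Function.onFun, modul, modsq] at h ⊢
  · exact Nat.Coprime.pow _ _ h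
  · exact Nat.Coprime.pow_left _ h
  · exact Nat.Coprime.pow_right _ h
  · exact h

/-- index of the moduli used for the cells -/
abbrev Jx : Type := Σ d : Dig, Option (L d.cmp) ⊕ Option (L d.gate)

/-- the modulus -/
def jm : Jx → (Σ i, Option (L i))
  | ⟨d, .inl x⟩ => ⟨d.cmp, x⟩
  | ⟨d, .inr x⟩ => ⟨d.gate, x⟩

theorem jm_inj : Injective jm := by
  rintro ⟨d, x⟩ ⟨d', x'⟩ h
  rcases x with x | x <;> rcases x' with x' | x'
  · have h1 : d.cmp = d'.cmp := congrArg Sigma.fst h
    obtain rfl := cmp_inj h1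
    have h2 : x = x' := by
      simpa [jm] using h
    rw [h2]
  · exact absurd (congrArg Sigma.fst h) (cmp_ne_gate d d')
  · exact absurd (congrArg Sigma.fst h).symm (cmp_ne_gate d' d)
  · have h1 : d.gate = d'.gate := congrArg Sigma.fst h
    obtain rfl := gate_inj h1
    have h2 : x = x' := by
      simpa [jm] using h
    rw [h2]

theorem jm_ne_gate (j : Jx) (i : Cmp) (hi : ∀ d : Dig, i ≠ d.cmp ∧ i ≠ d.gate) (x : Option (L i)) :
    jm j ≠ ⟨i, x⟩ := by
  obtain ⟨d, y⟩ := j
  rcases y with y | y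
  · intro h; exact (hi d).1 (congrArg Sigma.fst h).symm
  · intro h; exact (hi d).2 (congrArg Sigma.fst h).symm

theorem li_cast_congr (i : Cmp) (m : ℕ) {v w : ℤ × ℤ} (h1 : (v.1 : ZMod m) = w.1)
    (h2 : (v.2 : ZMod m) = w.2) : ((li i v : ℤ) : ZMod m) = (li i w : ℤ) := by
  cases i <;> simp only [li] <;> push_cast <;> simp only [h1, h2]

theorem ti_cast_congr (i : Cmp) (m : ℕ) {v w : ℤ × ℤ} (h1 : (v.1 : ZMod m) = w.1)
    (h2 : (v.2 : ZMod m) = w.2) : ((ti i v : ℤ) : ZMod m) = (ti i w : ℤ) := by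
  cases i <;> simp only [ti] <;> push_cast <;> simp only [h1, h2]

theorem gate_pt {P m1 m2 : ℕ} (h12 : Nat.Coprime m1 m2) (hP1 : Nat.Coprime P m1)
    (hP2 : Nat.Coprime P m2) (x0 z1 z2 : ℤ) :
    ∃ X : ℤ, ((x0 + P * X : ℤ) : ZMod m1) = z1 ∧ ((x0 + P * X : ℤ) : ZMod m2) = z2 := by
  obtain ⟨x, hx⟩ := crt ![m1, m2, P] (by
    intro i j hij
    fin_cases i <;> fin_cases j <;>
      first
      | exact absurd rfl hij
      | exact h12
      | exact h12.symm
      | exact hP1
      | exact hP1.symm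
      | exact hP2
      | exact hP2.symm) ![z1, z2, x0]
  have h0 : (x : ZMod m1) = z1 := hx 0
  have h1 : (x : ZMod m2) = z2 := hx 1
  have h2 : (x : ZMod P) = x0 := hx 2
  obtain ⟨X, hX⟩ := (ZMod.intCast_eq_intCast_iff_dvd_sub x0 x P).1 h2.symm
  refine ⟨X, ?_, ?_⟩
  · rw [← h0]; congr 1; linarith
  · rw [← h1]; congr 1; linarith

theorem clause_q {Bad : ∀ i, L i → (ℤ × ℤ) → Prop} (hcl : Clauses Bad) (d : Dig) (a : L d.cmp)
    (b : L d.gate) (v : ℤ × ℤ) (h : Bad d.gate b v) : ¬ Bad d.cmp a v := by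
  intro ha
  rw [label_eq d b] at h
  exact hcl.align d v a h ha

instance nonemptyL (i : Cmp) : Nonempty (L i) := by
  cases i
  · exact ⟨((0, 0) : ZMod 8 × ZMod 8)⟩
  · exact ⟨((0, 0, 0) : ZMod 8 × ZMod 8 × ZMod 2)⟩
  · exact ⟨((0, 0) : ZMod 8 × ZMod 8)⟩
  · exact ⟨(0 : ZMod 8)⟩
  all_goals exact ⟨()⟩

theorem dvd_P (j : Jx) : modsq p r (jm j) ∣ ∏ j : Jx, modsq p r (jm j) :=
  Finset.dvd_prod_of_mem (fun j => modsq p r (jm j)) (Finset.mem_univ j)

/-- **hole alignment**: cells at which all four letters are alive. -/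
theorem exists_cells (hr : ∀ i a, 2 ≤ r i a) (hco : Pairwise (Nat.Coprime on modul p r))
    {Bad : ∀ i, L i → (ℤ × ℤ) → Prop} (hcl : Clauses Bad)
    (hD : ∀ d : Dig, ForcedD p r Bad d.cmp) (hG : ∀ i, IsGate i → ForcedG p r Bad i)
    {N : ℤ} (hper : ∀ i a v u, Bad i a (v + N • u) ↔ Bad i a v) :
    ∃ (v0 : ℤ × ℤ) (al : ∀ d : Dig, ℤ → L d.cmp),
      (∀ d l, al d (l + N) = al d l) ∧
      ∀ (d : Dig) (V : ℤ × ℤ), Bad d.cmp (al d (li d.cmp (v0 + (∏ j, modsq p r (jm j) : ℕ) • V)))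
        (v0 + (∏ j, modsq p r (jm j) : ℕ) • V) := by
  choose τ hτ using hD
  -- integer representatives of the mixed times
  choose s hs using fun d => ZMod.intCast_surjective (τ d)
  -- the transversal lines `s d`
  have hQ := fun d => hG d.gate (gate_gate d) (s d)
  choose τ' a' ρ' hQ using hQ
  choose z hz using fun d => ZMod.intCast_surjective (τ' d)
  choose y hy using fun d => ZMod.intCast_surjective (ρ' d + 1)
  let Good : ∀ d : Dig, ℤ → L d.cmp → Prop := fun d l a =>
    ∀ v, li d.cmp v = l → ((ti d.cmp v : ℤ) : ZMod (p d.cmp ^ 2)) = s d →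
      (∀ b : L d.cmp, ((ti d.cmp v : ℤ) : ZMod (r d.cmp b)) = (s d + 1 : ℤ)) → Bad d.cmp a v
  have one_ne : ∀ i a, (1 : ZMod (r i a)) ≠ 0 := by
    intro i a
    have : Fact (1 < r i a) := ⟨hr i a⟩
    exact one_ne_zero
  have hgood : ∀ d (l : ℤ), (l : ZMod (p d.gate ^ 2)) = τ' d →
      (l : ZMod (r d.gate (a' d))) = ρ' d + 1 → ∃ a, Good d l a := by
    intro d l h1 h2
    obtain ⟨a, ρ, ha⟩ := hτ d l
    obtain ⟨v, hv1, hv2⟩ := exists_pt d.cmp l (s d)
    have hbQ : Bad d.gate (a' d) v := by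
      refine hQ d v ?_ ?_ ?_
      · rw [li_gate]; exact hv2
      · rw [ti_gate, hv1]; exact h1
      · rw [ti_gate, hv1, h2]
        intro h3
        exact one_ne _ _ (add_eq_left.1 h3)
    have hnb := clause_q hcl d a _ v hbQ
    have hρ : ((s d : ℤ) : ZMod (r d.cmp a)) = ρ := by
      by_contra hne
      refine hnb (ha v hv1 ?_ ?_)
      · rw [hv2]; exact hs d
      · rw [hv2]; exact hne
    refine ⟨a, fun w hw1 hw2 hw3 => ha w hw1 ?_ ?_⟩
    · rw [hw2]; exact hs d
    · rw [hw3 a, ← hρ]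
      push_cast
      intro h3
      exact one_ne _ _ (add_eq_left.1 h3)
  -- the base point
  have hmod := modsq_coprime hco
  choose c hc1 hc2 using fun (d : Dig) (t : ℤ) => exists_pt d.cmp 0 t
  choose c' hc1' hc2' using fun (d : Dig) (l : ℤ) => exists_pt d.cmp l 0
  let tgt : Jx → ℤ × ℤ := fun j =>
    match j with
    | ⟨d, .inl none⟩ => c d (s d)
    | ⟨d, .inl (some _)⟩ => c d (s d + 1)
    | ⟨d, .inr none⟩ => c' d (z d)
    | ⟨d, .inr (some _)⟩ => c' d (y d)
  obtain ⟨x0, hx0⟩ := crt (fun j => modsq p r (jm j)) (fun i j hij => hmod (jm_inj.ne hij))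
    (fun j => (tgt j).1)
  obtain ⟨y0, hy0⟩ := crt (fun j => modsq p r (jm j)) (fun i j hij => hmod (jm_inj.ne hij))
    (fun j => (tgt j).2)
  set P : ℕ := ∏ j, modsq p r (jm j) with hP
  have hPd : ∀ j, modsq p r (jm j) ∣ P := by
    intro j
    rw [hP]
    exact dvd_P j
  clear_value P
  have hPj : ∀ j, ((P : ℤ) : ZMod (modsq p r (jm j))) = 0 := by
    intro j
    rw [Int.cast_natCast]
    exact (ZMod.natCast_eq_zero_iff _ _).2 (hPd j)
  have hv1 : ∀ (V : ℤ × ℤ) j, (((((x0, y0) : ℤ × ℤ) + (P : ℕ) • V).1 : ℤ) :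
      ZMod (modsq p r (jm j))) = (tgt j).1 := by
    intro V j
    have h := hPj j
    rw [Prod.fst_add, Prod.smul_fst, nsmul_eq_mul]
    push_cast
    push_cast at h
    rw [h, zero_mul, add_zero]
    exact hx0 j
  have hv2 : ∀ (V : ℤ × ℤ) j, (((((x0, y0) : ℤ × ℤ) + (P : ℕ) • V).2 : ℤ) :
      ZMod (modsq p r (jm j))) = (tgt j).2 := by
    intro V j
    have h := hPj j
    rw [Prod.snd_add, Prod.smul_snd, nsmul_eq_mul]
    push_cast
    push_cast at h
    rw [h, zero_mul, add_zero]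
    exact hy0 j
  refine ⟨(x0, y0), fun d l => Classical.epsilon (Good d l), ?_, ?_⟩
  · intro d l
    have : Good d (l + N) = Good d l := by
      funext a
      obtain ⟨e, he1, he2⟩ := exists_pt d.cmp 1 0
      apply propext
      constructor
      · intro h v h1 h2 h3
        refine (hper d.cmp a v e).1 (h (v + N • e) ?_ ?_ ?_)
        · rw [li_add, li_smul, he1, h1, mul_one]
        · rw [ti_add, ti_smul, he2, mul_zero, add_zero]; exact h2
        · rw [ti_add, ti_smul, he2, mul_zero, add_zero]; exact h3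
      · intro h v h1 h2 h3
        have h4 := (hper d.cmp a (v + (-N) • e) e)
        have h5 : v + (-N) • e + N • e = v := by rw [neg_smul, neg_add_cancel_right]
        rw [h5] at h4
        refine h4.2 (h _ ?_ ?_ ?_)
        · rw [li_add, li_smul, he1, h1]; ring
        · rw [ti_add, ti_smul, he2, mul_zero, add_zero]; exact h2
        · rw [ti_add, ti_smul, he2, mul_zero, add_zero]; exact h3
    simp only [this]
  · intro d V
    have hex : ∃ a, Good d (li d.cmp ((x0, y0) + P • V)) a := by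
      refine hgood d _ ?_ ?_
      · have h1 : ((li d.cmp (((x0, y0) : ℤ × ℤ) + P • V) : ℤ) : ZMod (p d.gate ^ 2)) =
            (li d.cmp (c' d (z d)) : ℤ) :=
          li_cast_congr d.cmp (p d.gate ^ 2) (hv1 V ⟨d, .inr none⟩) (hv2 V ⟨d, .inr none⟩)
        rw [h1, hc1', hz]
      · have h1 : ((li d.cmp (((x0, y0) : ℤ × ℤ) + P • V) : ℤ) : ZMod (r d.gate (a' d))) =
            (li d.cmp (c' d (y d)) : ℤ) :=
          li_cast_congr d.cmp (r d.gate (a' d)) (hv1 V ⟨d, .inr (some (a' d))⟩)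
            (hv2 V ⟨d, .inr (some (a' d))⟩)
        rw [h1, hc1', hy]
    refine Classical.epsilon_spec hex _ rfl ?_ ?_
    · have h1 : ((ti d.cmp (((x0, y0) : ℤ × ℤ) + P • V) : ℤ) : ZMod (p d.cmp ^ 2)) =
            (ti d.cmp (c d (s d)) : ℤ) :=
        ti_cast_congr d.cmp (p d.cmp ^ 2) (hv1 V ⟨d, .inl none⟩) (hv2 V ⟨d, .inl none⟩)
      rw [h1, hc2]
    · intro b
      have h1 : ((ti d.cmp (((x0, y0) : ℤ × ℤ) + P • V) : ℤ) : ZMod (r d.cmp b)) =
            (ti d.cmp (c d (s d + 1)) : ℤ) :=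
        ti_cast_congr d.cmp (r d.cmp b) (hv1 V ⟨d, .inl (some b)⟩) (hv2 V ⟨d, .inl (some b)⟩)
      rw [h1, hc2]

/-- **Glue theorem.** -/
theorem false_of_forced (hr : ∀ i a, 2 ≤ r i a) (hco : Pairwise (Nat.Coprime on modul p r))
    {Bad : ∀ i, L i → (ℤ × ℤ) → Prop} (hcl : Clauses Bad)
    (hD : ∀ d : Dig, ForcedD p r Bad d.cmp) (hG : ∀ i, IsGate i → ForcedG p r Bad i)
    {N : ℤ} (hN : 0 < N) (hper : ∀ i a v u, Bad i a (v + N • u) ↔ Bad i a v) : False := by
  obtain ⟨v0, al, hal, hcell⟩ := exists_cells hr hco hcl hD hG hper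
  have one_ne : ∀ i a, (1 : ZMod (r i a)) ≠ 0 := by
    intro i a
    have : Fact (1 < r i a) := ⟨hr i a⟩
    exact one_ne_zero
  have hmod := modsq_coprime hco
  set P : ℕ := ∏ j, modsq p r (jm j) with hP
  have hPco : ∀ (i : Cmp) (_ : ∀ d : Dig, i ≠ d.cmp ∧ i ≠ d.gate) (x : Option (L i)),
      Nat.Coprime P (modsq p r ⟨i, x⟩) := fun i hi x =>
    Nat.Coprime.prod_left fun j _ => hmod (jm_ne_gate j i hi x)
  clear_value P
  have hU : ∀ d : Dig, Cmp.U ≠ d.cmp ∧ Cmp.U ≠ d.gate := by intro d; cases d <;> decide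
  have hW : ∀ d : Dig, Cmp.W ≠ d.cmp ∧ Cmp.W ≠ d.gate := by intro d; cases d <;> decide
  -- the four letter functions
  let lF : ℤ → L .F := fun X => al .F (v0.1 + P * X)
  let lE : ℤ → L .E := fun Y => al .E (v0.2 + P * Y)
  let lK : ℤ → L .K := fun Z => al .K (v0.1 + v0.2 + P * Z)
  let lG : ℤ → L .G := fun Z => al .G (v0.1 + 8 * v0.2 + P * Z)
  let v : ℤ → ℤ → ℤ × ℤ := fun X Y => (v0.1 + P * X, v0.2 + P * Y)
  have hv : ∀ X Y, v0 + P • ((X, Y) : ℤ × ℤ) = v X Y := by
    intro X Y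
    ext <;> simp [v]
  have bF : ∀ X Y, Bad .F (lF X) (v X Y) := by
    intro X Y
    have h := hcell .F (X, Y)
    rw [hv] at h
    exact h
  have bE : ∀ X Y, Bad .E (lE Y) (v X Y) := by
    intro X Y
    have h := hcell .E (X, Y)
    rw [hv] at h
    exact h
  have bK : ∀ X Y, Bad .K (lK (X + Y)) (v X Y) := by
    intro X Y
    have h := hcell .K (X, Y)
    rw [hv] at h
    have e : li .K (v X Y) = v0.1 + v0.2 + P * (X + Y) := by simp only [li, v]; ring
    have h' : Bad .K (al .K (li .K (v X Y))) (v X Y) := h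
    rw [e] at h'
    exact h'
  have bG : ∀ X Y, Bad .G (lG (X + 8 * Y)) (v X Y) := by
    intro X Y
    have h := hcell .G (X, Y)
    rw [hv] at h
    have e : li .G (v X Y) = v0.1 + 8 * v0.2 + P * (X + 8 * Y) := by simp only [li, v]; ring
    have h' : Bad .G (al .G (li .G (v X Y))) (v X Y) := h
    rw [e] at h'
    exact h'
  refine Exact.exact_parity (χF := fun X => (lF X).1) (fF := fun X => (lF X).2)
    (χE := fun Y => (lE Y).1) (fE := fun Y => (lE Y).2.1) (χK := fun Z => (lK Z).1)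
    (fK := fun Z => (lK Z).2) (fG := lG) (bE := fun Y => (lE Y).2.2) (N := N)
    ?_ ?_ ?_ ?_ ?_ ?_ ?_ ?_ hN ?_
  · intro x y
    exact hcl.cauchy _ _ _ _ (bF x y) (bE x y) (bK x y)
  · intro n; exact (hcl.okF _ _ (bF n 0)).1
  · intro n; exact (hcl.okE _ _ (bE 0 n)).1
  · intro n; exact (hcl.okE _ _ (bE 0 n)).2
  · intro n
    have h := bK n 0
    rw [add_zero] at h
    exact (hcl.okK _ _ h).2
  · intro x y
    have h := hcl.rel _ _ _ _ _ (bF x y) (bE x y) (bK x y) (bG x y)
    refine ⟨fun h1 => ?_, fun h1 => ?_⟩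
    · rcases h.1 h1 with h2 | h2 | h2
      · exact Or.inl h2
      · exact Or.inr (Or.inl h2)
      · exact Or.inr (Or.inr (by rw [h2, neg_add_cancel]))
    · rcases h.2 h1 with h2 | h2 | h2
      · exact Or.inl h2
      · exact Or.inr (Or.inl h2)
      · exact Or.inr (Or.inr (by rw [h2, add_neg_cancel]))
  · intro Y
    obtain ⟨τ, a, ρ, h⟩ := hG .U trivial (v0.2 + P * Y)
    obtain ⟨z1, hz1⟩ := ZMod.intCast_surjective τ
    obtain ⟨z2, hz2⟩ := ZMod.intCast_surjective (ρ + 1)
    obtain ⟨X, hX1, hX2⟩ := gate_pt (P := P) (m1 := p .U ^ 2) (m2 := r .U a)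
      (hmod (i := ⟨.U, none⟩) (j := ⟨.U, some a⟩) (by simp)) (hPco _ hU none)
      (hPco _ hU (some a)) v0.1 z1 z2
    refine ⟨X, ?_⟩
    have hb : Bad .U a (v X Y) := h (v X Y) rfl
      (by rw [← hz1]; exact hX1)
      (by
        have : ((ti .U (v X Y) : ℤ) : ZMod (r .U a)) = ρ + 1 := by rw [← hz2]; exact hX2
        rw [this]
        intro h3
        exact one_ne _ _ (add_eq_left.1 h3))
    exact hcl.parU _ _ _ hb (bF X Y) (bE X Y)
  · intro X
    obtain ⟨τ, a, ρ, h⟩ := hG .W trivial (v0.1 + P * X)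
    obtain ⟨z1, hz1⟩ := ZMod.intCast_surjective τ
    obtain ⟨z2, hz2⟩ := ZMod.intCast_surjective (ρ + 1)
    obtain ⟨Y, hY1, hY2⟩ := gate_pt (P := P) (m1 := p .W ^ 2) (m2 := r .W a)
      (hmod (i := ⟨.W, none⟩) (j := ⟨.W, some a⟩) (by simp)) (hPco _ hW none)
      (hPco _ hW (some a)) v0.2 z1 z2
    refine ⟨Y, ?_⟩
    have hb : Bad .W a (v X Y) := h (v X Y) rfl
      (by rw [← hz1]; exact hY1)
      (by
        have : ((ti .W (v X Y) : ℤ) : ZMod (r .W a)) = ρ + 1 := by rw [← hz2]; exact hY2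
        rw [this]
        intro h3
        exact one_ne _ _ (add_eq_left.1 h3))
    exact hcl.parW _ _ _ hb (bF X Y) (bE X Y)
  · intro Y
    have key : ∀ (k : ℕ) (l : ℤ), al .E (l + k * N) = al .E l := by
      intro k
      induction k with
      | zero => intro l; simp
      | succ k ih =>
        intro l
        have : l + ((k + 1 : ℕ) : ℤ) * N = (l + k * N) + N := by push_cast; ring
        rw [this, hal, ih]
    have e : v0.2 + (P : ℤ) * (Y + N) = (v0.2 + P * Y) + (P : ℕ) * N := by ring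
    simp only [lE, e, key P]

end main

end Crest.Agent.R046.Glue
private theorem rz_3601ea24b2 : type_of% @_root_.Crest.Agent.R046.Glue.IsGate.eq_1 := @_root_.Crest.Agent.R046.Glue.IsGate.eq_1 -- L14
private theorem rz_2f5f1981a2 : type_of% @_root_.Crest.Agent.R046.Glue.jm.eq_1 := @_root_.Crest.Agent.R046.Glue.jm.eq_1 -- L120
private theorem rz_14b34db519 : type_of% @_root_.Crest.Agent.R046.Glue.modsq.eq_1 := @_root_.Crest.Agent.R046.Glue.modsq.eq_1 -- L100
private theorem rz_4f91552e2a : type_of% @_root_.Crest.Agent.R046.Glue.modul.eq_1 := @_root_.Crest.Agent.R046.Glue.modul.eq_1 -- L27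
end

-- ▼ part R046/Assemble

set_option autoImplicit false

/-! Row 46: assembling the proof of S0065 from the component theorems, the clause list and the
cells argument. -/

namespace Crest.Agent.R046.Glue

open Crest.CombinatoricsR.Tiling Crest.Agent.R046.Comp

/-! ### the clause list, semantically -/

/-- `(J, l)` is a forbidden combination: it is excluded by the clauses. -/
def Forb (J : Finset Cmp) (l : ∀ i, L i) : Prop :=
  ∀ Bad : ∀ i : Cmp, L i → ℤ × ℤ → Prop, Clauses Bad → ∀ v, ∃ i ∈ J, ¬ Bad i (l i) v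

/-- a label choice -/
def mk4 (a : L .F) (b : L .E) (c : L .K) (d : L .G) : ∀ i, L i
  | .F => a
  | .E => b
  | .K => c
  | .G => d
  | .QF => ()
  | .QE => ()
  | .QK => ()
  | .QG => ()
  | .U => ()
  | .W => ()

def a0 : L .F := ((0 : ZMod 8), (0 : ZMod 8))
def b0 : L .E := ((0 : ZMod 8), (0 : ZMod 8), (0 : ZMod 2))
def c0 : L .K := ((0 : ZMod 8), (0 : ZMod 8))
def d0 : L .G := (0 : ZMod 8)

theorem clauses_of_forb (Bad : ∀ i : Cmp, L i → ℤ × ℤ → Prop)
    (h : ∀ J l, J.Nonempty → Forb J l → ∀ v, ∃ i ∈ J, ¬ Bad i (l i) v) : Clauses Bad := by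
  have key : ∀ (J : Finset Cmp) (l : ∀ i, L i) (v : ℤ × ℤ), J.Nonempty → (∀ i ∈ J, Bad i (l i) v) →
      ¬ Forb J l := by
    intro J l v hJ hb hf
    obtain ⟨i, hi, hi'⟩ := h J l hJ hf v
    exact hi' (hb i hi)
  constructor
  · intro v a b c ha hb hc
    by_contra hne
    refine key {.F, .E, .K} (mk4 a b c d0) v ⟨.F, by decide⟩ ?_ ?_
    · intro i hi
      simp only [Finset.mem_insert, Finset.mem_singleton] at hi
      rcases hi with rfl | rfl | rfl
      exacts [ha, hb, hc]
    · intro B hB w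
      by_contra hcon
      push Not at hcon
      exact hne (hB.cauchy w a b c (hcon .F (by decide)) (hcon .E (by decide))
        (hcon .K (by decide)))
  · intro v a b c d ha hb hc hd
    by_contra hne
    refine key {.F, .E, .K, .G} (mk4 a b c d) v ⟨.F, by decide⟩ ?_ ?_
    · intro i hi
      simp only [Finset.mem_insert, Finset.mem_singleton] at hi
      rcases hi with rfl | rfl | rfl | rfl
      exacts [ha, hb, hc, hd]
    · intro B hB w
      by_contra hcon
      push Not at hcon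
      exact hne (hB.rel w a b c d (hcon .F (by decide)) (hcon .E (by decide))
        (hcon .K (by decide)) (hcon .G (by decide)))
  · intro v a ha
    by_contra hne
    refine key {.F} (mk4 a b0 c0 d0) v ⟨.F, by decide⟩ ?_ ?_
    · intro i hi
      simp only [Finset.mem_singleton] at hi
      subst hi
      exact ha
    · intro B hB w
      by_contra hcon
      push Not at hcon
      exact hne (hB.okF w a (hcon .F (by decide)))
  · intro v a ha
    by_contra hne
    refine key {.E} (mk4 a0 a c0 d0) v ⟨.E, by decide⟩ ?_ ?_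
    · intro i hi
      simp only [Finset.mem_singleton] at hi
      subst hi
      exact ha
    · intro B hB w
      by_contra hcon
      push Not at hcon
      exact hne (hB.okE w a (hcon .E (by decide)))
  · intro v a ha
    by_contra hne
    refine key {.K} (mk4 a0 b0 a d0) v ⟨.K, by decide⟩ ?_ ?_
    · intro i hi
      simp only [Finset.mem_singleton] at hi
      subst hi
      exact ha
    · intro B hB w
      by_contra hcon
      push Not at hcon
      exact hne (hB.okK w a (hcon .K (by decide)))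
  · intro v a ha
    by_contra hne
    refine key {.G} (mk4 a0 b0 c0 a) v ⟨.G, by decide⟩ ?_ ?_
    · intro i hi
      simp only [Finset.mem_singleton] at hi
      subst hi
      exact ha
    · intro B hB w
      by_contra hcon
      push Not at hcon
      exact hB.okG w a (hcon .G (by decide)) hne
  · intro v a b hu ha hb
    by_contra hne
    refine key {.U, .F, .E} (mk4 a b c0 d0) v ⟨.F, by decide⟩ ?_ ?_
    · intro i hi
      simp only [Finset.mem_insert, Finset.mem_singleton] at hi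
      rcases hi with rfl | rfl | rfl
      exacts [hu, ha, hb]
    · intro B hB w
      by_contra hcon
      push Not at hcon
      exact hne (hB.parU w a b (hcon .U (by decide)) (hcon .F (by decide)) (hcon .E (by decide)))
  · intro v a b hu ha hb hne
    refine key {.W, .F, .E} (mk4 a b c0 d0) v ⟨.F, by decide⟩ ?_ ?_
    · intro i hi
      simp only [Finset.mem_insert, Finset.mem_singleton] at hi
      rcases hi with rfl | rfl | rfl
      exacts [hu, ha, hb]
    · intro B hB w
      by_contra hcon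
      push Not at hcon
      exact hB.parW w a b (hcon .W (by decide)) (hcon .F (by decide)) (hcon .E (by decide)) hne
  · intro n v a hq ha
    cases n
    · refine key {.QF, .F} (mk4 a b0 c0 d0) v ⟨.F, by decide⟩ ?_ ?_
      · intro i hi
        simp only [Finset.mem_insert, Finset.mem_singleton] at hi
        rcases hi with rfl | rfl
        exacts [hq, ha]
      · intro B hB w
        by_contra hcon
        push Not at hcon
        exact hB.align .F w a (hcon .QF (by decide)) (hcon .F (by decide))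
    · refine key {.QE, .E} (mk4 a0 a c0 d0) v ⟨.E, by decide⟩ ?_ ?_
      · intro i hi
        simp only [Finset.mem_insert, Finset.mem_singleton] at hi
        rcases hi with rfl | rfl
        exacts [hq, ha]
      · intro B hB w
        by_contra hcon
        push Not at hcon
        exact hB.align .E w a (hcon .QE (by decide)) (hcon .E (by decide))
    · refine key {.QK, .K} (mk4 a0 b0 a d0) v ⟨.K, by decide⟩ ?_ ?_
      · intro i hi
        simp only [Finset.mem_insert, Finset.mem_singleton] at hi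
        rcases hi with rfl | rfl
        exacts [hq, ha]
      · intro B hB w
        by_contra hcon
        push Not at hcon
        exact hB.align .K w a (hcon .QK (by decide)) (hcon .K (by decide))
    · refine key {.QG, .G} (mk4 a0 b0 c0 a) v ⟨.G, by decide⟩ ?_ ?_
      · intro i hi
        simp only [Finset.mem_insert, Finset.mem_singleton] at hi
        rcases hi with rfl | rfl
        exacts [hq, ha]
      · intro B hB w
        by_contra hcon
        push Not at hcon
        exact hB.align .G w a (hcon .QG (by decide)) (hcon .G (by decide))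

/-! ### the component theorem, as a hypothesis -/

/-- the statement of the component theorem (`Comp.lean`) -/
def CompThm : Prop :=
  ∀ {p : ℕ} [NeZero p] (_ : 2 ≤ p) {S : Type} [Fintype S] [DecidableEq S] [Nonempty S]
    (r : Option S → ℕ) [∀ a, NeZero (r a)] (_ : ∀ a, 3 ≤ r a)
    (_ : Pairwise fun a b => Nat.Coprime (r a) (r b)) (_ : ∀ a, Nat.Coprime p (r a))
    (w e : ℤ × ℤ) (l t : ℤ × ℤ → ℤ) (_ : ∀ v, v = l v • e + t v • w)
    (_ : ∀ a b : ℤ, l (a • e + b • w) = a) (_ : ∀ a b : ℤ, t (a • e + b • w) = b)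
    (rigid : Prop),
    ∃ C : Set (Finset ((ℤ × ℤ) × Fib p r)), C.Finite ∧
      (∀ A, (∀ F ∈ C, IsTilingBy F A) → Transv (fT p r) A ∧
        ∃ τ : ℤ → ℤ, (rigid → ∀ n, τ n = τ 0) ∧ ∀ n, ∃ (s : S) (h : ℤ), ∀ v, l v = n →
          ((t v : ℤ) : ZMod (p ^ 2)) = τ n → ((t v : ℤ) : ZMod (r (some s))) ≠ h →
            Bad A (some s) v) ∧
      (∀ (lam : ℤ → S) (h o : ℤ → ℤ), (rigid → ∀ n, o n = 0) →
        ∃ A, Transv (fT p r) A ∧ (∀ F ∈ C, IsTilingBy F A) ∧
          ∀ v s, Bad A (some s) v → lam (l v) = s ∧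
            ((t v : ℤ) : ZMod (r (some s))) ≠ h (l v) ∧
            ∃ j : ℤ, j ≠ 0 ∧ |j| < p ∧ ((t v : ℤ) : ZMod (p ^ 2)) = o (l v) + j)

/-- transversal vector -/
def ei : Cmp → ℤ × ℤ
  | .F => (1, 0)
  | .E => (0, 1)
  | .K => (0, 1)
  | .G => (1, 0)
  | .QF => (0, 1)
  | .QE => (1, 0)
  | .QK => (1, -1)
  | .QG => (-8, 1)
  | .U => (0, 1)
  | .W => (1, 0)

/-- direction of the lines -/
def wi : Cmp → ℤ × ℤ
  | .F => (0, 1)
  | .E => (1, 0)
  | .K => (1, -1)
  | .G => (-8, 1)
  | .QF => (1, 0)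
  | .QE => (0, 1)
  | .QK => (0, 1)
  | .QG => (1, 0)
  | .U => (1, 0)
  | .W => (0, 1)

theorem geo (i : Cmp) (v : ℤ × ℤ) : v = li i v • ei i + ti i v • wi i := by
  cases i <;> (simp only [li, ti, ei, wi]; ext <;> simp <;> ring)

theorem geo_li (i : Cmp) (a b : ℤ) : li i (a • ei i + b • wi i) = a := by
  cases i <;> (simp only [li, ei, wi]; simp <;> ring)

theorem geo_ti (i : Cmp) (a b : ℤ) : ti i (a • ei i + b • wi i) = b := by
  cases i <;> (simp only [ti, ei, wi]; simp <;> ring)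

instance instNonemptyL (i : Cmp) : Nonempty (L i) := ⟨mk4 a0 b0 c0 d0 i⟩

/-- the gate across a component (junk value `QF` for gates) -/
def gateOf : Cmp → Cmp
  | .F => .QF
  | .E => .QE
  | .K => .QK
  | .G => .QG
  | _ => .QF

/-- the letters of the true solution, for all components -/
noncomputable def lamC (pW : ℕ) : ∀ i : Cmp, ℤ → L i
  | .F => lamT pW .F
  | .E => lamT pW .E
  | .K => lamT pW .K
  | .G => lamT pW .G
  | .QF => fun _ => ()
  | .QE => fun _ => ()
  | .QK => fun _ => ()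
  | .QG => fun _ => ()
  | .U => fun _ => ()
  | .W => fun _ => ()

/-- the holes of the true solution -/
noncomputable def holC (p : Cmp → ℕ) (r : ∀ i, L i → ℕ) : Cmp → ℤ → ℤ
  | .F => holT p r .F
  | .E => holT p r .E
  | .K => holT p r .K
  | .G => holT p r .G
  | _ => fun _ => 0

theorem near_of {p : ℕ} {o t j : ℤ} (hj : j ≠ 0) (hj' : |j| < p)
    (h : ((t : ℤ) : ZMod (p ^ 2)) = (o : ZMod (p ^ 2)) + (j : ZMod (p ^ 2))) : Near p o t := by
  refine ⟨j, hj, hj', ?_⟩
  have : ((t - o - j : ℤ) : ZMod (p ^ 2)) = 0 := by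
    push_cast
    rw [h]; ring
  have := (ZMod.intCast_zmod_eq_zero_iff_dvd _ _).1 this
  exact_mod_cast this

/-- the index of a modulus -/
def midx : (Σ i, Option (L i)) → Cmp ⊕ (Σ i, Option (L i))
  | ⟨i, none⟩ => Sum.inl i
  | ⟨i, some a⟩ => Sum.inr ⟨i, some a⟩

theorem midx_injective : Function.Injective midx := by
  rintro ⟨i, x⟩ ⟨j, y⟩ h
  cases x <;> cases y
  · simp only [midx] at h
    obtain rfl := Sum.inl.inj h
    rfl
  · simp [midx] at h
  · simp [midx] at h
  · simp only [midx] at h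
    exact Sum.inr.inj h

/-- **S0065 from the component theorem.** -/
theorem s0065_of_comp (hcomp : CompThm) :
    ∃ T : Finset (Fin 3 → ℤ), T.Nonempty ∧
      (∃ A : Set (Fin 3 → ℤ), IsTilingBy T A) ∧
      (∀ A : Set (Fin 3 → ℤ), IsTilingBy T A → ¬ IsFullyPeriodic A) ∧
      (∃ B : Set (Fin 3 → ℝ), IsAETilingBy (cubeThickening T) B) ∧
      ∀ B : Set (Fin 3 → ℝ), IsAETilingBy (cubeThickening T) B → ¬ IsLatticePeriodic B := by
  classical
  obtain ⟨m, hinj, hprime, hU, hW, hQ⟩ := exists_moduli (I := Cmp) (fun i => Option (L i)) .U .W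
    (by decide) {i | ¬ IsGate i} gateOf (by
      intro n _
      cases n <;> exact ⟨by decide, by decide⟩)
  let p : Cmp → ℕ := fun i => m (Sum.inl i)
  let rr : ∀ i, Option (L i) → ℕ := fun i a => m (Sum.inr ⟨i, a⟩)
  let r : ∀ i, L i → ℕ := fun i a => rr i (some a)
  have hpU : p .U = 2 := hU
  have hpW : p .W = 5 := hW
  have hp2 : ∀ i, 2 ≤ p i := fun i => (hprime _).two_le
  have hrr3 : ∀ i a, 3 ≤ rr i a := by
    intro i a
    have h1 : 2 ≤ rr i a := (hprime _).two_le
    have h2 : rr i a ≠ 2 := by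
      intro h
      have : m (Sum.inr ⟨i, a⟩) = m (Sum.inl .U) := by rw [hU]; exact h
      exact absurd (hinj this) (by simp)
    omega
  have instp : ∀ i, NeZero (p i) := fun i => ⟨by have := hp2 i; omega⟩
  have instr : ∀ i a, NeZero (rr i a) := fun i a => ⟨by have := hrr3 i a; omega⟩
  have key := fun i : Cmp => hcomp (p := p i) (hp2 i) (S := L i) (rr i) (hrr3 i)
    (moduli_rr hinj hprime i) (moduli_pr hinj hprime i i) (wi i) (ei i) (li i) (ti i) (geo i)
    (geo_li i) (geo_ti i) (¬ IsGate i)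
  choose C hCfin hF hT using key
  have hfin : ∀ i, Finite (C i) := fun i => (hCfin i).to_subtype
  refine s0065_of_data p (fun i => Option (L i)) rr hp2 (moduli_pp hinj hprime)
    (moduli_pr hinj hprime) (moduli_rr hinj hprime) (moduli_rr' hinj hprime)
    (κ := fun i => C i) (fun i k => k.1)
    (γ := {c : Finset Cmp × (∀ i, L i) // c.1.Nonempty ∧ Forb c.1 c.2}) (fun c => c.1.1)
    (fun c => c.2.1) (fun c i => some (c.1.2 i)) ?_ ?_
  · -- existence
    have hrig : ∀ i, ¬ IsGate i → ∀ n, offT p r i n = 0 := by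
      intro i hi n
      cases i <;> first | rfl | exact absurd trivial hi
    choose A hA1 hA2 hA3 using fun i => hT i (lamC (p .W) i) (holC p r i) (offT p r i) (hrig i)
    refine ⟨A, hA1, fun i k => hA2 i k.1 k.2, fun c v => ?_⟩
    have hcl : Clauses (fun i a v => Bad (A i) (some a) v) := by
      refine clauses_of_truth p r hpU hpW.ge (fun n a => ?_) (fun n => ?_) _ ?_ ?_ ?_ ?_
      · have := hrr3 n.cmp (some a)
        show 0 < rr n.cmp (some a)
        omega
      · have h1 : 2 * ∏ a : Option (L n.cmp), m (Sum.inr ⟨n.cmp, a⟩) ≤ m (Sum.inl (gateOf n.cmp)) :=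
          hQ n.cmp (by cases n <;> simp [Dig.cmp, IsGate])
        have h2 : gateOf n.cmp = n.gate := by cases n <;> rfl
        rw [h2, Fintype.prod_option] at h1
        refine le_trans ?_ h1
        refine Nat.mul_le_mul_left _ ?_
        refine Nat.le_mul_of_pos_left _ ?_
        exact (hprime _).pos
      · intro n a v hb
        obtain ⟨h1, h2, -⟩ := hA3 n.cmp v a hb
        cases n
        · exact ⟨h1, h2⟩
        · exact ⟨h1, h2⟩
        · exact ⟨h1, h2⟩
        · exact ⟨h1, h2⟩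
      · intro n v hb
        obtain ⟨-, -, j, hj, hj', h3⟩ := hA3 n.gate v n.star hb
        exact near_of hj hj' h3
      · intro v hb
        obtain ⟨-, -, j, hj, hj', h3⟩ := hA3 .U v starU hb
        exact near_of hj hj' h3
      · intro v hb
        obtain ⟨-, -, j, hj, hj', h3⟩ := hA3 .W v starW hb
        exact near_of hj hj' h3
    exact c.2.2 _ hcl v
  · -- no periodic solution
    intro A hA1 hA2 hA3 N hN hper
    have hcl : Clauses (fun i a v => Bad (A i) (some a) v) :=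
      clauses_of_forb _ fun J l hJ hf v => hA3 ⟨(J, l), hJ, hf⟩ v
    have hforced := fun i => (hF i (A i) (fun F hFm => hA2 i ⟨F, hFm⟩)).2
    refine false_of_forced (p := p) (r := r) (fun i a => ?_) ?_ hcl ?_ ?_ (N := (N : ℤ))
      (by exact_mod_cast hN) ?_
    · exact le_trans (by norm_num) (hrr3 i (some a))
    · intro x y hxy
      have : ∀ z, modul p r z = m (midx z) := by
        rintro ⟨i, z⟩
        cases z <;> rfl
      show Nat.Coprime (modul p r x) (modul p r y)
      rw [this, this]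
      exact moduli_coprime hinj hprime (fun h => hxy (midx_injective h))
    · intro d
      obtain ⟨τ, hτ, hl⟩ := hforced d.cmp
      have hnd : ¬ IsGate d.cmp := by cases d <;> simp [Dig.cmp, IsGate]
      refine ⟨(τ 0 : ZMod (p d.cmp ^ 2)), fun n => ?_⟩
      obtain ⟨s, h, hs⟩ := hl n
      refine ⟨s, (h : ZMod _), fun v hv h1 h2 => hs v hv ?_ h2⟩
      rw [hτ hnd n]
      exact h1
    · intro i _ n
      obtain ⟨τ, -, hl⟩ := hforced i
      obtain ⟨s, h, hs⟩ := hl n
      exact ⟨(τ n : ZMod _), s, (h : ZMod _), fun v hv h1 h2 => hs v hv h1 h2⟩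
    · intro i a v u
      constructor
      · rintro ⟨g, g', h1, h2, h3⟩
        exact ⟨g, g', (hper i v u g).2 h1, (hper i v u g').2 h2, h3⟩
      · rintro ⟨g, g', h1, h2, h3⟩
        exact ⟨g, g', (hper i v u g).1 h1, (hper i v u g').1 h2, h3⟩

end Crest.Agent.R046.Glue
private theorem rz_5d46c58df5 : type_of% @_root_.Crest.Agent.R046.Glue.ei.eq_1 := @_root_.Crest.Agent.R046.Glue.ei.eq_1 -- L197
private theorem rz_0493ff4850 : type_of% @_root_.Crest.Agent.R046.Glue.midx.eq_1 := @_root_.Crest.Agent.R046.Glue.midx.eq_1 -- L272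
private theorem rz_0b14a3ecf7 : type_of% @_root_.Crest.Agent.R046.Glue.wi.eq_1 := @_root_.Crest.Agent.R046.Glue.wi.eq_1 -- L210
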