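import Crest.Agent.R046.CompCore

-- ▼ part R046/Forced
section

/-!
Row 46: forcedness of the component in slice language.

`L` is a type of lines, `Y t ρ` the position of the point of role `ρ` at time `t : ℤ` (the same on
all lines), `z l t ρ` its (base) label on the line `l`.  `N0 : ℤ` is `1` modulo `r0` and `0` modulo
`p^2`.
-/

set_option autoImplicit false

namespace Crest.Agent.R046.Comp

open Finset

theorem crt_int {m n : ℕ} (h : Nat.Coprime m n) (a b : ℤ) :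
    ∃ t : ℤ, (t : ZMod m) = a ∧ (t : ZMod n) = b := by
  have h1 : IsCoprime (m : ℤ) (n : ℤ) := Nat.isCoprime_iff_coprime.2 h
  obtain ⟨u, v, huv⟩ := h1
  refine ⟨a * (v * n) + b * (u * m), ?_, ?_⟩
  · have h2 : v * (n : ℤ) = 1 - u * m := by linarith
    rw [h2]; push_cast; simp
  · have h2 : u * (m : ℤ) = 1 - v * n := by linarith
    rw [h2]; push_cast; simp

variable {p : ℕ} {L : Type*}

/-- slice-level hypotheses on the base label (and on the positions). -/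
structure BaseSol (p : ℕ) (r0 : ℕ) (N0 : ℤ) (Y : ℤ → ZMod p → ZMod (p ^ 3))
    (z : L → ℤ → ZMod p → ZMod r0) : Prop where
  /-- (C1) -/
  role : ∀ t ρ, r31 p (Y t ρ) = ρ
  /-- (C2) along `w` -/
  per : ∀ t ρ, Y (t + (p : ℤ) ^ 2) ρ = Y t ρ
  /-- (C3) -/
  step : ∀ t ρ, r32 p (Y (t + 1) (ρ + 1)) = r32 p (Y t ρ) + 1
  /-- (C4) -/
  inj : ∀ ρ t t', Y t ρ + (p : ZMod (p ^ 3)) * t = Y t' ρ + (p : ZMod (p ^ 3)) * t' →
    (t : ZMod (p ^ 2)) = (t' : ZMod (p ^ 2))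
  /-- (C7) the label is constant on a class -/
  cls : ∀ l ρ t t', r32 p (Y t ρ) = r32 p (Y t' ρ) → (t' : ZMod p) = (t : ZMod p) + 1 →
    (t : ZMod r0) = (t' : ZMod r0) → z l t ρ = z l t' ρ
  /-- (C8) motion equals slope -/
  move : ∀ l ρ t t', r32 p (Y t ρ) = r32 p (Y t' ρ) → (t' : ZMod p) = (t : ZMod p) + 1 →
    (Y t' ρ = Y t ρ ∧ z l (t' + N0) ρ = z l t' ρ) ∨
      (Y t' ρ = Y t ρ + (p : ZMod (p ^ 3)) ^ 2 ∧ z l (t' + N0) ρ = z l t' ρ + 1)

/-- positions as a function on `ZMod (p^2)`. -/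
noncomputable def Yq (Y : ℤ → ZMod p → ZMod (p ^ 3)) (T : ZMod (p ^ 2)) (ρ : ZMod p) :
    ZMod (p ^ 3) := Y (T.cast : ℤ) ρ

/-- the slope read off the motion. -/
noncomputable def sg (Y : ℤ → ZMod p → ZMod (p ^ 3)) (T : ZMod (p ^ 2)) (ρ : ZMod p) : ℕ := by
  classical
  exact if Yq Y T ρ = Yq Y (tm (Yq Y) ρ (r32 p (Yq Y T ρ)) (r21 p T - 1)) ρ
    + (p : ZMod (p ^ 3)) ^ 2 then 1 else 0

theorem psq_ne_zero (hp : 2 ≤ p) : (p : ZMod (p ^ 3)) ^ 2 ≠ 0 := by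
  have hne : NeZero p := ⟨by omega⟩
  have hf : Fact (1 < p) := ⟨by omega⟩
  intro h
  have h1 : ((p : ZMod (p ^ 3)) ^ 2) * ((1 : ℤ) : ZMod (p ^ 3)) = 0 := by
    rw [h]; simp
  have h2 := psq_mul_eq_zero h1
  simp at h2

theorem r21_coe (t : ℤ) : r21 p (t : ZMod (p ^ 2)) = (t : ZMod p) := map_intCast _ _

namespace BaseSol

variable {r0 : ℕ} {N0 : ℤ} {Y : ℤ → ZMod p → ZMod (p ^ 3)} {z : L → ℤ → ZMod p → ZMod r0}

theorem per_mul (h : BaseSol p r0 N0 Y z) (t n : ℤ) (ρ : ZMod p) :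
    Y (t + (p : ℤ) ^ 2 * n) ρ = Y t ρ := by
  induction n with
  | zero => simp
  | succ n ih =>
    rw [mul_add, mul_one, ← add_assoc, h.per, ih]
  | pred n ih =>
    have := h.per (t + (p : ℤ) ^ 2 * (-(n : ℤ) - 1)) ρ
    rw [← this, ← ih]
    congr 1
    ring

theorem congr_time (h : BaseSol p r0 N0 Y z) {t t' : ℤ} (ρ : ZMod p)
    (htt : (t : ZMod (p ^ 2)) = (t' : ZMod (p ^ 2))) : Y t ρ = Y t' ρ := by
  rw [ZMod.intCast_eq_intCast_iff_dvd_sub] at htt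
  obtain ⟨n, hn⟩ := htt
  have : t' = t + (p : ℤ) ^ 2 * n := by push_cast at hn; linarith
  rw [this, h.per_mul]

theorem Yq_coe (h : BaseSol p r0 N0 Y z) (t : ℤ) (ρ : ZMod p) :
    Yq Y (t : ZMod (p ^ 2)) ρ = Y t ρ :=
  h.congr_time ρ (ZMod.intCast_zmod_cast _)

theorem win (h : BaseSol p r0 N0 Y z) : Win (Yq Y) where
  role := fun T ρ => h.role _ ρ
  step := by
    intro T ρ
    obtain ⟨t, rfl⟩ := exists_int T
    have : ((t : ZMod (p ^ 2)) + 1) = ((t + 1 : ℤ) : ZMod (p ^ 2)) := by push_cast; rfl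
    rw [this, h.Yq_coe, h.Yq_coe, h.step]

/-- existence of a previous visit of the class, with prescribed residue modulo `r0`. -/
theorem exists_prev [NeZero p] (h : BaseSol p r0 N0 Y z) (hcop : Nat.Coprime p r0) (t' : ℤ)
    (ρ : ZMod p) :
    ∃ t : ℤ, r32 p (Y t ρ) = r32 p (Y t' ρ) ∧ (t' : ZMod p) = (t : ZMod p) + 1 ∧
      (t : ZMod r0) = (t' : ZMod r0) ∧
      (t : ZMod (p ^ 2)) = tm (Yq Y) ρ (r32 p (Y t' ρ)) ((t' : ZMod p) - 1) := by
  obtain ⟨k, hk⟩ := exists_int (tm (Yq Y) ρ (r32 p (Y t' ρ)) ((t' : ZMod p) - 1))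
  obtain ⟨t, ht1, ht2⟩ := crt_int (Nat.Coprime.pow_left 2 hcop) k t'
  have hc : r21 p (r32 p (Y t' ρ)) = ρ := by rw [r21_r32, h.role]
  refine ⟨t, ?_, ?_, ht2, ht1.trans hk⟩
  · rw [← h.Yq_coe t, ht1, hk, h.win.cl_tm hc]
  · have h1 := h.win.r21_tm hc ((t' : ZMod p) - 1)
    rw [← hk, ← ht1, r21_coe] at h1
    rw [h1]; ring

theorem slope (hp : 2 ≤ p) (h : BaseSol p r0 N0 Y z) (hcop : Nat.Coprime p r0) (l : L) (t : ℤ)
    (ρ : ZMod p) :
    (sg Y (t : ZMod (p ^ 2)) ρ = 1 ∧ z l (t + N0) ρ = z l t ρ + 1) ∨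
      (sg Y (t : ZMod (p ^ 2)) ρ = 0 ∧ z l (t + N0) ρ = z l t ρ) := by
  have hne : NeZero p := ⟨by omega⟩
  obtain ⟨t0, h1, h2, _, h4⟩ := h.exists_prev hcop t ρ
  have hY0 : Yq Y (tm (Yq Y) ρ (r32 p (Yq Y (t : ZMod (p ^ 2)) ρ))
      (r21 p (t : ZMod (p ^ 2)) - 1)) ρ = Y t0 ρ := by
    rw [h.Yq_coe, r21_coe, ← h4, h.Yq_coe]
  rcases h.move l ρ t0 t h1 h2 with ⟨h5, h6⟩ | ⟨h5, h6⟩
  · right
    refine ⟨?_, h6⟩
    unfold sg
    rw [if_neg]
    rw [hY0, h.Yq_coe, h5]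
    intro hc
    exact psq_ne_zero hp (by simpa using hc.symm)
  · left
    refine ⟨?_, h6⟩
    unfold sg
    rw [if_pos]
    rw [hY0, h.Yq_coe, h5]

theorem sg_le_one (T : ZMod (p ^ 2)) (ρ : ZMod p) : sg Y T ρ ≤ 1 := by
  unfold sg; split_ifs <;> norm_num

/-- all the hypotheses of the arithmetic core hold. -/
theorem core (hp : 2 ≤ p) (hr0 : 2 ≤ r0) (h : BaseSol p r0 N0 Y z) (hcop : Nat.Coprime p r0)
    (hN0 : (N0 : ZMod (p ^ 2)) = 0) (l : L) : Core (Yq Y) (sg Y) := by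
  have hne : NeZero p := ⟨by omega⟩
  have hne2 : NeZero (p ^ 2) := ⟨pow_ne_zero _ (NeZero.ne p)⟩
  have hf0 : Fact (1 < r0) := ⟨by omega⟩
  have hN0p : (N0 : ZMod p) = 0 := by
    have := congrArg (r21 p) hN0
    rwa [r21_coe, map_zero] at this
  have h10 : (1 : ZMod r0) ≠ 0 := one_ne_zero
  -- consecutive visits have the same slope
  have hcons : ∀ (ρ : ZMod p) (t t' : ℤ), r32 p (Y t ρ) = r32 p (Y t' ρ) →
      (t' : ZMod p) = (t : ZMod p) + 1 →
      sg Y (t : ZMod (p ^ 2)) ρ = sg Y (t' : ZMod (p ^ 2)) ρ := by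
    intro ρ t t' hc hp1
    -- replace `t` by a time with the same residue modulo `r0` as `t'`
    obtain ⟨s, hs1, hs2⟩ := crt_int (Nat.Coprime.pow_left 2 hcop) t t'
    have hYs : Y s ρ = Y t ρ := h.congr_time ρ hs1
    have hsp : (s : ZMod p) = (t : ZMod p) := by
      rw [← r21_coe, hs1, r21_coe]
    have e1 := h.cls l ρ s t' (by rw [hYs, hc]) (by rw [hsp, hp1]) hs2
    have hYs' : Y (s + N0) ρ = Y s ρ := h.congr_time ρ (by push_cast; rw [hN0, add_zero])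
    have hYt' : Y (t' + N0) ρ = Y t' ρ := h.congr_time ρ (by push_cast; rw [hN0, add_zero])
    have e2 := h.cls l ρ (s + N0) (t' + N0) (by rw [hYs', hYt', hYs, hc])
      (by push_cast; rw [hN0p, add_zero, add_zero, hsp, hp1]) (by push_cast; rw [hs2])
    have hst : sg Y (s : ZMod (p ^ 2)) ρ = sg Y (t : ZMod (p ^ 2)) ρ := by rw [hs1]
    rw [← hst]
    rcases h.slope hp hcop l s ρ with ⟨a1, a2⟩ | ⟨a1, a2⟩ <;>
      rcases h.slope hp hcop l t' ρ with ⟨b1, b2⟩ | ⟨b1, b2⟩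
    · rw [a1, b1]
    · exfalso
      rw [e2, b2, e1] at a2
      exact h10 (by simpa using a2.symm)
    · exfalso
      rw [e2, b2, e1] at a2
      exact h10 (by simpa using a2)
    · rw [a1, b1]
  have hnat : ∀ (ρ : ZMod p) (c : ZMod (p ^ 2)), r21 p c = ρ → ∀ (τ : ZMod p) (n : ℕ),
      sg Y (tm (Yq Y) ρ c (τ + n)) ρ = sg Y (tm (Yq Y) ρ c τ) ρ := by
    intro ρ c hc τ n
    induction n with
    | zero => simp
    | succ n ih =>
      rw [← ih]
      obtain ⟨k, hk⟩ := exists_int (tm (Yq Y) ρ c (τ + n))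
      obtain ⟨k', hk'⟩ := exists_int (tm (Yq Y) ρ c (τ + (n + 1 : ℕ)))
      rw [← hk, ← hk']
      symm
      apply hcons
      · rw [← h.Yq_coe, ← h.Yq_coe, hk, hk', h.win.cl_tm hc, h.win.cl_tm hc]
      · have e1 : (k : ZMod p) = τ + n := by rw [← r21_coe (p := p), hk, h.win.r21_tm hc]
        have e2 : (k' : ZMod p) = τ + (n + 1 : ℕ) := by
          rw [← r21_coe (p := p), hk', h.win.r21_tm hc]
        rw [e1, e2]
        push_cast; ring
  refine ⟨h.win, ?_, fun T ρ => sg_le_one T ρ, ?_, ?_⟩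
  · intro ρ T T' hTT
    obtain ⟨t, rfl⟩ := exists_int T
    obtain ⟨t', rfl⟩ := exists_int T'
    simp only at hTT
    rw [h.Yq_coe, h.Yq_coe, m23_intCast, m23_intCast] at hTT
    exact h.inj ρ t t' hTT
  · intro ρ T T' hcc
    have hc : r21 p (r32 p (Yq Y T ρ)) = ρ := by rw [r21_r32, h.win.role]
    have e1 := h.win.eq_tm (T := T) (ρ := ρ) rfl
    have e2 := h.win.eq_tm (T := T') (ρ := ρ) rfl
    rw [← hcc] at e2
    obtain ⟨n, hn⟩ : ∃ n : ℕ, r21 p T' + (n : ZMod p) = r21 p T :=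
      ⟨(r21 p T - r21 p T').val, by rw [ZMod.natCast_val, ZMod.cast_id]; ring⟩
    have e3 := hnat ρ _ hc (r21 p T') n
    rw [hn, ← e1, ← e2] at e3
    exact e3
  · intro ρ T T' hcc hres
    obtain ⟨t, rfl⟩ := exists_int T
    obtain ⟨t', rfl⟩ := exists_int T'
    rw [h.Yq_coe, h.Yq_coe] at hcc ⊢
    rw [r21_coe, r21_coe] at hres
    rcases h.move l ρ t' t hcc.symm hres with ⟨h5, h6⟩ | ⟨h5, h6⟩
    · rcases h.slope hp hcop l t ρ with ⟨a1, a2⟩ | ⟨a1, a2⟩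
      · exfalso
        rw [a2] at h6
        exact h10 (by simpa using h6)
      · rw [h5, a1]; simp
    · rcases h.slope hp hcop l t ρ with ⟨a1, a2⟩ | ⟨a1, a2⟩
      · rw [h5, a1]; simp
      · exfalso
        rw [a2] at h6
        exact h10 (by simpa using h6.symm)

/-- at some time (modulo `p^2`) some role has slope one and some role has slope zero. -/
theorem exists_mixed (hp : 2 ≤ p) (hr0 : 2 ≤ r0) (h : BaseSol p r0 N0 Y z)
    (hcop : Nat.Coprime p r0) (hN0 : (N0 : ZMod (p ^ 2)) = 0) (l : L) :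
    ∃ (T : ZMod (p ^ 2)) (ρ ρ' : ZMod p), ∀ (l : L) (t : ℤ), (t : ZMod (p ^ 2)) = T →
      z l (t + N0) ρ = z l t ρ + 1 ∧ z l (t + N0) ρ' = z l t ρ' := by
  obtain ⟨T, ρ, ρ', h1, h2⟩ := (h.core hp hr0 hcop hN0 l).exists_mixed hp
  refine ⟨T, ρ, ρ', fun l t ht => ?_⟩
  subst ht
  constructor
  · rcases h.slope hp hcop l t ρ with ⟨a1, a2⟩ | ⟨a1, a2⟩
    · exact a2
    · omega
  · rcases h.slope hp hcop l t ρ' with ⟨a1, a2⟩ | ⟨a1, a2⟩
    · omega
    · exact a2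

end BaseSol

/-! ### from slopes to different labels -/

/-- a label is affine along `N`-progressions. -/
theorem affine_iter {r : ℕ} {N : ℤ} {f : ℤ → ZMod r}
    (h6 : ∀ t, (f (t + N) = f t ∧ f (t - N) = f t) ∨ (f (t + N) = f t + 1 ∧ f (t - N) = f t - 1))
    (hr : 2 ≤ r) (t : ℤ) :
    (f (t + N) = f t → ∀ n : ℤ, f (t + n * N) = f t) ∧
      (f (t + N) = f t + 1 → ∀ n : ℤ, f (t + n * N) = f t + n) := by
  have hf : Fact (1 < r) := ⟨by omega⟩
  have h10 : (1 : ZMod r) ≠ 0 := one_ne_zero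
  -- the slope is the same at `t` and at `t + N`
  have hs0 : ∀ t, f (t + N) = f t → f (t + N + N) = f (t + N) ∧ f (t - N) = f t := by
    intro t ht
    constructor
    · rcases h6 (t + N) with ⟨a, _⟩ | ⟨_, b⟩
      · exact a
      · exfalso
        rw [add_sub_cancel_right] at b
        rw [ht] at b
        exact h10 (by simpa using b.symm)
    · rcases h6 t with ⟨_, b⟩ | ⟨a, _⟩
      · exact b
      · exfalso
        rw [ht] at a
        exact h10 (by simpa using a.symm)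
  have hs1 : ∀ t, f (t + N) = f t + 1 → f (t + N + N) = f (t + N) + 1 ∧ f (t - N) = f t - 1 := by
    intro t ht
    constructor
    · rcases h6 (t + N) with ⟨_, b⟩ | ⟨a, _⟩
      · exfalso
        rw [add_sub_cancel_right, ht] at b
        exact h10 (by simpa using b)
      · exact a
    · rcases h6 t with ⟨a, _⟩ | ⟨_, b⟩
      · exfalso
        rw [ht] at a
        exact h10 (by simpa using a)
      · exact b
  constructor
  · intro ht
    have key : ∀ n : ℤ, f (t + n * N) = f t ∧ f (t + n * N + N) = f (t + n * N) := by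
      intro n
      induction n with
      | zero => simpa using ht
      | succ n ih =>
        have e : t + ((n : ℤ) + 1) * N = t + n * N + N := by ring
        rw [e]
        exact ⟨ih.2.trans ih.1, (hs0 _ ih.2).1⟩
      | pred n ih =>
        have e : t + (-(n : ℤ) - 1) * N = t + (-(n : ℤ)) * N - N := by ring
        rw [e, sub_add_cancel]
        have := (hs0 _ ih.2).2
        exact ⟨this.trans ih.1, this.symm⟩
    exact fun n => (key n).1
  · intro ht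
    have key : ∀ n : ℤ, f (t + n * N) = f t + n ∧ f (t + n * N + N) = f (t + n * N) + 1 := by
      intro n
      induction n with
      | zero => simpa using ht
      | succ n ih =>
        have e : t + ((n : ℤ) + 1) * N = t + n * N + N := by ring
        rw [e]
        refine ⟨?_, (hs1 _ ih.2).1⟩
        rw [ih.2, ih.1]; push_cast; ring
      | pred n ih =>
        have e : t + (-(n : ℤ) - 1) * N = t + (-(n : ℤ)) * N - N := by ring
        rw [e, sub_add_cancel]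
        have := (hs1 _ ih.2).2
        refine ⟨?_, ?_⟩
        · rw [this, ih.1]; push_cast; ring
        · rw [this]; ring
    exact fun n => (key n).1

/-- two labels of the same line with slopes `1` and `0` differ at all times congruent to `t0`
modulo `p^2`, off one residue class modulo `r`. -/
theorem hole {r : ℕ} {N : ℤ} (hr : 2 ≤ r) (hNr : (N : ZMod r) = 1)
    (hNp : (N : ZMod (p ^ 2)) = 0) (hcop : Nat.Coprime p r) {f g : ℤ → ZMod r}
    (hf5 : ∀ t, f (t + (p : ℤ) ^ 2 * r) = f t) (hg5 : ∀ t, g (t + (p : ℤ) ^ 2 * r) = g t)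
    (hf6 : ∀ t, (f (t + N) = f t ∧ f (t - N) = f t) ∨ (f (t + N) = f t + 1 ∧ f (t - N) = f t - 1))
    (hg6 : ∀ t, (g (t + N) = g t ∧ g (t - N) = g t) ∨ (g (t + N) = g t + 1 ∧ g (t - N) = g t - 1))
    (t0 : ℤ) (hf : f (t0 + N) = f t0 + 1) (hg : g (t0 + N) = g t0) :
    ∃ a : ZMod r, ∀ t : ℤ, (t : ZMod (p ^ 2)) = (t0 : ZMod (p ^ 2)) → (t : ZMod r) ≠ a →
      f t ≠ g t := by
  -- periodicity in multiples
  have hmul : ∀ (u : ℤ → ZMod r), (∀ t, u (t + (p : ℤ) ^ 2 * r) = u t) → ∀ (t n : ℤ),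
      u (t + (p : ℤ) ^ 2 * r * n) = u t := by
    intro u hu t n
    induction n with
    | zero => simp
    | succ n ih => rw [mul_add, mul_one, ← add_assoc, hu, ih]
    | pred n ih =>
      have := hu (t + (p : ℤ) ^ 2 * r * (-(n : ℤ) - 1))
      rw [← this, ← ih]
      congr 1
      ring
  refine ⟨t0 + (g t0 - f t0), ?_⟩
  intro t ht hta heq
  apply hta
  -- write `t = t0 + (t - t0) N + p^2 r m`
  have hdvd : ((p : ℤ) ^ 2 * r) ∣ (t - t0) - (t - t0) * N := by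
    have h1 : ((p ^ 2 : ℕ) : ℤ) ∣ (t - t0) - (t - t0) * N := by
      rw [← ZMod.intCast_zmod_eq_zero_iff_dvd]
      push_cast
      rw [ht, hNp]; ring
    have h2 : (r : ℤ) ∣ (t - t0) - (t - t0) * N := by
      rw [← ZMod.intCast_zmod_eq_zero_iff_dvd]
      push_cast
      rw [hNr]; ring
    have hc : IsCoprime ((p ^ 2 : ℕ) : ℤ) (r : ℤ) :=
      Nat.isCoprime_iff_coprime.2 (Nat.Coprime.pow_left 2 hcop)
    have := hc.mul_dvd h1 h2
    push_cast at this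
    exact this
  obtain ⟨m, hm⟩ := hdvd
  have ht' : t = t0 + (t - t0) * N + (p : ℤ) ^ 2 * r * m := by linarith
  have e1 : f t = f t0 + ((t - t0 : ℤ) : ZMod r) := by
    conv_lhs => rw [ht', hmul f hf5]
    exact (affine_iter hf6 hr t0).2 hf (t - t0)
  have e2 : g t = g t0 := by
    conv_lhs => rw [ht', hmul g hg5]
    exact (affine_iter hg6 hr t0).1 hg (t - t0)
  rw [e1, e2] at heq
  push_cast at heq
  linear_combination heq

/-- FORCED, digit version: the letters are label indices `a ∈ S`. -/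
theorem forced_digit {ι : Type*} {r : ι → ℕ} {N : ι → ℤ} (a0 : ι) (S : Finset ι)
    (hp : 2 ≤ p) (hr0 : 2 ≤ r a0) (hr : ∀ a ∈ S, 2 ≤ r a)
    (hcop0 : Nat.Coprime p (r a0)) (hcop : ∀ a ∈ S, Nat.Coprime p (r a))
    (hN0 : (N a0 : ZMod (p ^ 2)) = 0) (hNp : ∀ a ∈ S, (N a : ZMod (p ^ 2)) = 0)
    (hNr : ∀ a ∈ S, (N a : ZMod (r a)) = 1)
    {Y : ℤ → ZMod p → ZMod (p ^ 3)} {z : L → ℤ → ZMod p → ∀ a, ZMod (r a)}
    (hbase : BaseSol p (r a0) (N a0) Y (fun l t ρ => z l t ρ a0))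
    (h5 : ∀ a ∈ S, ∀ l t ρ, z l (t + (p : ℤ) ^ 2 * r a) ρ a = z l t ρ a)
    (h6 : ∀ a ∈ S, ∀ l t ρ, (z l (t + N a) ρ a = z l t ρ a ∧ z l (t - N a) ρ a = z l t ρ a) ∨
      (z l (t + N a) ρ a = z l t ρ a + 1 ∧ z l (t - N a) ρ a = z l t ρ a - 1))
    (c1 : ∀ a ∈ S, ∀ l t ρ, z l (t + N a0) ρ a0 = z l t ρ a0 + 1 ∨
      z l (t + N a) ρ a = z l t ρ a)
    (c2 : ∀ l t ρ, z l (t + N a0) ρ a0 = z l t ρ a0 ∨
      ∃ a ∈ S, z l (t + N a) ρ a = z l t ρ a + 1) :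
    ∃ T : ZMod (p ^ 2), ∀ l : L, ∃ a ∈ S, ∃ h : ZMod (r a), ∀ t : ℤ,
      (t : ZMod (p ^ 2)) = T → (t : ZMod (r a)) ≠ h → ∃ ρ ρ', z l t ρ a ≠ z l t ρ' a := by
  classical
  by_cases hL : Nonempty L
  swap
  · exact ⟨0, fun l => absurd ⟨l⟩ hL⟩
  obtain ⟨l0⟩ := hL
  have hf0 : Fact (1 < r a0) := ⟨by omega⟩
  have h10 : (1 : ZMod (r a0)) ≠ 0 := one_ne_zero
  obtain ⟨T, ρ, ρ', hT⟩ := hbase.exists_mixed hp hr0 hcop0 hN0 l0
  obtain ⟨t0, ht0⟩ := exists_int T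
  refine ⟨T, fun l => ?_⟩
  obtain ⟨m1, m2⟩ := hT l t0 ht0
  -- letter of the line
  obtain ⟨a, ha, hsl⟩ : ∃ a ∈ S, z l (t0 + N a) ρ a = z l t0 ρ a + 1 := by
    rcases c2 l t0 ρ with h | h
    · exfalso
      rw [m1] at h
      exact h10 (by simpa using h)
    · exact h
  have hsl' : z l (t0 + N a) ρ' a = z l t0 ρ' a := by
    rcases c1 a ha l t0 ρ' with h | h
    · exfalso
      rw [m2] at h
      exact h10 (by simpa using h.symm)
    · exact h
  obtain ⟨x, hx⟩ := hole (f := fun t => z l t ρ a) (g := fun t => z l t ρ' a) (hr a ha)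
    (hNr a ha) (hNp a ha) (hcop a ha) (fun t => h5 a ha l t ρ) (fun t => h5 a ha l t ρ')
    (fun t => h6 a ha l t ρ) (fun t => h6 a ha l t ρ') t0 hsl hsl'
  exact ⟨a, ha, x, fun t ht hta => ⟨ρ, ρ', hx t (ht.trans ht0.symm) hta⟩⟩


end Crest.Agent.R046.Comp
end

-- ▼ part R046/ForcedSlice

/-!
Row 46: from the slice statements of the component tiles (helper499's frozen form 8244) to the
hypotheses `BaseSol` and the two forcedness theorems on `ℤ × ℤ`.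
-/

set_option autoImplicit false

namespace Crest.Agent.R046.Comp

open Finset

variable {p : ℕ}

/-- `Vis`: `v'` is the visit of the class `c` at the residue of `v`. -/
def Vis (P : ℤ × ℤ) (Y : ℤ × ℤ → ZMod p → ZMod (p ^ 3)) (c : ZMod (p ^ 2)) (v v' : ℤ × ℤ) : Prop :=
  ∃ k : ℕ, k < p ∧ v' = v - k • P ∧ r32 p (Y v' (r21 p c)) = c

/-- the swap statement (slice form of the tile `D g d P u`). -/
def DStat (P : ℤ × ℤ) (Y : ℤ × ℤ → ZMod p → ZMod (p ^ 3)) {r0 : ℕ}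
    (z : ℤ × ℤ → ZMod p → ZMod r0) (d : ZMod r0) (u : ℤ × ℤ) : Prop :=
  ∀ (c : ZMod (p ^ 2)) (v v0 v1 v2 : ℤ × ℤ), Vis P Y c v v0 → Vis P Y c (v + u) v1 →
    Vis P Y c (v - u) v2 →
    (((Y v1 (r21 p c), z v1 (r21 p c)) : ZMod (p ^ 3) × ZMod r0) = (Y v0 (r21 p c), z v0 (r21 p c)) ∧
      ((Y v2 (r21 p c), z v2 (r21 p c)) : ZMod (p ^ 3) × ZMod r0)
        = (Y v0 (r21 p c), z v0 (r21 p c))) ∨
    (((Y v1 (r21 p c), z v1 (r21 p c)) : ZMod (p ^ 3) × ZMod r0)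
        = (Y v0 (r21 p c), z v0 (r21 p c)) + ((p : ZMod (p ^ 3)) ^ 2, d) ∧
      ((Y v2 (r21 p c), z v2 (r21 p c)) : ZMod (p ^ 3) × ZMod r0)
        = (Y v0 (r21 p c), z v0 (r21 p c)) - ((p : ZMod (p ^ 3)) ^ 2, d))

/-- slice statements for positions and base label, along the direction `w`. -/
structure Base2 (p r0 : ℕ) (w : ℤ × ℤ) (N1 Np N0 : ℤ) (Y : ℤ × ℤ → ZMod p → ZMod (p ^ 3))
    (z : ℤ × ℤ → ZMod p → ZMod r0) : Prop where
  role : ∀ v ρ, r31 p (Y v ρ) = ρ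
  per : ∀ v ρ, Y (v + ((p : ℤ) ^ 2) • w) ρ = Y v ρ
  step : ∀ v ρ, r32 p (Y (v + w) (ρ + 1)) = r32 p (Y v ρ) + 1
  c4 : ∀ v y, ∃! k : ℕ, k < p ^ 2 ∧ Y (v - k • w) (r31 p y) = y + p * k
  c5 : ∀ v ρ, z (v + ((p : ℤ) ^ 2 * r0) • w) ρ = z v ρ
  d2 : DStat (Np • w) Y z 0 (N1 • w)
  d3 : DStat (Np • w) Y z 1 ((N1 + N0) • w)

namespace Base2

variable {r0 : ℕ} {w : ℤ × ℤ} {N1 Np N0 : ℤ} {Y : ℤ × ℤ → ZMod p → ZMod (p ^ 3)}
  {z : ℤ × ℤ → ZMod p → ZMod r0}

theorem per_mul (h : Base2 p r0 w N1 Np N0 Y z) (v : ℤ × ℤ) (n : ℤ) (ρ : ZMod p) :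
    Y (v + ((p : ℤ) ^ 2 * n) • w) ρ = Y v ρ := by
  induction n with
  | zero => simp
  | succ n ih =>
    rw [mul_add, mul_one, add_smul, ← add_assoc, h.per, ih]
  | pred n ih =>
    have := h.per (v + ((p : ℤ) ^ 2 * (-(n : ℤ) - 1)) • w) ρ
    rw [← this, ← ih, add_assoc, ← add_smul]
    congr 3
    ring

theorem zper_mul (h : Base2 p r0 w N1 Np N0 Y z) (v : ℤ × ℤ) (n : ℤ) (ρ : ZMod p) :
    z (v + ((p : ℤ) ^ 2 * r0 * n) • w) ρ = z v ρ := by
  induction n with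
  | zero => simp
  | succ n ih =>
    rw [mul_add, mul_one, add_smul, ← add_assoc, h.c5, ih]
  | pred n ih =>
    have := h.c5 (v + ((p : ℤ) ^ 2 * r0 * (-(n : ℤ) - 1)) • w) ρ
    rw [← this, ← ih, add_assoc, ← add_smul]
    congr 3
    ring

/-- positions depend on the time only modulo `p^2`. -/
theorem Y_congr (h : Base2 p r0 w N1 Np N0 Y z) (v0 : ℤ × ℤ) {t t' : ℤ} (ρ : ZMod p)
    (htt : (t : ZMod (p ^ 2)) = (t' : ZMod (p ^ 2))) : Y (v0 + t • w) ρ = Y (v0 + t' • w) ρ := by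
  rw [ZMod.intCast_eq_intCast_iff_dvd_sub] at htt
  obtain ⟨n, hn⟩ := htt
  have : t' = t + (p : ℤ) ^ 2 * n := by push_cast at hn; linarith
  rw [this, add_smul, ← add_assoc, h.per_mul]

/-- labels depend on the time only modulo `p^2` and `r0`. -/
theorem z_congr (h : Base2 p r0 w N1 Np N0 Y z) (hcop : Nat.Coprime p r0) (v0 : ℤ × ℤ)
    {t t' : ℤ} (ρ : ZMod p) (htt : (t : ZMod (p ^ 2)) = (t' : ZMod (p ^ 2)))
    (htr : (t : ZMod r0) = (t' : ZMod r0)) : z (v0 + t • w) ρ = z (v0 + t' • w) ρ := by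
  rw [ZMod.intCast_eq_intCast_iff_dvd_sub] at htt htr
  have hc : IsCoprime ((p ^ 2 : ℕ) : ℤ) (r0 : ℤ) :=
    Nat.isCoprime_iff_coprime.2 (Nat.Coprime.pow_left 2 hcop)
  obtain ⟨n, hn⟩ := hc.mul_dvd htt htr
  have : t' = t + (p : ℤ) ^ 2 * r0 * n := by push_cast at hn; linarith
  rw [this, add_smul, ← add_assoc, h.zper_mul]

/-- the window structure of a line. -/
theorem win_line (h : Base2 p r0 w N1 Np N0 Y z) (v0 : ℤ × ℤ) :
    Win (fun (T : ZMod (p ^ 2)) ρ => Y (v0 + (T.cast : ℤ) • w) ρ) where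
  role := fun T ρ => h.role _ ρ
  step := by
    intro T ρ
    obtain ⟨t, rfl⟩ := exists_int T
    have e1 : Y (v0 + ((((t : ZMod (p ^ 2)) + 1).cast : ℤ)) • w) (ρ + 1)
        = Y (v0 + (t + 1) • w) (ρ + 1) := by
      apply h.Y_congr
      rw [ZMod.intCast_zmod_cast]; push_cast; rfl
    have e2 : Y (v0 + (((t : ZMod (p ^ 2)).cast : ℤ)) • w) ρ = Y (v0 + t • w) ρ := by
      apply h.Y_congr
      rw [ZMod.intCast_zmod_cast]
    show r32 p (Y (v0 + ((((t : ZMod (p ^ 2)) + 1).cast : ℤ)) • w) (ρ + 1)) =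
      r32 p (Y (v0 + (((t : ZMod (p ^ 2)).cast : ℤ)) • w) ρ) + 1
    rw [e1, e2, add_smul, one_smul, ← add_assoc, h.step]

/-- visits of a class with the same residue modulo `p` are congruent modulo `p^2`. -/
theorem visit_unique [NeZero p] (h : Base2 p r0 w N1 Np N0 Y z) (v0 : ℤ × ℤ) {t t' : ℤ}
    {ρ : ZMod p} (hc : r32 p (Y (v0 + t • w) ρ) = r32 p (Y (v0 + t' • w) ρ))
    (hres : (t : ZMod p) = (t' : ZMod p)) : (t : ZMod (p ^ 2)) = (t' : ZMod (p ^ 2)) := by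
  have hw := h.win_line v0
  have e : ∀ t : ℤ, Y (v0 + (((t : ZMod (p ^ 2)).cast : ℤ)) • w) ρ = Y (v0 + t • w) ρ := by
    intro t
    apply h.Y_congr
    rw [ZMod.intCast_zmod_cast]
  have h1 := hw.eq_tm (T := (t : ZMod (p ^ 2))) (ρ := ρ) rfl
  have h2 := hw.eq_tm (T := (t' : ZMod (p ^ 2))) (ρ := ρ) rfl
  rw [h1, h2]
  simp only [e, hc, r21_coe, hres]

/-- existence and uniqueness of the visit (the slice statement of the tile `X`). -/
theorem exists_vis [NeZero p] (h : Base2 p r0 w N1 Np N0 Y z)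
    (hNp : (Np : ZMod (p ^ 2)) = p) (v : ℤ × ℤ) (c : ZMod (p ^ 2)) :
    ∃! k : ℕ, k < p ∧ r32 p (Y (v - k • (Np • w)) (r21 p c)) = c := by
  have hw := h.win_line v
  have hNpp : (Np : ZMod p) = 0 := by
    have := congrArg (r21 p) hNp
    rwa [r21_coe, map_natCast, ZMod.natCast_self] at this
  have e : ∀ t : ℤ, Y (v + (((t : ZMod (p ^ 2)).cast : ℤ)) • w) (r21 p c)
      = Y (v + t • w) (r21 p c) := by
    intro t
    apply h.Y_congr
    rw [ZMod.intCast_zmod_cast]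
  have hv : ∀ k : ℕ, v - k • (Np • w) = v + (-(k : ℤ) * Np) • w := by
    intro k
    rw [← natCast_zsmul, smul_smul, sub_eq_add_neg, ← neg_smul]
    congr 2
    ring
  -- the visit at residue `0`
  obtain ⟨t, ht⟩ := exists_int (tm (fun (T : ZMod (p ^ 2)) ρ => Y (v + (T.cast : ℤ) • w) ρ)
    (r21 p c) c 0)
  have hcl : r32 p (Y (v + t • w) (r21 p c)) = c := by
    have h1 := hw.cl_tm (ρ := r21 p c) (c := c) rfl 0
    rw [← ht] at h1
    simp only [e] at h1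
    exact h1
  have ht0 : (t : ZMod p) = 0 := by
    have h1 := hw.r21_tm (ρ := r21 p c) (c := c) rfl 0
    rw [← ht, r21_coe] at h1
    exact h1
  obtain ⟨q, hq⟩ := (ZMod.intCast_zmod_eq_zero_iff_dvd t p).1 ht0
  -- `k = -q mod p`
  have hkq : ∀ k : ℕ, (k : ZMod p) = ((-q : ℤ) : ZMod p) →
      ((-(k : ℤ) * Np : ℤ) : ZMod (p ^ 2)) = (t : ZMod (p ^ 2)) := by
    intro k hk
    have h1 : m12 p (k : ZMod p) = m12 p ((-q : ℤ) : ZMod p) := by rw [hk]
    have h2 : m12 p ((k : ℤ) : ZMod p) = (p : ZMod (p ^ 2)) * ((k : ℤ) : ZMod (p ^ 2)) :=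
      m12_intCast p _
    rw [m12_intCast] at h1
    rw [Int.cast_natCast] at h2
    rw [h2] at h1
    rw [hq]
    push_cast at h1 ⊢
    rw [hNp]
    linear_combination (-1 : ZMod (p ^ 2)) * h1
  refine ⟨((-q : ℤ) : ZMod p).val, ⟨ZMod.val_lt _, ?_⟩, ?_⟩
  · rw [hv, h.Y_congr v (r21 p c) (hkq _ (by rw [ZMod.natCast_val, ZMod.cast_id]))]
    exact hcl
  · rintro k ⟨hk, hk2⟩
    rw [hv] at hk2
    have h1 := h.visit_unique v (t := -(k : ℤ) * Np) (t' := t) (ρ := r21 p c)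
      (by rw [hk2, hcl]) (by push_cast; rw [hNpp, ht0]; ring)
    have h2 : ((((-(k : ℤ)) * p - t : ℤ)) : ZMod (p ^ 2)) = 0 := by
      push_cast at h1 ⊢
      rw [hNp] at h1
      rw [h1]; ring
    rw [ZMod.intCast_zmod_eq_zero_iff_dvd, hq] at h2
    have h3 : (p : ℤ) * p ∣ (p : ℤ) * (-(k : ℤ) - q) := by
      have e1 : ((p ^ 2 : ℕ) : ℤ) = (p : ℤ) * p := by push_cast; ring
      have e2 : (p : ℤ) * (-(k : ℤ) - q) = -(k : ℤ) * p - p * q := by ring
      rw [← e1, e2]; exact h2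
    have h4 : (p : ℤ) ∣ (-(k : ℤ) - q) :=
      (mul_dvd_mul_iff_left (by exact_mod_cast NeZero.ne p)).1 h3
    have h5 : (k : ZMod p) = ((-q : ℤ) : ZMod p) := by
      have h6 : (((-(k : ℤ) - q : ℤ)) : ZMod p) = 0 :=
        (ZMod.intCast_zmod_eq_zero_iff_dvd _ _).2 h4
      push_cast at h6 ⊢
      linear_combination (-1 : ZMod p) * h6
    rw [← h5, ZMod.val_natCast, Nat.mod_eq_of_lt hk]

/-- the line functions satisfy `BaseSol`. -/
theorem baseSol [NeZero p] {L : Type*} (f : L → ℤ × ℤ) (Yc : ℤ → ZMod p → ZMod (p ^ 3))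
    (h : Base2 p r0 w N1 Np N0 Y z) (hf : ∀ l t ρ, Y (f l + t • w) ρ = Yc t ρ) [Nonempty L]
    (hcop : Nat.Coprime p r0) (hNp : (Np : ZMod (p ^ 2)) = p) (hNp0 : (Np : ZMod r0) = 0)
    (hN1 : (N1 : ZMod (p ^ 2)) = 1) (hN10 : (N1 : ZMod r0) = 0)
    (hN0 : (N0 : ZMod (p ^ 2)) = 0) (hN00 : (N0 : ZMod r0) = 1) :
    BaseSol p r0 N0 Yc (fun l t ρ => z (f l + t • w) ρ) := by
  obtain ⟨l0⟩ := ‹Nonempty L›
  have hN1p : (N1 : ZMod p) = 1 := by
    have := congrArg (r21 p) hN1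
    rwa [r21_coe, map_one] at this
  have hN0p : (N0 : ZMod p) = 0 := by
    have := congrArg (r21 p) hN0
    rwa [r21_coe, map_zero] at this
  have hNpp : (Np : ZMod p) = 0 := by
    have := congrArg (r21 p) hNp
    rwa [r21_coe, map_natCast, ZMod.natCast_self] at this
  -- general statement: visits reached by `D`-tiles
  have hvis : ∀ (l : L) (ρ : ZMod p) (t u : ℤ) (c : ZMod (p ^ 2)), r21 p c = ρ →
      ∃ t1 : ℤ, Vis (Np • w) Y c (f l + t • w + u • w) (f l + t1 • w) ∧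
        (t1 : ZMod p) = (t : ZMod p) + u ∧ (t1 : ZMod r0) = (t : ZMod r0) + u := by
    intro l ρ t u c _
    obtain ⟨k, ⟨hk, hk2⟩, _⟩ := h.exists_vis hNp (f l + t • w + u • w) c
    have e : f l + t • w + u • w - k • (Np • w) = f l + (t + u - k * Np) • w := by
      rw [sub_smul, add_smul, ← natCast_zsmul, smul_smul]
      abel
    refine ⟨t + u - k * Np, ⟨k, hk, e.symm, ?_⟩, ?_, ?_⟩
    · rw [← e]; exact hk2
    · push_cast; rw [hNpp]; ring
    · push_cast; rw [hNp0]; ring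
  have hvis' : ∀ (l : L) (ρ : ZMod p) (t u : ℤ) (c : ZMod (p ^ 2)), r21 p c = ρ →
      ∃ t1 : ℤ, Vis (Np • w) Y c (f l + t • w - u • w) (f l + t1 • w) := by
    intro l ρ t u c hc
    obtain ⟨t1, h1, _⟩ := hvis l ρ t (-u) c hc
    refine ⟨t1, ?_⟩
    rwa [neg_smul, ← sub_eq_add_neg] at h1
  have hself : ∀ (l : L) (ρ : ZMod p) (t : ℤ) (c : ZMod (p ^ 2)), r21 p c = ρ →
      r32 p (Yc t ρ) = c → Vis (Np • w) Y c (f l + t • w) (f l + t • w) := by
    intro l ρ t c hc hcl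
    refine ⟨0, Nat.pos_of_ne_zero (NeZero.ne p), by simp, ?_⟩
    rw [hc, hf]; exact hcl
  -- the basic comparison (all times)
  have key2 : ∀ (l : L) (ρ : ZMod p) (t t' : ℤ), r32 p (Yc t ρ) = r32 p (Yc t' ρ) →
      (t' : ZMod p) = (t : ZMod p) + 1 → (t : ZMod r0) = (t' : ZMod r0) →
      z (f l + t' • w) ρ = z (f l + t • w) ρ := by
    intro l ρ t t' hcc hp1 hr
    have hc : r21 p (r32 p (Yc t ρ)) = ρ := by
      rw [r21_r32, ← hf l0, h.role]
    obtain ⟨t1, hv1, hv1p, hv1r⟩ := hvis l ρ t N1 _ hc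
    obtain ⟨t2, hv2⟩ := hvis' l ρ t N1 _ hc
    have hd := h.d2 _ _ _ _ _ (hself l ρ t _ hc rfl) hv1 hv2
    rw [hc] at hd
    have hz : z (f l + t1 • w) ρ = z (f l + t • w) ρ := by
      rcases hd with ⟨a, _⟩ | ⟨a, _⟩
      · exact congrArg Prod.snd a
      · have := congrArg Prod.snd a
        simpa using this
    obtain ⟨k, _, _, hcl1⟩ := hv1
    rw [hc, hf] at hcl1
    have huni := h.visit_unique (f l) (t := t') (t' := t1) (ρ := ρ)
      (by rw [hf, hf, hcl1, hcc]) (by rw [hp1, hv1p, hN1p])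
    rw [h.z_congr hcop (f l) ρ huni (by rw [hv1r, hN10, add_zero, hr]), hz]
  refine ⟨fun t ρ => by rw [← hf l0, h.role], ?_, ?_, ?_, ?_, ?_⟩
  · intro t ρ
    rw [← hf l0, ← hf l0, add_smul, ← add_assoc, h.per]
  · intro t ρ
    rw [← hf l0, ← hf l0, add_smul, one_smul, ← add_assoc, h.step]
  · -- (C4)
    intro ρ t t' htt
    have hne2 : NeZero (p ^ 2) := ⟨pow_ne_zero _ (NeZero.ne p)⟩
    -- apply C4 at `v = f l0` and `y = Yc t ρ + p t`
    have hr : r31 p (Yc t ρ + (p : ZMod (p ^ 3)) * t) = ρ := by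
      rw [map_add, map_mul, map_natCast, ZMod.natCast_self, zero_mul, add_zero, ← hf l0, h.role]
    obtain ⟨k, _, huniq⟩ := h.c4 (f l0) (Yc t ρ + (p : ZMod (p ^ 3)) * t)
    have hx : ∀ s : ℤ, Yc s ρ + (p : ZMod (p ^ 3)) * s = Yc t ρ + (p : ZMod (p ^ 3)) * t →
        (((-s : ℤ) : ZMod (p ^ 2))).val = k := by
      intro s hs
      have hval : (((((-s : ℤ) : ZMod (p ^ 2))).val : ℕ) : ZMod (p ^ 2))
          = ((-s : ℤ) : ZMod (p ^ 2)) := by
        rw [ZMod.natCast_val, ZMod.cast_id]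
      apply huniq
      refine ⟨ZMod.val_lt _, ?_⟩
      rw [hr]
      set κ := (((-s : ℤ) : ZMod (p ^ 2))).val with hκ
      have e1 : f l0 - κ • w = f l0 + (-(κ : ℤ)) • w := by
        rw [neg_smul, natCast_zsmul, sub_eq_add_neg]
      have e2 : Y (f l0 + (-(κ : ℤ)) • w) ρ = Yc s ρ := by
        rw [← hf l0]
        apply h.Y_congr
        push_cast
        rw [hval]; push_cast; ring
      rw [e1, e2, ← hs]
      -- `p s + p κ = 0` in `ZMod (p^3)`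
      have e3 : m23 p ((κ : ℤ) : ZMod (p ^ 2)) = m23 p ((-s : ℤ) : ZMod (p ^ 2)) := by
        congr 1
        rw [Int.cast_natCast]; exact hval
      rw [m23_intCast, m23_intCast] at e3
      push_cast at e3
      linear_combination (-1 : ZMod (p ^ 3)) * e3
    have h1 := hx t rfl
    have h2 := hx t' htt.symm
    have h3 : ((-t : ℤ) : ZMod (p ^ 2)) = ((-t' : ℤ) : ZMod (p ^ 2)) :=
      ZMod.val_injective _ (h1.trans h2.symm)
    push_cast at h3
    exact neg_injective h3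
  · intro l ρ t t' hcc hp1 hr
    exact (key2 l ρ t t' hcc hp1 hr).symm
  · -- motion = slope
    intro l ρ t t' hcc hp1
    -- a time `s ≡ t mod p^2` with `s ≡ t' mod r0`
    obtain ⟨s, hs1, hs2⟩ := crt_int (Nat.Coprime.pow_left 2 hcop) t t'
    have hYs : Yc s ρ = Yc t ρ := by rw [← hf l0, ← hf l0]; exact h.Y_congr (f l0) ρ hs1
    have hsp : (s : ZMod p) = (t : ZMod p) := by rw [← r21_coe, hs1, r21_coe]
    have hc : r21 p (r32 p (Yc s ρ)) = ρ := by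
      rw [r21_r32, ← hf l0, h.role]
    obtain ⟨t1, hv1, hv1p, hv1r⟩ := hvis l ρ s (N1 + N0) _ hc
    obtain ⟨t2, hv2⟩ := hvis' l ρ s (N1 + N0) _ hc
    have hd := h.d3 _ _ _ _ _ (hself l ρ s _ hc rfl) hv1 hv2
    rw [hc] at hd
    obtain ⟨k, _, _, hcl1⟩ := hv1
    rw [hc, hf] at hcl1
    have huni := h.visit_unique (f l) (t := t') (t' := t1) (ρ := ρ)
      (by rw [hf, hf, hcl1, hYs, hcc])
      (by rw [hp1, hv1p]; push_cast; rw [hN1p, hN0p, hsp]; ring)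
    have hY1 : Y (f l + t1 • w) ρ = Yc t' ρ := by
      rw [← hf l]; exact (h.Y_congr (f l) ρ huni).symm
    have hz1 : z (f l + t1 • w) ρ = z (f l + (t' + N0) • w) ρ := by
      apply h.z_congr hcop
      · rw [← huni]; push_cast; rw [hN0, add_zero]
      · rw [hv1r]; push_cast; rw [hN10, hN00, hs2]; ring
    have hz0 := key2 l ρ s t' (by rw [hYs, hcc]) (by rw [hsp, hp1]) hs2
    rcases hd with ⟨a, _⟩ | ⟨a, _⟩
    · left
      have a1 := congrArg Prod.fst a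
      have a2 := congrArg Prod.snd a
      simp only at a1 a2
      refine ⟨?_, ?_⟩
      · rw [← hY1, a1, hf, hYs]
      · show z (f l + (t' + N0) • w) ρ = z (f l + t' • w) ρ
        rw [← hz1, a2, hz0]
    · right
      have a1 := congrArg Prod.fst a
      have a2 := congrArg Prod.snd a
      simp only [Prod.mk_add_mk] at a1 a2
      refine ⟨?_, ?_⟩
      · rw [← hY1, a1, hf, hYs]
      · show z (f l + (t' + N0) • w) ρ = z (f l + t' • w) ρ + 1
        rw [← hz1, a2, hz0]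

end Base2

end Crest.Agent.R046.Comp
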