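import Crest.Agent.R046.Cov
import Crest.Agent.R046.CompCore
import Mathlib
import Crest.Agent.R046.ForcedSlice
import Crest.Agent.R046.Data
import Crest.Agent.R046.Clause

-- ▼ part R046/Tiles
section

set_option autoImplicit false
set_option linter.unusedSectionVars false
set_option linter.deprecated false

/-! Row 46: tile equations of one component in slice language.

Base group `V`, fibre `K × L` (`K` = position group, `L = ∀ g, ZMod (r g)` = labels), role map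
`rol : K →+ R`, class map `cls : K →+ Q`, `rc : Q →+ R` with `rc ∘ cls = rol`.
The set is the graph `{(v, Y v ρ, z v ρ)}` with `rol (Y v ρ) = ρ`. -/

namespace Crest.Agent.R046.Tiles

open Crest.CombinatoricsR.Tiling
open Crest.Agent.R046

section general

variable {G : Type*} [AddCommGroup G] [DecidableEq G]

/-- translate of a finite set -/
def tr (u : G) (F : Finset G) : Finset G := F.map (addRightEmbedding u)

theorem mem_tr {u : G} {F : Finset G} {x : G} : x ∈ tr u F ↔ x - u ∈ F := by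
  unfold tr
  rw [Finset.mem_map]
  constructor
  · rintro ⟨f, hf, rfl⟩
    simpa using hf
  · intro h
    exact ⟨x - u, h, by simp⟩

theorem cov_tr (u : G) (F : Finset G) (A : Set G) (x : G) : cov (tr u F) A x = cov F A (x - u) := by
  classical
  rw [cov_eq_sum, cov_eq_sum]
  unfold tr
  rw [Finset.sum_map]
  refine Finset.sum_congr rfl fun f _ => ?_
  have : x - (addRightEmbedding u) f = x - u - f := by
    simp only [addRightEmbedding_apply]; abel
  rw [this]

/-- the shift tile: the block `B` of `E` is moved by `u` -/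
def shiftTile (E B : Finset G) (u : G) : Finset G := E \ B ∪ tr u B

theorem shift_iff {E B : Finset G} {A : Set G} (hE : IsTilingBy E A) (u : G) (hB : B ⊆ E)
    (hd : Disjoint (E \ B) (tr u B)) :
    IsTilingBy (shiftTile E B u) A ↔ ∀ x, cov B A (x - u) = cov B A x := by
  unfold shiftTile
  rw [isTilingBy_swap hE hB hd]
  simp only [cov_tr]

/-- the swap tile: `E0` is moved by `-g` and `E0 + e` by `g` -/
def swapTile (E E0 : Finset G) (e g : G) : Finset G :=
  E \ (E0 ∪ tr e E0) ∪ (tr (-g) E0 ∪ tr (e + g) E0)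

theorem swap_iff {E E0 : Finset G} {A : Set G} (hE : IsTilingBy E A) (e g : G)
    (h0 : E0 ⊆ E) (h1 : tr e E0 ⊆ E) (h01 : Disjoint E0 (tr e E0))
    (hd : Disjoint (E \ (E0 ∪ tr e E0)) (tr (-g) E0 ∪ tr (e + g) E0))
    (hd' : Disjoint (tr (-g) E0) (tr (e + g) E0)) :
    IsTilingBy (swapTile E E0 e g) A ↔
      ∀ x, cov E0 A (x + g) + cov E0 A (x - (e + g)) = cov E0 A x + cov E0 A (x - e) := by
  unfold swapTile
  rw [isTilingBy_swap hE (Finset.union_subset h0 h1) hd]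
  refine forall_congr' fun x => ?_
  rw [cov_disjUnion hd', cov_disjUnion h01, cov_tr, cov_tr, cov_tr, sub_neg_eq_add]

end general

section state

/-- the three line lemma behind all swap tiles -/
theorem two_point_iff {M : Type*} [AddCommGroup M] [DecidableEq M] {a a1 a2 e : M} (he : e ≠ 0) :
    (∀ m : M, ((if m = a1 then 1 else 0) + (if m - e = a2 then 1 else 0) : ℕ) =
      (if m = a then 1 else 0) + (if m - e = a then 1 else 0)) ↔
      ((a1 = a ∧ a2 = a) ∨ (a1 = a + e ∧ a2 = a - e)) := by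
  constructor
  · intro h
    have h1 := h a
    have h2 := h (a + e)
    have e1 : ¬ (a - e = a) := by
      intro h; exact he (by simpa using h)
    have e2 : ¬ (a + e = a) := by
      intro h; exact he (by simpa using h)
    simp only [if_true, add_sub_cancel_right] at h1 h2
    rw [if_neg e1] at h1
    rw [if_neg e2] at h2
    by_cases c1 : a = a1
    · subst c1
      left
      refine ⟨rfl, ?_⟩
      rw [if_neg e2] at h2
      by_contra hne
      rw [if_neg (fun h => hne h.symm)] at h2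
      omega
    · right
      rw [if_neg c1] at h1
      by_cases c2 : a - e = a2
      · refine ⟨?_, c2.symm⟩
        by_contra hne
        rw [if_neg (fun h => hne h.symm)] at h2
        have : ¬ (a = a2) := by
          intro h; rw [← h] at c2; exact e1 c2
        rw [if_neg this] at h2
        omega
      · rw [if_neg c2] at h1; omega
  · rintro (⟨rfl, rfl⟩ | ⟨rfl, rfl⟩) m
    · rfl
    · have e1 : (m - e = a - e) ↔ (m = a) := by
        constructor
        · intro h; simpa using h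
        · rintro rfl; rfl
      have e2 : (m = a + e) ↔ (m - e = a) := by
        rw [sub_eq_iff_eq_add]
      simp only [e1, e2]
      omega

end state

section comp

variable {V K L R Q : Type*} [AddCommGroup V] [AddCommGroup K] [AddCommGroup L] [AddCommGroup R]
  [AddCommGroup Q] [DecidableEq V] [DecidableEq K] [DecidableEq L] [DecidableEq R] [DecidableEq Q]
  [Fintype K] [Fintype L]

/-- box -/
def bx (U : Finset V) (H : Finset K) (S : Finset L) : Finset (V × K × L) := U ×ˢ (H ×ˢ S)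

theorem mem_bx {U : Finset V} {H : Finset K} {S : Finset L} {v : V} {y : K} {l : L} :
    (v, y, l) ∈ bx U H S ↔ v ∈ U ∧ y ∈ H ∧ l ∈ S := by
  unfold bx
  simp [Finset.mem_product]

/-- graph of the state functions -/
def gr (Y : V → R → K) (z : V → R → L) : Set (V × K × L) :=
  {x | ∃ ρ, x.2.1 = Y x.1 ρ ∧ x.2.2 = z x.1 ρ}

variable (rol : K →+ R)

theorem mem_gr {Y : V → R → K} {z : V → R → L} (hY : ∀ v ρ, rol (Y v ρ) = ρ) {v : V} {y : K}
    {l : L} : (v, y, l) ∈ gr Y z ↔ y = Y v (rol y) ∧ l = z v (rol y) := by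
  unfold gr
  simp only [Set.mem_setOf_eq]
  constructor
  · rintro ⟨ρ, h1, h2⟩
    have : rol y = ρ := by rw [h1, hY]
    subst this
    exact ⟨h1, h2⟩
  · rintro ⟨h1, h2⟩
    exact ⟨_, h1, h2⟩

/-- the fibre-only tile `{0} × ker rol × L` -/
def Tt : Finset (V × K × L) :=
  bx ({0} : Finset V) (Finset.univ.filter fun η : K => rol η = 0) (Finset.univ : Finset L)

theorem mem_Tt {v : V} {y : K} {l : L} : (v, y, l) ∈ (Tt rol : Finset (V × K × L)) ↔
    v = 0 ∧ rol y = 0 := by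
  unfold Tt
  rw [mem_bx]
  simp

/-- (C1) `{0} × ker rol × L` tiles `A` iff `A` is a graph over the roles. -/
theorem Tt_iff {A : Set (V × K × L)} (hs : Function.Surjective rol) :
    IsTilingBy (Tt rol) A ↔
      ∃ (Y : V → R → K) (z : V → R → L), (∀ v ρ, rol (Y v ρ) = ρ) ∧ A = gr Y z := by
  rw [isTilingBy_iff_unique]
  constructor
  · intro h
    have key : ∀ v ρ, ∃! q : K × L, rol q.1 = ρ ∧ (v, q.1, q.2) ∈ A := by
      intro v ρ
      obtain ⟨y0, hy0⟩ := hs ρ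
      obtain ⟨⟨u, η, s⟩, ⟨hf, ha⟩, huniq⟩ := h (v, y0, 0)
      rw [mem_Tt] at hf
      obtain ⟨rfl, hη⟩ := hf
      simp only [Prod.mk_sub_mk, sub_zero, zero_sub] at ha
      refine ⟨(y0 - η, -s), ⟨by simp [hy0, hη], ha⟩, ?_⟩
      rintro ⟨y', l'⟩ ⟨h1, h2⟩
      simp only at h1 h2
      have := huniq (0, y0 - y', -l') ⟨by rw [mem_Tt]; simp [hy0, h1], by simpa using h2⟩
      simp only [Prod.mk.injEq, true_and] at this
      ext
      · simp only; rw [← this.1]; abel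
      · simp only; rw [← this.2]; abel
    choose q hq hquniq using key
    refine ⟨fun v ρ => (q v ρ).1, fun v ρ => (q v ρ).2, fun v ρ => (hq v ρ).1, ?_⟩
    ext ⟨v, y, l⟩
    constructor
    · intro hA
      have := hquniq v (rol y) (y, l) ⟨rfl, hA⟩
      exact ⟨rol y, by simp [← this], by simp [← this]⟩
    · rintro ⟨ρ, h1, h2⟩
      simp only at h1 h2
      have := (hq v ρ).2
      rw [h1, h2]
      exact this
  · rintro ⟨Y, z, hY, rfl⟩ ⟨v, y, l⟩
    refine ⟨(0, y - Y v (rol y), l - z v (rol y)), ⟨?_, ?_⟩, ?_⟩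
    · rw [mem_Tt]; simp [hY]
    · simp only [Prod.mk_sub_mk, sub_zero, sub_sub_cancel]
      exact ⟨rol y, rfl, rfl⟩
    · rintro ⟨u, η, s⟩ ⟨h1, h2⟩
      rw [mem_Tt] at h1
      obtain ⟨rfl, hη⟩ := h1
      simp only [Prod.mk_sub_mk, sub_zero] at h2
      rw [mem_gr rol hY] at h2
      have e1 : rol (y - η) = rol y := by rw [map_sub, hη, sub_zero]
      rw [e1] at h2
      obtain ⟨h3, h4⟩ := h2
      simp only [Prod.mk.injEq, true_and]
      refine ⟨?_, ?_⟩
      · rw [← h3]; abel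
      · rw [← h4]; abel

/-- covering number of a box -/
theorem cov_bx {Y : V → R → K} {z : V → R → L} (hY : ∀ v ρ, rol (Y v ρ) = ρ) (U : Finset V)
    (H : Finset K) (S : Finset L) (v : V) (y : K) (l : L) :
    cov (bx U H S) (gr Y z) (v, y, l) = ∑ u ∈ U, ∑ η ∈ H,
      if y - η = Y (v - u) (rol (y - η)) ∧ l - z (v - u) (rol (y - η)) ∈ S then 1 else 0 := by
  classical
  rw [cov_eq_sum]
  unfold bx
  rw [Finset.sum_product]
  refine Finset.sum_congr rfl fun u _ => ?_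
  rw [Finset.sum_product]
  refine Finset.sum_congr rfl fun η _ => ?_
  simp only [Prod.mk_sub_mk, mem_gr rol hY]
  by_cases h : y - η = Y (v - u) (rol (y - η))
  · by_cases h2 : l - z (v - u) (rol (y - η)) ∈ S
    · rw [if_pos ⟨h, h2⟩]
      rw [Finset.sum_eq_single_of_mem _ h2]
      · rw [if_pos]
        exact ⟨h, by abel⟩
      · intro b _ hb
        rw [if_neg]
        rintro ⟨-, h3⟩
        apply hb
        rw [← h3]; abel
    · rw [if_neg (fun h' => h2 h'.2)]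
      apply Finset.sum_eq_zero
      intro b hb
      rw [if_neg]
      rintro ⟨-, h3⟩
      apply h2
      rw [← h3]
      have : l - (l - b) = b := by abel
      rwa [this]
  · rw [if_neg (fun h' => h h'.1)]
    apply Finset.sum_eq_zero
    intro b hb
    rw [if_neg (fun h' => h h'.1)]


theorem mem_tr_bx {U : Finset V} {H : Finset K} {S : Finset L} {g : V × K × L} {v : V} {y : K}
    {l : L} : (v, y, l) ∈ tr g (bx U H S) ↔ v - g.1 ∈ U ∧ y - g.2.1 ∈ H ∧ l - g.2.2 ∈ S := by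
  obtain ⟨a, b, c⟩ := g
  rw [mem_tr]
  simp only [Prod.mk_sub_mk, mem_bx]

/-- blocks with different base parts are disjoint -/
theorem disjoint_of_fst {F F' : Finset (V × K × L)} {U U' : Finset V}
    (h : ∀ x ∈ F, x.1 ∈ U) (h' : ∀ x ∈ F', x.1 ∈ U') (hU : Disjoint U U') : Disjoint F F' := by
  rw [Finset.disjoint_left]
  intro x hx hx'
  exact Finset.disjoint_left.1 hU (h x hx) (h' x hx')

section C2

theorem cov_single {Y : V → R → K} {z : V → R → L} (hY : ∀ v ρ, rol (Y v ρ) = ρ)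
    (S : Finset L) (v : V) (y : K) (l : L) :
    cov (bx ({0} : Finset V) ({0} : Finset K) S) (gr Y z) (v, y, l) =
      if y = Y v (rol y) ∧ l - z v (rol y) ∈ S then 1 else 0 := by
  rw [cov_bx rol hY]
  simp only [Finset.sum_singleton, sub_zero]

theorem bx_zero_subset (S : Finset L) :
    bx ({0} : Finset V) ({0} : Finset K) S ⊆ (Tt rol : Finset (V × K × L)) := by
  rintro ⟨v, y, l⟩ h
  rw [mem_bx] at h
  rw [mem_Tt]
  simp only [Finset.mem_singleton] at h
  exact ⟨h.1, by rw [h.2.1, map_zero]⟩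

theorem disj_T {u : V} (hu : u ≠ 0) {B : Finset (V × K × L)} {a : K} {b : L}
    (hB : B ⊆ (Tt rol : Finset (V × K × L))) :
    Disjoint ((Tt rol : Finset (V × K × L)) \ B) (tr (u, a, b) B) := by
  apply disjoint_of_fst (U := {0}) (U' := {u})
  · rintro ⟨v, y, l⟩ hx
    have := (Finset.mem_sdiff.1 hx).1
    rw [mem_Tt] at this
    simp [this.1]
  · rintro ⟨v, y, l⟩ hx
    rw [mem_tr] at hx
    have := hB hx
    simp only [Prod.mk_sub_mk] at this
    rw [mem_Tt] at this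
    have h1 := sub_eq_zero.1 this.1
    simp [h1]
  · rw [Finset.disjoint_singleton]; exact fun h => hu h.symm

/-- (C2) -/
theorem C2_iff_gen {Y : V → R → K} {z : V → R → L} (hY : ∀ v ρ, rol (Y v ρ) = ρ) {u : V}
    (hu : u ≠ 0) :
    IsTilingBy (shiftTile (Tt rol) (bx {0} {0} Finset.univ) ((u, 0, 0) : V × K × L)) (gr Y z) ↔
      ∀ v ρ, Y (v + u) ρ = Y v ρ := by
  have hs : Function.Surjective rol := fun ρ => ⟨Y 0 ρ, hY 0 ρ⟩
  rw [shift_iff ((Tt_iff rol hs).2 ⟨Y, z, hY, rfl⟩) _ (bx_zero_subset rol _)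
    (disj_T rol hu (bx_zero_subset rol _))]
  constructor
  · intro h v ρ
    have := h (v + u, Y (v + u) ρ, 0)
    simp only [Prod.mk_sub_mk, sub_zero, add_sub_cancel_right] at this
    rw [cov_single rol hY, cov_single rol hY] at this
    simp only [hY, Finset.mem_univ, and_true, if_true] at this
    by_contra hne
    rw [if_neg hne] at this
    exact absurd this (by norm_num)
  · rintro h ⟨v, y, l⟩
    simp only [Prod.mk_sub_mk, sub_zero]
    rw [cov_single rol hY, cov_single rol hY]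
    have := h (v - u) (rol y)
    rw [sub_add_cancel] at this
    simp only [Finset.mem_univ, and_true, this]

end C2

section C3

variable (cls : K →+ Q) (rc : Q →+ R)

theorem clsker_subset (hrc : ∀ y, rc (cls y) = rol y) (S : Finset L) :
    bx ({0} : Finset V) (Finset.univ.filter fun η : K => cls η = 0) S ⊆
      (Tt rol : Finset (V × K × L)) := by
  rintro ⟨v, y, l⟩ h
  rw [mem_bx] at h
  rw [mem_Tt]
  simp only [Finset.mem_singleton, Finset.mem_filter, Finset.mem_univ, true_and] at h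
  exact ⟨h.1, by rw [← hrc, h.2.1, map_zero]⟩

/-- covering number of a class block -/
theorem cov_class (hrc : ∀ y, rc (cls y) = rol y) {Y : V → R → K} {z : V → R → L}
    (hY : ∀ v ρ, rol (Y v ρ) = ρ) (v : V) (y : K) (l : L) :
    cov (bx ({0} : Finset V) (Finset.univ.filter fun η : K => cls η = 0)
      (Finset.univ : Finset L)) (gr Y z) (v, y, l) =
      if cls y = cls (Y v (rol y)) then 1 else 0 := by
  rw [cov_bx rol hY]
  simp only [Finset.sum_singleton, sub_zero, Finset.mem_univ, and_true]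
  rw [Finset.sum_filter]
  by_cases h : cls y = cls (Y v (rol y))
  · rw [if_pos h]
    have hk : rol (y - (y - Y v (rol y))) = rol y := by
      rw [sub_sub_cancel, hY]
    rw [Finset.sum_eq_single (y - Y v (rol y))]
    · have h1 : cls (y - Y v (rol y)) = 0 := by rw [map_sub, h, sub_self]
      rw [if_pos h1, if_pos]
      rw [hk]; abel
    · intro η _ hη
      by_cases h1 : cls η = 0
      · rw [if_pos h1, if_neg]
        intro h2
        apply hη
        have h3 : rol (y - η) = rol y := by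
          rw [map_sub, ← hrc η, h1, map_zero, sub_zero]
        rw [h3] at h2
        rw [← h2]; abel
      · rw [if_neg h1]
    · intro h1; exact absurd (Finset.mem_univ _) h1
  · rw [if_neg h]
    apply Finset.sum_eq_zero
    intro η _
    by_cases h1 : cls η = 0
    · rw [if_pos h1, if_neg]
      intro h2
      apply h
      have h3 : rol (y - η) = rol y := by
        rw [map_sub, ← hrc η, h1, map_zero, sub_zero]
      rw [h3] at h2
      rw [← h2, map_sub, h1, sub_zero]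
    · rw [if_neg h1]

/-- (C3) -/
theorem C3_iff_gen (hrc : ∀ y, rc (cls y) = rol y) {Y : V → R → K} {z : V → R → L}
    (hY : ∀ v ρ, rol (Y v ρ) = ρ) {w : V} (hw : w ≠ 0) (κ : K) :
    IsTilingBy (shiftTile (Tt rol) (bx {0} (Finset.univ.filter fun η : K => cls η = 0) Finset.univ)
      ((w, κ, 0) : V × K × L)) (gr Y z) ↔
      ∀ v ρ, cls (Y (v + w) (ρ + rol κ)) = cls (Y v ρ) + cls κ := by
  have hs : Function.Surjective rol := fun ρ => ⟨Y 0 ρ, hY 0 ρ⟩
  rw [shift_iff ((Tt_iff rol hs).2 ⟨Y, z, hY, rfl⟩) _ (clsker_subset rol cls rc hrc _)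
    (disj_T rol hw (clsker_subset rol cls rc hrc _))]
  constructor
  · intro h v ρ
    have := h (v + w, Y v ρ + κ, 0)
    simp only [Prod.mk_sub_mk, sub_zero, add_sub_cancel_right] at this
    rw [cov_class rol cls rc hrc hY, cov_class rol cls rc hrc hY] at this
    simp only [hY, if_true, map_add] at this
    by_contra hne
    rw [if_neg (fun h => hne h.symm)] at this
    exact absurd this (by norm_num)
  · rintro h ⟨v, y, l⟩
    simp only [Prod.mk_sub_mk, sub_zero]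
    rw [cov_class rol cls rc hrc hY, cov_class rol cls rc hrc hY]
    have := h (v - w) (rol y - rol κ)
    rw [sub_add_cancel, sub_add_cancel] at this
    rw [this, map_sub, map_sub]
    have e : (cls y - cls κ = cls (Y (v - w) (rol y - rol κ))) ↔
        (cls y = cls (Y (v - w) (rol y - rol κ)) + cls κ) := sub_eq_iff_eq_add
    simp only [e]

end C3

section C4

/-- line tile -/
def lineTile (n : ℕ) (w : V) (κ : K) : Finset (V × K × L) :=
  (Finset.range n).biUnion fun k => bx {k • w} {-(k • κ)} Finset.univ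

/-- (C4) -/
theorem C4_iff_gen {Y : V → R → K} {z : V → R → L}
    (hY : ∀ v ρ, rol (Y v ρ) = ρ) {w : V} {n : ℕ} (hw : ∀ i < n, ∀ j < n, i • w = j • w → i = j)
    (κ : K) (hκ : rol κ = 0) :
    IsTilingBy (lineTile n w κ : Finset (V × K × L)) (gr Y z) ↔
      ∀ v y, ∃! k : ℕ, k < n ∧ Y (v - k • w) (rol y) = y + k • κ := by
  classical
  rw [isTilingBy_iff_unique]
  have mem : ∀ v y l, (v, y, l) ∈ (lineTile n w κ : Finset (V × K × L)) ↔
      ∃ k < n, v = k • w ∧ y = -(k • κ) := by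
    intro v y l
    unfold lineTile
    simp only [Finset.mem_biUnion, Finset.mem_range, mem_bx, Finset.mem_singleton,
      Finset.mem_univ, and_true]
  have hr : ∀ (y : K) (k : ℕ), rol (y + k • κ) = rol y := by
    intro y k; rw [map_add, map_nsmul, hκ, smul_zero, add_zero]
  constructor
  · intro h v y
    obtain ⟨⟨u, η, s⟩, ⟨h1, h2⟩, huniq⟩ := h (v, y, 0)
    obtain ⟨k, hk, rfl, rfl⟩ := (mem _ _ _).1 h1
    simp only [Prod.mk_sub_mk, sub_neg_eq_add, zero_sub] at h2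
    rw [mem_gr rol hY, hr] at h2
    refine ⟨k, ⟨hk, h2.1.symm⟩, ?_⟩
    rintro k' ⟨hk', h3⟩
    have := huniq (k' • w, -(k' • κ), - z (v - k' • w) (rol y)) ⟨(mem _ _ _).2 ⟨k', hk', rfl, rfl⟩, by
      simp only [Prod.mk_sub_mk, sub_neg_eq_add, zero_add]
      rw [mem_gr rol hY, hr]
      exact ⟨h3.symm, rfl⟩⟩
    simp only [Prod.mk.injEq] at this
    exact hw _ hk' _ hk this.1
  · rintro h ⟨v, y, l⟩
    obtain ⟨k, ⟨hk, h1⟩, huniq⟩ := h v y
    refine ⟨(k • w, -(k • κ), l - z (v - k • w) (rol y)), ⟨(mem _ _ _).2 ⟨k, hk, rfl, rfl⟩, ?_⟩, ?_⟩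
    · simp only [Prod.mk_sub_mk, sub_neg_eq_add, sub_sub_cancel]
      rw [mem_gr rol hY, hr]
      exact ⟨h1.symm, rfl⟩
    · rintro ⟨u, η, s⟩ ⟨h2, h3⟩
      obtain ⟨k', hk', rfl, rfl⟩ := (mem _ _ _).1 h2
      simp only [Prod.mk_sub_mk, sub_neg_eq_add] at h3
      rw [mem_gr rol hY, hr] at h3
      have := huniq k' ⟨hk', h3.1.symm⟩
      subst this
      simp only [Prod.mk.injEq, true_and]
      rw [← h3.2]; abel

end C4


section C5

variable {Γ : Type} [Fintype Γ] [DecidableEq Γ] {M : Γ → Type} [∀ g, AddCommGroup (M g)]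
  [∀ g, Fintype (M g)] [∀ g, DecidableEq (M g)]

/-- label vectors with prescribed `g`-coordinate -/
def labZ (g : Γ) (c : M g) : Finset (∀ g, M g) := Finset.univ.filter fun l => l g = c

theorem mem_labZ {g : Γ} {c : M g} {l : ∀ g, M g} : l ∈ labZ g c ↔ l g = c := by
  unfold labZ; simp

/-- (C5) -/
theorem C5_iff_gen {Y : V → R → K} {z : V → R → ∀ g, M g} (hY : ∀ v ρ, rol (Y v ρ) = ρ) {u : V}
    (hu : u ≠ 0) (hYu : ∀ v ρ, Y (v + u) ρ = Y v ρ) (g : Γ) :
    IsTilingBy (shiftTile (Tt rol) (bx {0} {0} (labZ g 0)) ((u, 0, 0) : V × K × ∀ g, M g))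
      (gr Y z) ↔ ∀ v ρ, z (v + u) ρ g = z v ρ g := by
  have hs : Function.Surjective rol := fun ρ => ⟨Y 0 ρ, hY 0 ρ⟩
  rw [shift_iff ((Tt_iff rol hs).2 ⟨Y, z, hY, rfl⟩) _ (bx_zero_subset rol _)
    (disj_T rol hu (bx_zero_subset rol _))]
  constructor
  · intro h v ρ
    have := h (v + u, Y v ρ, z v ρ)
    simp only [Prod.mk_sub_mk, sub_zero, add_sub_cancel_right] at this
    rw [cov_single rol hY, cov_single rol hY] at this
    simp only [hY, mem_labZ, Pi.sub_apply, sub_self, true_and, hYu] at this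
    by_contra hne
    rw [if_neg (fun h => hne (sub_eq_zero.1 h).symm)] at this
    exact absurd this (by norm_num)
  · rintro h ⟨v, y, l⟩
    simp only [Prod.mk_sub_mk, sub_zero]
    rw [cov_single rol hY, cov_single rol hY]
    have h1 := hYu (v - u) (rol y)
    have h2 := h (v - u) (rol y)
    rw [sub_add_cancel] at h1 h2
    simp only [mem_labZ, Pi.sub_apply, h1, h2]

/-- (C6) -/
theorem C6_iff_gen {Y : V → R → K} {z : V → R → ∀ g, M g} (hY : ∀ v ρ, rol (Y v ρ) = ρ) {u : V}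
    (hu : u ≠ 0) (hYu : ∀ v ρ, Y (v + u) ρ = Y v ρ) (g : Γ) (d : M g)
    (hd : d ≠ 0) :
    IsTilingBy (swapTile (Tt rol) (bx {0} {0} (labZ g 0)) (0, 0, Pi.single g d)
      ((u, 0, 0) : V × K × ∀ g, M g)) (gr Y z) ↔
      ∀ v ρ, (z (v + u) ρ g = z v ρ g ∧ z (v - u) ρ g = z v ρ g) ∨
        (z (v + u) ρ g = z v ρ g + d ∧ z (v - u) ρ g = z v ρ g - d) := by
  have hs : Function.Surjective rol := fun ρ => ⟨Y 0 ρ, hY 0 ρ⟩
  have hmu : -u ≠ 0 := neg_ne_zero.2 hu
  have htr : tr (0, 0, Pi.single g d) (bx ({0} : Finset V) ({0} : Finset K) (labZ g (0 : M g))) =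
      bx {0} {0} (labZ g d) := by
    ext ⟨v, y, l⟩
    rw [mem_tr_bx, mem_bx]
    simp only [sub_zero, Finset.mem_singleton, mem_labZ, Pi.sub_apply, Pi.single_eq_same,
      sub_eq_zero]
  rw [swap_iff ((Tt_iff rol hs).2 ⟨Y, z, hY, rfl⟩) _ _ (bx_zero_subset rol _)]
  rotate_left
  · rw [htr]; exact bx_zero_subset rol _
  · rw [htr, Finset.disjoint_left]
    rintro ⟨v, y, l⟩ h1 h2
    rw [mem_bx, mem_labZ] at h1 h2
    exact hd (h2.2.2.symm.trans h1.2.2)
  · apply disjoint_of_fst (U := {0}) (U' := {u, -u})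
    · rintro ⟨v, y, l⟩ hx
      have := (Finset.mem_sdiff.1 hx).1
      rw [mem_Tt] at this
      simp [this.1]
    · rintro ⟨v, y, l⟩ hx
      rw [Finset.mem_union, Prod.neg_mk, mem_tr_bx, Prod.mk_add_mk, mem_tr_bx] at hx
      simp only [Finset.mem_singleton, sub_eq_zero, zero_add, sub_neg_eq_add] at hx
      simp only [Finset.mem_insert, Finset.mem_singleton]
      rcases hx with hx | hx
      · right; exact eq_neg_of_add_eq_zero_left hx.1
      · left; exact hx.1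
    · rw [Finset.disjoint_left]
      intro x h1 h2
      simp only [Finset.mem_singleton, Finset.mem_insert] at h1 h2
      subst h1
      rcases h2 with h2 | h2
      · exact hu h2.symm
      · exact hmu h2.symm
  · rw [Finset.disjoint_left]
    rintro ⟨v, y, l⟩ h1 h2
    rw [Prod.neg_mk, mem_tr_bx] at h1
    rw [Prod.mk_add_mk, mem_tr_bx] at h2
    simp only [mem_labZ, Prod.neg_mk, neg_zero, sub_zero, Pi.sub_apply, Prod.mk_add_mk, add_zero,
      Pi.single_eq_same] at h1 h2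
    rw [h1.2.2, zero_sub, neg_eq_zero] at h2
    exact hd h2.2.2
  · have key : ∀ (v : V) (y : K) (l : ∀ g, M g), y = Y v (rol y) →
        ((cov (bx {0} {0} (labZ g 0)) (gr Y z) ((v, y, l) + (u, 0, 0)) +
          cov (bx {0} {0} (labZ g 0)) (gr Y z) ((v, y, l) - ((0, 0, Pi.single g d) + (u, 0, 0))) =
          cov (bx {0} {0} (labZ g 0)) (gr Y z) (v, y, l) +
          cov (bx {0} {0} (labZ g 0)) (gr Y z) ((v, y, l) - (0, 0, Pi.single g d))) ↔
          ((if l g = z (v + u) (rol y) g then 1 else 0) +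
            (if l g - d = z (v - u) (rol y) g then 1 else 0) : ℕ) =
          (if l g = z v (rol y) g then 1 else 0) + (if l g - d = z v (rol y) g then 1 else 0)) := by
      intro v y l hy
      simp only [Prod.mk_sub_mk, Prod.mk_add_mk, add_zero, sub_zero, zero_add]
      rw [cov_single rol hY, cov_single rol hY, cov_single rol hY, cov_single rol hY]
      have h1 := hYu v (rol y)
      have h2 := hYu (v - u) (rol y)
      rw [sub_add_cancel] at h2
      simp only [mem_labZ, Pi.sub_apply, Pi.single_eq_same, sub_eq_zero, h1, ← h2, ← hy, true_and]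
    constructor
    · intro h v ρ
      refine (two_point_iff hd).1 fun m => ?_
      have h1 := h (v, Y v ρ, Function.update (z v ρ) g m)
      have h2 := (key v (Y v ρ) (Function.update (z v ρ) g m) (by rw [hY])).1 h1
      simpa only [hY, Function.update_self] using h2
    · rintro h ⟨v, y, l⟩
      by_cases hy : y = Y v (rol y)
      · rw [key v y l hy]
        exact (two_point_iff hd).2 (h v (rol y)) (l g)
      · simp only [Prod.mk_sub_mk, Prod.mk_add_mk, add_zero, sub_zero, zero_add]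
        rw [cov_single rol hY, cov_single rol hY, cov_single rol hY, cov_single rol hY]
        have h1 := hYu v (rol y)
        have h2 := hYu (v - u) (rol y)
        rw [sub_add_cancel] at h2
        simp only [h1, ← h2, hy, false_and, if_false]

end C5

section X

variable (cls : K →+ Q) (rc : Q →+ R)

/-- the class tile `{0, P, …, (n-1) P} × ker cls × L` -/
def Xt (n : ℕ) (P : V) : Finset (V × K × L) :=
  bx ((Finset.range n).image fun k => k • P) (Finset.univ.filter fun η : K => cls η = 0)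
    Finset.univ

theorem mem_Xt {n : ℕ} {P : V} {v : V} {y : K} {l : L} :
    (v, y, l) ∈ (Xt cls n P : Finset (V × K × L)) ↔ (∃ k < n, v = k • P) ∧ cls y = 0 := by
  unfold Xt
  rw [mem_bx]
  simp only [Finset.mem_image, Finset.mem_range, Finset.mem_filter, Finset.mem_univ, true_and,
    and_true, eq_comm]

/-- (X) -/
theorem Xt_iff_gen (hrc : ∀ y, rc (cls y) = rol y) (hcs : Function.Surjective cls)
    {Y : V → R → K} {z : V → R → L}
    (hY : ∀ v ρ, rol (Y v ρ) = ρ) {P : V} {n : ℕ} (hP : ∀ i < n, ∀ j < n, i • P = j • P → i = j) :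
    IsTilingBy (Xt cls n P : Finset (V × K × L)) (gr Y z) ↔
      ∀ v c, ∃! k : ℕ, k < n ∧ cls (Y (v - k • P) (rc c)) = c := by
  rw [isTilingBy_iff_unique]
  have hr : ∀ y η : K, cls η = 0 → rol (y - η) = rol y := by
    intro y η h; rw [map_sub, ← hrc η, h, map_zero, sub_zero]
  constructor
  · intro h v c
    obtain ⟨y, rfl⟩ := hcs c
    obtain ⟨⟨u, η, s⟩, ⟨h1, h2⟩, huniq⟩ := h (v, y, 0)
    obtain ⟨⟨k, hk, rfl⟩, hη⟩ := (mem_Xt cls).1 h1
    simp only [Prod.mk_sub_mk, zero_sub] at h2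
    rw [mem_gr rol hY, hr _ _ hη] at h2
    refine ⟨k, ⟨hk, ?_⟩, ?_⟩
    · rw [hrc, ← h2.1, map_sub, hη, sub_zero]
    · rintro k' ⟨hk', h3⟩
      rw [hrc] at h3
      have := huniq (k' • P, y - Y (v - k' • P) (rol y), - z (v - k' • P) (rol y))
        ⟨(mem_Xt cls).2 ⟨⟨k', hk', rfl⟩, by rw [map_sub, h3, sub_self]⟩, by
          simp only [Prod.mk_sub_mk, sub_sub_cancel, zero_sub, neg_neg]
          exact ⟨rol y, rfl, rfl⟩⟩
      simp only [Prod.mk.injEq] at this
      exact hP _ hk' _ hk this.1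
  · rintro h ⟨v, y, l⟩
    obtain ⟨k, ⟨hk, h1⟩, huniq⟩ := h v (cls y)
    rw [hrc] at h1
    refine ⟨(k • P, y - Y (v - k • P) (rol y), l - z (v - k • P) (rol y)),
      ⟨(mem_Xt cls).2 ⟨⟨k, hk, rfl⟩, by rw [map_sub, h1, sub_self]⟩, ?_⟩, ?_⟩
    · simp only [Prod.mk_sub_mk, sub_sub_cancel]
      exact ⟨rol y, rfl, rfl⟩
    · rintro ⟨u, η, s⟩ ⟨h2, h3⟩
      obtain ⟨⟨k', hk', rfl⟩, hη⟩ := (mem_Xt cls).1 h2
      simp only [Prod.mk_sub_mk] at h3
      rw [mem_gr rol hY, hr _ _ hη] at h3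
      have := huniq k' ⟨hk', by rw [hrc, ← h3.1, map_sub, hη, sub_zero]⟩
      subst this
      simp only [Prod.mk.injEq, true_and]
      refine ⟨?_, ?_⟩
      · rw [← h3.1]; abel
      · rw [← h3.2]; abel

end X


section D

variable {Γ : Type} [Fintype Γ] [DecidableEq Γ] {M : Γ → Type} [∀ g, AddCommGroup (M g)]
  [∀ g, Fintype (M g)] [∀ g, DecidableEq (M g)]

variable (cls : K →+ Q) (rc : Q →+ R)

/-- `v'` is the base point of the visit of class `c` used by the class tile at `v` -/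
def Vis (Y : V → R → K) (n : ℕ) (P : V) (c : Q) (v v' : V) : Prop :=
  ∃ k < n, v' = v - k • P ∧ cls (Y v' (rc c)) = c

/-- the block of the class tile with digit `0` and `g`-label `0` -/
def X0 (n : ℕ) (P : V) (g : Γ) : Finset (V × K × ∀ g, M g) :=
  bx ((Finset.range n).image fun k => k • P) {0} (labZ g 0)

theorem mem_X0 {n : ℕ} {P : V} {g : Γ} {v : V} {y : K} {l : ∀ g, M g} :
    (v, y, l) ∈ (X0 n P g : Finset (V × K × ∀ g, M g)) ↔ (∃ k < n, v = k • P) ∧ y = 0 ∧ l g = 0 := by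
  unfold X0
  rw [mem_bx, mem_labZ]
  simp only [Finset.mem_image, Finset.mem_range, Finset.mem_singleton, eq_comm]

theorem cov_X0 (hrc : ∀ y, rc (cls y) = rol y) {Y : V → R → K} {z : V → R → ∀ g, M g}
    (hY : ∀ v ρ, rol (Y v ρ) = ρ) {P : V} {n : ℕ} (hP : ∀ i < n, ∀ j < n, i • P = j • P → i = j)
    (hX : ∀ v c, ∃! k : ℕ, k < n ∧ cls (Y (v - k • P) (rc c)) = c) (g : Γ)
    (v : V) (y : K) (l : ∀ g, M g) {v' : V} (hv : Vis cls rc Y n P (cls y) v v') :
    cov (X0 n P g) (gr Y z) (v, y, l) =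
      if (y, l g) = (Y v' (rc (cls y)), z v' (rc (cls y)) g) then 1 else 0 := by
  unfold X0
  rw [cov_bx rol hY, Finset.sum_image (fun i hi j hj h => hP i (Finset.mem_range.1 hi) j
    (Finset.mem_range.1 hj) h)]
  simp only [Finset.sum_singleton, sub_zero]
  obtain ⟨k, hk, rfl, hc⟩ := hv
  rw [Finset.sum_eq_single_of_mem k (Finset.mem_range.2 hk)]
  · simp only [mem_labZ, Pi.sub_apply, sub_eq_zero, hrc, Prod.mk.injEq]
  · intro j hj hjk
    rw [if_neg]
    rintro ⟨h1, -⟩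
    apply hjk
    obtain ⟨k0, -, huniq⟩ := hX v (cls y)
    rw [huniq k ⟨hk, hc⟩]
    refine huniq j ⟨Finset.mem_range.1 hj, ?_⟩
    rw [hrc, ← h1]

/-- (D) the swap tiles on the class tile -/
theorem D_iff_gen (hrc : ∀ y, rc (cls y) = rol y) (hcs : Function.Surjective cls)
    {Y : V → R → K} {z : V → R → ∀ g, M g}
    (hY : ∀ v ρ, rol (Y v ρ) = ρ) {P : V} {n : ℕ} (hP : ∀ i < n, ∀ j < n, i • P = j • P → i = j)
    (hX : ∀ v c, ∃! k : ℕ, k < n ∧ cls (Y (v - k • P) (rc c)) = c) (g : Γ)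
    {ε : K} (hε : ε ≠ 0) (hcε : cls ε = 0) (d : ∀ g, M g) {u : V}
    (hu : ∀ i < n, ∀ j < n, i • P + u ≠ j • P) :
    IsTilingBy (swapTile (Xt cls n P) (X0 n P g) (0, ε, d) ((u, 0, 0) : V × K × ∀ g, M g))
      (gr Y z) ↔
      ∀ c v v0 v1 v2, Vis cls rc Y n P c v v0 → Vis cls rc Y n P c (v + u) v1 →
        Vis cls rc Y n P c (v - u) v2 →
        ((Y v1 (rc c) = Y v0 (rc c) ∧ z v1 (rc c) g = z v0 (rc c) g) ∧
          (Y v2 (rc c) = Y v0 (rc c) ∧ z v2 (rc c) g = z v0 (rc c) g)) ∨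
        ((Y v1 (rc c) = Y v0 (rc c) + ε ∧ z v1 (rc c) g = z v0 (rc c) g + d g) ∧
          (Y v2 (rc c) = Y v0 (rc c) - ε ∧ z v2 (rc c) g = z v0 (rc c) g - d g)) := by
  have hE : IsTilingBy (Xt cls n P : Finset (V × K × ∀ g, M g)) (gr Y z) :=
    (Xt_iff_gen rol cls rc hrc hcs hY hP).2 hX
  have h0 : (X0 n P g : Finset (V × K × ∀ g, M g)) ⊆ Xt cls n P := by
    rintro ⟨v, y, l⟩ h
    rw [mem_X0] at h
    rw [mem_Xt]
    exact ⟨h.1, by rw [h.2.1, map_zero]⟩
  have hm : ∀ {v y l}, (v, y, l) ∈ tr (0, ε, d) (X0 n P g : Finset (V × K × ∀ g, M g)) ↔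
      (∃ k < n, v = k • P) ∧ y = ε ∧ l g = d g := by
    intro v y l
    rw [mem_tr]
    simp only [Prod.mk_sub_mk, sub_zero]
    rw [mem_X0]
    simp only [sub_eq_zero, Pi.sub_apply]
  have h1 : tr (0, ε, d) (X0 n P g : Finset (V × K × ∀ g, M g)) ⊆ Xt cls n P := by
    rintro ⟨v, y, l⟩ h
    rw [hm] at h
    rw [mem_Xt]
    exact ⟨h.1, by rw [h.2.1, hcε]⟩
  have h01 : Disjoint (X0 n P g : Finset (V × K × ∀ g, M g)) (tr (0, ε, d) (X0 n P g)) := by
    rw [Finset.disjoint_left]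
    rintro ⟨v, y, l⟩ h2 h3
    rw [mem_X0] at h2
    rw [hm] at h3
    exact hε (h3.2.1.symm.trans h2.2.1)
  have hd : Disjoint ((Xt cls n P : Finset (V × K × ∀ g, M g)) \
      (X0 n P g ∪ tr (0, ε, d) (X0 n P g)))
      (tr (-(u, 0, 0)) (X0 n P g) ∪ tr ((0, ε, d) + (u, 0, 0)) (X0 n P g)) := by
    rw [Finset.disjoint_left]
    rintro ⟨v, y, l⟩ h2 h3
    have h4 := (Finset.mem_sdiff.1 h2).1
    rw [mem_Xt] at h4
    obtain ⟨⟨j, hj, rfl⟩, -⟩ := h4
    rw [Finset.mem_union, mem_tr, mem_tr] at h3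
    simp only [Prod.neg_mk, Prod.mk_sub_mk, Prod.mk_add_mk, sub_neg_eq_add, zero_add] at h3
    rcases h3 with h3 | h3
    · rw [mem_X0] at h3
      obtain ⟨⟨k, hk, hk'⟩, -⟩ := h3
      exact hu j hj k hk hk'
    · rw [mem_X0] at h3
      obtain ⟨⟨k, hk, hk'⟩, -⟩ := h3
      exact hu k hk j hj (by rw [← hk']; abel)
  have hd' : Disjoint (tr (-(u, 0, 0)) (X0 n P g : Finset (V × K × ∀ g, M g)))
      (tr ((0, ε, d) + (u, 0, 0)) (X0 n P g)) := by
    rw [Finset.disjoint_left]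
    rintro ⟨v, y, l⟩ h2 h3
    rw [mem_tr] at h2 h3
    simp only [Prod.neg_mk, Prod.mk_sub_mk, Prod.mk_add_mk, add_zero, neg_zero, sub_zero] at h2 h3
    rw [mem_X0] at h2 h3
    rw [h2.2.1, zero_sub, neg_eq_zero] at h3
    exact hε h3.2.1
  rw [swap_iff hE _ _ h0 h1 h01 hd hd']
  -- existence of visits
  have hex : ∀ c v, ∃ v', Vis cls rc Y n P c v v' := by
    intro c v
    obtain ⟨k, ⟨hk, h⟩, -⟩ := hX v c
    exact ⟨v - k • P, k, hk, rfl, h⟩
  have hcl : ∀ {c v v'}, Vis cls rc Y n P c v v' → cls (Y v' (rc c)) = c := by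
    rintro c v v' ⟨k, -, -, h⟩; exact h
  have key : ∀ (v : V) (y : K) (l : ∀ g, M g) (v0 v1 v2 : V), Vis cls rc Y n P (cls y) v v0 →
      Vis cls rc Y n P (cls y) (v + u) v1 → Vis cls rc Y n P (cls y) (v - u) v2 →
        ((cov (X0 n P g) (gr Y z) ((v, y, l) + (u, 0, 0)) +
          cov (X0 n P g) (gr Y z) ((v, y, l) - ((0, ε, d) + (u, 0, 0))) =
          cov (X0 n P g) (gr Y z) (v, y, l) +
          cov (X0 n P g) (gr Y z) ((v, y, l) - (0, ε, d))) ↔
          ((if (y, l g) = (Y v1 (rc (cls y)), z v1 (rc (cls y)) g) then 1 else 0) +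
            (if (y, l g) - (ε, d g) = (Y v2 (rc (cls y)), z v2 (rc (cls y)) g) then 1 else 0) : ℕ) =
          (if (y, l g) = (Y v0 (rc (cls y)), z v0 (rc (cls y)) g) then 1 else 0) +
            (if (y, l g) - (ε, d g) = (Y v0 (rc (cls y)), z v0 (rc (cls y)) g) then 1 else 0)) := by
    intro v y l v0 v1 v2 hv0 hv1 hv2
    have hce : cls (y - ε) = cls y := by rw [map_sub, hcε, sub_zero]
    simp only [Prod.mk_sub_mk, Prod.mk_add_mk, add_zero, sub_zero, zero_add]
    rw [cov_X0 rol cls rc hrc hY hP hX g (v + u) y l hv1,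
      cov_X0 rol cls rc hrc hY hP hX g (v - u) (y - ε) (l - d) (by rw [hce]; exact hv2),
      cov_X0 rol cls rc hrc hY hP hX g v y l hv0,
      cov_X0 rol cls rc hrc hY hP hX g v (y - ε) (l - d) (by rw [hce]; exact hv0)]
    simp only [hce, Pi.sub_apply]
  have hne : ((ε, d g) : K × M g) ≠ 0 := by
    intro h; exact hε (congrArg Prod.fst h)
  constructor
  · intro h c v v0 v1 v2 hv0 hv1 hv2
    have h2 := (two_point_iff (a := (Y v0 (rc c), z v0 (rc c) g))
      (a1 := (Y v1 (rc c), z v1 (rc c) g)) (a2 := (Y v2 (rc c), z v2 (rc c) g)) hne).1 ?_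
    · simpa only [Prod.mk.injEq, Prod.mk_add_mk, Prod.mk_sub_mk] using h2
    · rintro ⟨y, m⟩
      by_cases hy : cls y = c
      · subst hy
        have h3 := (key v y (Function.update 0 g m) v0 v1 v2 hv0 hv1 hv2).1 (h _)
        simpa only [Function.update_self] using h3
      · have e0 : ∀ {v v' : V} {q}, Vis cls rc Y n P c v v' → ¬ (y, m) = (Y v' (rc c), q) := by
          intro v v' q hv h3
          apply hy
          rw [(Prod.mk.inj h3).1]
          exact hcl hv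
        have e1 : ∀ {v v' : V} {q}, Vis cls rc Y n P c v v' →
            ¬ (y, m) - (ε, d g) = (Y v' (rc c), q) := by
          intro v v' q hv h3
          apply hy
          rw [Prod.mk_sub_mk] at h3
          have := congrArg cls (Prod.mk.inj h3).1
          rw [map_sub, hcε, sub_zero] at this
          rw [this]
          exact hcl hv
        rw [if_neg (e0 hv1), if_neg (e1 hv2), if_neg (e0 hv0), if_neg (e1 hv0)]
  · rintro h ⟨v, y, l⟩
    obtain ⟨v0, hv0⟩ := hex (cls y) v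
    obtain ⟨v1, hv1⟩ := hex (cls y) (v + u)
    obtain ⟨v2, hv2⟩ := hex (cls y) (v - u)
    rw [key v y l v0 v1 v2 hv0 hv1 hv2]
    have h2 := h (cls y) v v0 v1 v2 hv0 hv1 hv2
    exact (two_point_iff (a := (Y v0 (rc (cls y)), z v0 (rc (cls y)) g))
      (a1 := (Y v1 (rc (cls y)), z v1 (rc (cls y)) g))
      (a2 := (Y v2 (rc (cls y)), z v2 (rc (cls y)) g)) hne).2
      (by simpa only [Prod.mk.injEq, Prod.mk_add_mk, Prod.mk_sub_mk] using h2) (y, l g)

end D

end comp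


section concrete

open Crest.Agent.R046.Comp

variable {p : ℕ} [NeZero p] {Γ : Type} [Fintype Γ] [DecidableEq Γ] {r : Γ → ℕ}
  [∀ g, NeZero (r g)]

variable (p r)

/-- the tile `T` -/
def tT : Finset ((ℤ × ℤ) × (ZMod (p ^ 3) × ∀ g, ZMod (r g))) :=
  Tt (r31 p : ZMod (p ^ 3) →+ ZMod p)

/-- (C2) positions are `u`-periodic -/
def tC2 (u : ℤ × ℤ) : Finset ((ℤ × ℤ) × (ZMod (p ^ 3) × ∀ g, ZMod (r g))) :=
  shiftTile (tT p r) (bx {0} {0} Finset.univ) (u, 0, 0)

/-- (C3) window -/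
def tC3 (w : ℤ × ℤ) : Finset ((ℤ × ℤ) × (ZMod (p ^ 3) × ∀ g, ZMod (r g))) :=
  shiftTile (tT p r) (bx {0} (Finset.univ.filter fun η : ZMod (p ^ 3) =>
    (r32 p : ZMod (p ^ 3) →+ ZMod (p ^ 2)) η = 0) Finset.univ) (w, 1, 0)

/-- (C4) line tile -/
def tC4 (w : ℤ × ℤ) : Finset ((ℤ × ℤ) × (ZMod (p ^ 3) × ∀ g, ZMod (r g))) :=
  lineTile (p ^ 2) w (p : ZMod (p ^ 3))

/-- (C5) label `g` is `u`-periodic -/
def tC5 (g : Γ) (u : ℤ × ℤ) : Finset ((ℤ × ℤ) × (ZMod (p ^ 3) × ∀ g, ZMod (r g))) :=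
  shiftTile (tT p r) (bx {0} {0} (labZ g 0)) (u, 0, 0)

/-- (C6) label `g` is affine with slope `0` or `1` along `u` -/
def tC6 (g : Γ) (u : ℤ × ℤ) : Finset ((ℤ × ℤ) × (ZMod (p ^ 3) × ∀ g, ZMod (r g))) :=
  swapTile (tT p r) (bx {0} {0} (labZ g 0)) (0, 0, Pi.single g 1) (u, 0, 0)

/-- class tile -/
def tX (P : ℤ × ℤ) : Finset ((ℤ × ℤ) × (ZMod (p ^ 3) × ∀ g, ZMod (r g))) :=
  Xt (r32 p : ZMod (p ^ 3) →+ ZMod (p ^ 2)) p P

/-- (D2), (D3) swap tiles in the class tile -/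
def tD (g : Γ) (δ : ZMod (r g)) (P u : ℤ × ℤ) :
    Finset ((ℤ × ℤ) × (ZMod (p ^ 3) × ∀ g, ZMod (r g))) :=
  swapTile (tX p r P) (X0 p P g) (0, (p : ZMod (p ^ 3)) ^ 2, Pi.single g δ) (u, 0, 0)

/-- visit of the class `c` near `v` -/
def Visit {p : ℕ} (Y : ℤ × ℤ → ZMod p → ZMod (p ^ 3)) (P : ℤ × ℤ) (c : ZMod (p ^ 2))
    (v v' : ℤ × ℤ) : Prop :=
  ∃ k : ℕ, k < p ∧ v' = v - k • P ∧ r32 p (Y v' (r21 p c)) = c

variable {p r}

theorem hrc_aux (y : ZMod (p ^ 3)) : (r21 p : ZMod (p ^ 2) →+ ZMod p)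
    ((r32 p : ZMod (p ^ 3) →+ ZMod (p ^ 2)) y) = (r31 p : ZMod (p ^ 3) →+ ZMod p) y :=
  r21_r32 p y

theorem r32_surj : Function.Surjective (r32 p : ZMod (p ^ 3) →+ ZMod (p ^ 2)) := by
  intro x
  obtain ⟨n, rfl⟩ := ZMod.intCast_surjective x
  exact ⟨n, map_intCast (r32 p) n⟩

theorem r31_surj : Function.Surjective (r31 p : ZMod (p ^ 3) →+ ZMod p) := by
  intro x
  obtain ⟨n, rfl⟩ := ZMod.intCast_surjective x
  exact ⟨n, map_intCast (r31 p) n⟩

theorem nsmul_inj' {w : ℤ × ℤ} (hw : w ≠ 0) {i j : ℕ} (h : i • w = j • w) : i = j := by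
  have h1 : (((i : ℤ) - j) : ℤ) • w = 0 := by
    rw [sub_smul, natCast_zsmul, natCast_zsmul, h, sub_self]
  rcases smul_eq_zero.1 h1 with h2 | h2
  · exact_mod_cast sub_eq_zero.1 h2
  · exact absurd h2 hw

/-- (C1) -/
theorem tT_iff {A : Set ((ℤ × ℤ) × (ZMod (p ^ 3) × ∀ g, ZMod (r g)))} :
    IsTilingBy (tT p r) A ↔ ∃ (Y : ℤ × ℤ → ZMod p → ZMod (p ^ 3))
      (z : ℤ × ℤ → ZMod p → ∀ g, ZMod (r g)), (∀ v ρ, r31 p (Y v ρ) = ρ) ∧ A = gr Y z :=
  Tt_iff _ r31_surj

section graph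

variable {Y : ℤ × ℤ → ZMod p → ZMod (p ^ 3)} {z : ℤ × ℤ → ZMod p → ∀ g, ZMod (r g)}
  (hY : ∀ v ρ, r31 p (Y v ρ) = ρ)

include hY


theorem tC2_iff {u : ℤ × ℤ} (hu : u ≠ 0) :
    IsTilingBy (tC2 p r u) (gr Y z) ↔ ∀ v ρ, Y (v + u) ρ = Y v ρ :=
  C2_iff_gen (r31 p : ZMod (p ^ 3) →+ ZMod p) hY hu

theorem tC3_iff {w : ℤ × ℤ} (hw : w ≠ 0) :
    IsTilingBy (tC3 p r w) (gr Y z) ↔ ∀ v ρ, r32 p (Y (v + w) (ρ + 1)) = r32 p (Y v ρ) + 1 := by
  have h := C3_iff_gen (z := z) (r31 p : ZMod (p ^ 3) →+ ZMod p)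
    (r32 p : ZMod (p ^ 3) →+ ZMod (p ^ 2)) (r21 p : ZMod (p ^ 2) →+ ZMod p) hrc_aux hY hw 1
  have e1 : (r31 p : ZMod (p ^ 3) →+ ZMod p) 1 = 1 := map_one (r31 p)
  have e2 : (r32 p : ZMod (p ^ 3) →+ ZMod (p ^ 2)) 1 = 1 := map_one (r32 p)
  rw [e1, e2] at h
  exact h

theorem tC4_iff {w : ℤ × ℤ} (hw : w ≠ 0) :
    IsTilingBy (tC4 p r w) (gr Y z) ↔
      ∀ v y, ∃! k : ℕ, k < p ^ 2 ∧ Y (v - k • w) (r31 p y) = y + (p : ZMod (p ^ 3)) * k := by
  have h := C4_iff_gen (L := ∀ g, ZMod (r g)) (z := z) (r31 p : ZMod (p ^ 3) →+ ZMod p) hY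
    (w := w) (n := p ^ 2) (fun i _ j _ h => nsmul_inj' hw h) (p : ZMod (p ^ 3))
    ((map_natCast (r31 p) p).trans (ZMod.natCast_self p))
  simp only [nsmul_eq_mul, mul_comm] at h ⊢
  exact h

theorem tC5_iff {u : ℤ × ℤ} (hu : u ≠ 0) (hYu : ∀ v ρ, Y (v + u) ρ = Y v ρ) (g : Γ) :
    IsTilingBy (tC5 p r g u) (gr Y z) ↔ ∀ v ρ, z (v + u) ρ g = z v ρ g :=
  C5_iff_gen (r31 p : ZMod (p ^ 3) →+ ZMod p) hY hu hYu g

theorem tC6_iff {u : ℤ × ℤ} (hu : u ≠ 0) (hYu : ∀ v ρ, Y (v + u) ρ = Y v ρ) (g : Γ)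
    (hg : 2 ≤ r g) :
    IsTilingBy (tC6 p r g u) (gr Y z) ↔
      ∀ v ρ, (z (v + u) ρ g = z v ρ g ∧ z (v - u) ρ g = z v ρ g) ∨
        (z (v + u) ρ g = z v ρ g + 1 ∧ z (v - u) ρ g = z v ρ g - 1) := by
  have h1 : (1 : ZMod (r g)) ≠ 0 := by
    have : Fact (1 < r g) := ⟨hg⟩
    exact one_ne_zero
  exact C6_iff_gen (r31 p : ZMod (p ^ 3) →+ ZMod p) hY hu hYu g 1 h1

theorem tX_iff {P : ℤ × ℤ} (hP : P ≠ 0) :
    IsTilingBy (tX p r P) (gr Y z) ↔
      ∀ v c, ∃! k : ℕ, k < p ∧ r32 p (Y (v - k • P) (r21 p c)) = c :=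
  Xt_iff_gen (r31 p : ZMod (p ^ 3) →+ ZMod p) (r32 p : ZMod (p ^ 3) →+ ZMod (p ^ 2))
    (r21 p : ZMod (p ^ 2) →+ ZMod p) hrc_aux r32_surj hY (fun _ _ _ _ h => nsmul_inj' hP h)

theorem tD_iff (hp : 2 ≤ p) {P u : ℤ × ℤ} (hP : P ≠ 0)
    (hu : ∀ i j : ℕ, i < p → j < p → i • P + u ≠ j • P)
    (hX : ∀ v c, ∃! k : ℕ, k < p ∧ r32 p (Y (v - k • P) (r21 p c)) = c) (g : Γ) (δ : ZMod (r g)) :
    IsTilingBy (tD p r g δ P u) (gr Y z) ↔
      ∀ c v v0 v1 v2, Visit Y P c v v0 → Visit Y P c (v + u) v1 → Visit Y P c (v - u) v2 →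
        ((Y v1 (r21 p c), z v1 (r21 p c) g) = (Y v0 (r21 p c), z v0 (r21 p c) g) ∧
          (Y v2 (r21 p c), z v2 (r21 p c) g) = (Y v0 (r21 p c), z v0 (r21 p c) g)) ∨
        ((Y v1 (r21 p c), z v1 (r21 p c) g) =
            (Y v0 (r21 p c), z v0 (r21 p c) g) + ((p : ZMod (p ^ 3)) ^ 2, δ) ∧
          (Y v2 (r21 p c), z v2 (r21 p c) g) =
            (Y v0 (r21 p c), z v0 (r21 p c) g) - ((p : ZMod (p ^ 3)) ^ 2, δ)) := by
  have hε : (p : ZMod (p ^ 3)) ^ 2 ≠ 0 := by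
    have : ((p ^ 2 : ℕ) : ZMod (p ^ 3)) ≠ 0 := by
      rw [Ne, ZMod.natCast_eq_zero_iff]
      intro h
      have h1 := Nat.le_of_dvd (by positivity) h
      have h2 : p ^ 2 < p ^ 3 := Nat.pow_lt_pow_right (by omega) (by norm_num)
      omega
    simpa using this
  have hcε : (r32 p : ZMod (p ^ 3) →+ ZMod (p ^ 2)) ((p : ZMod (p ^ 3)) ^ 2) = 0 := by
    show r32 p ((p : ZMod (p ^ 3)) ^ 2) = 0
    rw [map_pow, map_natCast]
    have := ZMod.natCast_self (p ^ 2)
    rw [Nat.cast_pow] at this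
    exact this
  have h := D_iff_gen (z := z) (r31 p : ZMod (p ^ 3) →+ ZMod p)
    (r32 p : ZMod (p ^ 3) →+ ZMod (p ^ 2))
    (r21 p : ZMod (p ^ 2) →+ ZMod p) hrc_aux r32_surj hY (P := P) (n := p)
    (fun _ _ _ _ h => nsmul_inj' hP h) hX g hε hcε (Pi.single g δ) (u := u)
    (fun i hi j hj => hu i j hi hj)
  unfold tD tX
  rw [h]
  simp only [Prod.mk.injEq, Prod.mk_add_mk, Prod.mk_sub_mk, Pi.single_eq_same]
  rfl

end graph

end concrete

end Crest.Agent.R046.Tiles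
end

-- ▼ part R046/Nums
section


/-!
Row 46: the integers with prescribed residues used in the tiles of a component.
-/

set_option autoImplicit false

namespace Crest.Agent.R046.CompSys

variable (p : ℕ) {Γ : Type} (r : Γ → ℕ)

/-- integers with prescribed residues -/
structure Nums where
  /-- `1` modulo `p^2`, `0` modulo the labels -/
  N1 : ℤ
  /-- `p` modulo `p^2`, `0` modulo the labels -/
  Np : ℤ
  /-- `0` modulo `p^2`, `1` modulo `r a`, `0` modulo the other labels -/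
  N : Γ → ℤ
  h1 : (N1 : ZMod (p ^ 2)) = 1
  h1r : ∀ a, (N1 : ZMod (r a)) = 0
  hp : (Np : ZMod (p ^ 2)) = p
  hpr : ∀ a, (Np : ZMod (r a)) = 0
  hN : ∀ a, (N a : ZMod (p ^ 2)) = 0
  hNa : ∀ a, (N a : ZMod (r a)) = 1
  hNb : ∀ a b, b ≠ a → (N b : ZMod (r a)) = 0

theorem exists_residues [Fintype Γ] [DecidableEq Γ] (hpr : ∀ a, Nat.Coprime p (r a))
    (hrr : ∀ a b, a ≠ b → Nat.Coprime (r a) (r b)) (x : ZMod (p ^ 2)) (y : ∀ a, ZMod (r a)) :
    ∃ n : ℤ, (n : ZMod (p ^ 2)) = x ∧ ∀ a, (n : ZMod (r a)) = y a := by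
  let m : Option Γ → ℕ := fun o => o.elim (p ^ 2) r
  have hm : Pairwise (Function.onFun Nat.Coprime m) := by
    intro a b hab
    rcases a with _ | a <;> rcases b with _ | b
    · exact absurd rfl hab
    · exact Nat.Coprime.pow_left 2 (hpr b)
    · exact (Nat.Coprime.pow_left 2 (hpr a)).symm
    · exact hrr a b (fun h => hab (by rw [h]))
  let tgt : ∀ o, ZMod (m o) := fun o => match o with
    | none => x
    | some a => y a
  obtain ⟨n, hn⟩ := ZMod.intCast_surjective ((ZMod.prodEquivPi m hm).symm tgt)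
  have h : ∀ o, (n : ZMod (m o)) = tgt o := by
    intro o
    have h1 : (ZMod.prodEquivPi m hm) (n : ZMod (∏ i, m i)) = tgt := by
      rw [hn]; simp
    have h2 := congrFun h1 o
    rw [map_intCast] at h2
    simpa using h2
  exact ⟨n, h none, fun a => h (some a)⟩

theorem exists_nums [Fintype Γ] [DecidableEq Γ] (hpr : ∀ a, Nat.Coprime p (r a))
    (hrr : ∀ a b, a ≠ b → Nat.Coprime (r a) (r b)) : Nonempty (Nums p r) := by
  obtain ⟨N1, h1, h1r⟩ := exists_residues p r hpr hrr 1 0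
  obtain ⟨Np, hp, hpr'⟩ := exists_residues p r hpr hrr p 0
  choose N hN hNr using fun a => exists_residues p r hpr hrr 0 (Pi.single a 1)
  exact ⟨⟨N1, Np, N, h1, h1r, hp, hpr', hN, fun a => by rw [hNr]; simp,
    fun a b hb => by rw [hNr]; exact Pi.single_eq_of_ne (Ne.symm hb) _⟩⟩

end Crest.Agent.R046.CompSys
end

-- ▼ part R046/SliceSol
section

set_option autoImplicit false

/-! Row 46: the slice form of a solution of the component system (labels `Option S`, direction `w`,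
transversal `e`). -/

namespace Crest.Agent.R046.CompSys

open Crest.Agent.R046.Comp

variable {p : ℕ} {S : Type} {r : Option S → ℕ}

/-- slice statements of all tiles of a component -/
structure SliceSol (n : Nums p r) (w e : ℤ × ℤ) (rigid : Prop)
    (Y : ℤ × ℤ → ZMod p → ZMod (p ^ 3)) (z : ℤ × ℤ → ZMod p → ∀ a, ZMod (r a)) : Prop where
  /-- role, per, step, c4, c5, d2, d3 for the base label -/
  base : Base2 p (r none) w n.N1 n.Np (n.N none) Y (fun v ρ => z v ρ none)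
  /-- positions do not depend on the line -/
  rig : rigid → ∀ v ρ, Y (v + e) ρ = Y v ρ
  /-- (X) -/
  cX : ∀ v c, ∃! k : ℕ, k < p ∧ r32 p (Y (v - k • (n.Np • w)) (r21 p c)) = c
  /-- (C5) -/
  c5 : ∀ a v ρ, z (v + ((p : ℤ) ^ 2 * r a) • w) ρ a = z v ρ a
  /-- (C6) -/
  c6 : ∀ (s : S) v ρ,
    (z (v + n.N (some s) • w) ρ (some s) = z v ρ (some s) ∧
      z (v - n.N (some s) • w) ρ (some s) = z v ρ (some s)) ∨
    (z (v + n.N (some s) • w) ρ (some s) = z v ρ (some s) + 1 ∧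
      z (v - n.N (some s) • w) ρ (some s) = z v ρ (some s) - 1)
  /-- (C9a) slope of the base label `1`, or slope of the label `s` equal to `0` -/
  c9a : ∀ (s : S) v ρ, z (v - n.N none • w) ρ none + 1 = z v ρ none ∨
    z (v - n.N (some s) • w) ρ (some s) = z v ρ (some s)
  /-- (C9b) slope of the base label `0`, or the slope of some label equal to `1` -/
  c9b : ∀ v ρ, z (v - n.N none • w) ρ none = z v ρ none ∨
    ∃ s : S, z (v - n.N (some s) • w) ρ (some s) + 1 = z v ρ (some s)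

end Crest.Agent.R046.CompSys
end

-- ▼ part R046/CompForced
section

/-!
Row 46: forced side of a component, in general geometry: `w` is the direction of the lines, `e` a
transversal direction, `l v` the line of the point `v`, `t v` its position on the line.
-/

set_option autoImplicit false

namespace Crest.Agent.R046.Comp

open Finset

variable {p : ℕ} {S : Type} [Fintype S] [DecidableEq S]

/-- forced side on a family of lines with common positions. -/
theorem forced_lines {L : Type} [Nonempty L] (hp : 2 ≤ p) {r : Option S → ℕ}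
    (hr : ∀ a, 2 ≤ r a) (hpr : ∀ a, Nat.Coprime p (r a)) {w : ℤ × ℤ} {N1 Np : ℤ}
    {N : Option S → ℤ}
    (hNp : (Np : ZMod (p ^ 2)) = p) (hNp0 : (Np : ZMod (r none)) = 0)
    (hN1 : (N1 : ZMod (p ^ 2)) = 1) (hN10 : (N1 : ZMod (r none)) = 0)
    (hN : ∀ a, (N a : ZMod (p ^ 2)) = 0) (hNa : ∀ a, (N a : ZMod (r a)) = 1)
    {Y : ℤ × ℤ → ZMod p → ZMod (p ^ 3)} {z : ℤ × ℤ → ZMod p → ∀ a, ZMod (r a)}
    (base : Base2 p (r none) w N1 Np (N none) Y (fun v ρ => z v ρ none))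
    (h5 : ∀ a v ρ, z (v + ((p : ℤ) ^ 2 * r a) • w) ρ a = z v ρ a)
    (h6 : ∀ s v ρ, (z (v + N (some s) • w) ρ (some s) = z v ρ (some s) ∧
        z (v - N (some s) • w) ρ (some s) = z v ρ (some s)) ∨
      (z (v + N (some s) • w) ρ (some s) = z v ρ (some s) + 1 ∧
        z (v - N (some s) • w) ρ (some s) = z v ρ (some s) - 1))
    (c9a : ∀ s v ρ, z (v - N none • w) ρ none + 1 = z v ρ none ∨
      z (v - N (some s) • w) ρ (some s) = z v ρ (some s))
    (c9b : ∀ v ρ, z (v - N none • w) ρ none = z v ρ none ∨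
      ∃ s, z (v - N (some s) • w) ρ (some s) + 1 = z v ρ (some s))
    (f : L → ℤ × ℤ) (Yc : ℤ → ZMod p → ZMod (p ^ 3))
    (hf : ∀ l t ρ, Y (f l + t • w) ρ = Yc t ρ) :
    ∃ T : ZMod (p ^ 2), ∀ l : L, ∃ (s : S) (h : ZMod (r (some s))), ∀ t : ℤ,
      (t : ZMod (p ^ 2)) = T → (t : ZMod (r (some s))) ≠ h →
        ∃ ρ ρ', z (f l + t • w) ρ (some s) ≠ z (f l + t • w) ρ' (some s) := by
  have hne : NeZero p := ⟨by omega⟩
  have hf0 : Fact (1 < r none) := ⟨hr none⟩
  have hb := base.baseSol f Yc hf (hpr none) hNp hNp0 hN1 hN10 (hN none) (hNa none)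
  obtain ⟨l0⟩ := ‹Nonempty L›
  -- backward and forward slopes of the base label agree
  have hsl : ∀ (l : L) (t : ℤ) (ρ : ZMod p),
      (z (f l + (t - N none) • w) ρ none + 1 = z (f l + t • w) ρ none →
        z (f l + (t + N none) • w) ρ none = z (f l + t • w) ρ none + 1) ∧
      (z (f l + (t - N none) • w) ρ none = z (f l + t • w) ρ none →
        z (f l + (t + N none) • w) ρ none = z (f l + t • w) ρ none) := by
    intro l t ρ
    have e1 : ((t - N none : ℤ) : ZMod (p ^ 2)) = (t : ZMod (p ^ 2)) := by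
      push_cast; rw [hN, sub_zero]
    have s1 := hb.slope hp (hpr none) l (t - N none) ρ
    have s2 := hb.slope hp (hpr none) l t ρ
    rw [e1, sub_add_cancel] at s1
    constructor
    · intro h
      rcases s2 with ⟨_, b⟩ | ⟨a, _⟩
      · exact b
      · exfalso
        rcases s1 with ⟨a', _⟩ | ⟨_, b'⟩
        · omega
        · rw [b'] at h
          exact one_ne_zero (α := ZMod (r none)) (by simpa using h)
    · intro h
      rcases s2 with ⟨a, _⟩ | ⟨_, b⟩
      · exfalso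
        rcases s1 with ⟨_, b'⟩ | ⟨a', _⟩
        · rw [b'] at h
          exact one_ne_zero (α := ZMod (r none)) (by simpa using h)
        · omega
      · exact b
  have hsh : ∀ (l : L) (t n : ℤ), f l + t • w + n • w = f l + (t + n) • w := by
    intro l t n; rw [add_smul, add_assoc]
  have hsh' : ∀ (l : L) (t n : ℤ), f l + t • w - n • w = f l + (t - n) • w := by
    intro l t n; rw [sub_smul, add_sub_assoc]
  obtain ⟨T, hT⟩ := forced_digit (L := L) (ι := Option S) (r := r) (N := N) none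
    (Finset.univ.image some) hp (hr none) (fun a _ => hr a) (hpr none) (fun a _ => hpr a)
    (hN none) (fun a _ => hN a) (fun a _ => hNa a) (Y := Yc)
    (z := fun l t ρ a => z (f l + t • w) ρ a) hb
    (by
      intro a _ l t ρ
      rw [← hsh, h5])
    (by
      intro a ha l t ρ
      obtain ⟨s, -, rfl⟩ := Finset.mem_image.1 ha
      have := h6 s (f l + t • w) ρ
      rw [hsh, hsh'] at this
      exact this)
    (by
      intro a ha l t ρ
      obtain ⟨s, -, rfl⟩ := Finset.mem_image.1 ha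
      have hfs : Fact (1 < r (some s)) := ⟨hr (some s)⟩
      rcases c9a s (f l + t • w) ρ with h | h
      · left
        rw [hsh'] at h
        exact (hsl l t ρ).1 h
      · right
        rcases h6 s (f l + t • w) ρ with ⟨a1, _⟩ | ⟨_, b1⟩
        · rw [hsh] at a1; exact a1
        · exfalso
          rw [b1] at h
          exact one_ne_zero (α := ZMod (r (some s))) (by simpa using h))
    (by
      intro l t ρ
      rcases c9b (f l + t • w) ρ with h | ⟨s, h⟩
      · left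
        rw [hsh'] at h
        exact (hsl l t ρ).2 h
      · right
        have hfs : Fact (1 < r (some s)) := ⟨hr (some s)⟩
        refine ⟨some s, Finset.mem_image_of_mem _ (Finset.mem_univ _), ?_⟩
        rcases h6 s (f l + t • w) ρ with ⟨_, b1⟩ | ⟨a1, _⟩
        · exfalso
          rw [b1] at h
          exact one_ne_zero (α := ZMod (r (some s))) (by simpa using h)
        · rw [hsh] at a1; exact a1)
  refine ⟨T, fun l => ?_⟩
  obtain ⟨a, ha, h, hh⟩ := hT l
  obtain ⟨s, -, rfl⟩ := Finset.mem_image.1 ha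
  exact ⟨s, h, hh⟩

/-- forced side from the slice statements. -/
theorem forced_slices (hp : 2 ≤ p) {r : Option S → ℕ}
    (hr : ∀ a, 2 ≤ r a) (hpr : ∀ a, Nat.Coprime p (r a)) {w e : ℤ × ℤ} {N1 Np : ℤ}
    {N : Option S → ℤ}
    (hNp : (Np : ZMod (p ^ 2)) = p) (hNp0 : (Np : ZMod (r none)) = 0)
    (hN1 : (N1 : ZMod (p ^ 2)) = 1) (hN10 : (N1 : ZMod (r none)) = 0)
    (hN : ∀ a, (N a : ZMod (p ^ 2)) = 0) (hNa : ∀ a, (N a : ZMod (r a)) = 1)
    {rigid : Prop}
    {Y : ℤ × ℤ → ZMod p → ZMod (p ^ 3)} {z : ℤ × ℤ → ZMod p → ∀ a, ZMod (r a)}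
    (base : Base2 p (r none) w N1 Np (N none) Y (fun v ρ => z v ρ none))
    (h5 : ∀ a v ρ, z (v + ((p : ℤ) ^ 2 * r a) • w) ρ a = z v ρ a)
    (h6 : ∀ s v ρ, (z (v + N (some s) • w) ρ (some s) = z v ρ (some s) ∧
        z (v - N (some s) • w) ρ (some s) = z v ρ (some s)) ∨
      (z (v + N (some s) • w) ρ (some s) = z v ρ (some s) + 1 ∧
        z (v - N (some s) • w) ρ (some s) = z v ρ (some s) - 1))
    (c9a : ∀ s v ρ, z (v - N none • w) ρ none + 1 = z v ρ none ∨
      z (v - N (some s) • w) ρ (some s) = z v ρ (some s))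
    (c9b : ∀ v ρ, z (v - N none • w) ρ none = z v ρ none ∨
      ∃ s, z (v - N (some s) • w) ρ (some s) + 1 = z v ρ (some s))
    (hrig : rigid → ∀ v ρ, Y (v + e) ρ = Y v ρ)
    (l t : ℤ × ℤ → ℤ) (hv : ∀ v, v = l v • e + t v • w) :
    ∃ τ : ℤ → ℤ, (rigid → ∀ n, τ n = τ 0) ∧ ∀ n, ∃ (s : S) (h : ℤ), ∀ v, l v = n →
      (t v : ZMod (p ^ 2)) = τ n → (t v : ZMod (r (some s))) ≠ h →
        ∃ ρ ρ', z v ρ (some s) ≠ z v ρ' (some s) := by
  by_cases hR : rigid
  · have hper : ∀ (n : ℤ) (v : ℤ × ℤ) (ρ : ZMod p), Y (v + n • e) ρ = Y v ρ := by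
      intro n v ρ
      induction n with
      | zero => simp
      | succ n ih => rw [add_smul, one_smul, ← add_assoc, hrig hR, ih]
      | pred n ih =>
        have := hrig hR (v + (-(n : ℤ) - 1) • e) ρ
        rw [← this, ← ih, add_assoc]
        congr 2
        rw [sub_smul, one_smul, sub_add_cancel]
    obtain ⟨T, hT⟩ := forced_lines (L := ℤ) hp hr hpr hNp hNp0 hN1 hN10 hN hNa base h5 h6 c9a c9b
      (fun n => n • e) (fun t ρ => Y (t • w) ρ)
      (by intro n t ρ; rw [add_comm, hper])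
    obtain ⟨t0, ht0⟩ := exists_int T
    refine ⟨fun _ => t0, fun _ _ => rfl, fun n => ?_⟩
    obtain ⟨s, h, hh⟩ := hT n
    obtain ⟨h0, hh0⟩ := exists_int h
    refine ⟨s, h0, fun v hl ht hth => ?_⟩
    have := hh (t v) (by rw [ht, ht0]) (by rw [← hh0]; exact hth)
    have e1 : n • e + t v • w = v := by rw [← hl]; exact (hv v).symm
    simp only [e1] at this
    exact this
  · have key : ∀ n : ℤ, ∃ T : ZMod (p ^ 2), ∃ (s : S) (h : ZMod (r (some s))), ∀ t : ℤ,
        (t : ZMod (p ^ 2)) = T → (t : ZMod (r (some s))) ≠ h →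
          ∃ ρ ρ', z (n • e + t • w) ρ (some s) ≠ z (n • e + t • w) ρ' (some s) := by
      intro n
      obtain ⟨T, hT⟩ := forced_lines (L := Unit) hp hr hpr hNp hNp0 hN1 hN10 hN hNa base h5 h6
        c9a c9b (fun _ => n • e) (fun t ρ => Y (n • e + t • w) ρ) (by intro _ t ρ; rfl)
      exact ⟨T, hT ()⟩
    choose T s h hT using key
    choose t0 ht0 using fun n => exists_int (T n)
    choose h0 hh0 using fun n => exists_int (h n)
    refine ⟨t0, fun h => absurd h hR, fun n => ⟨s n, h0 n, fun v hl ht hth => ?_⟩⟩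
    have := hT n (t v) (by rw [ht, ht0]) (by rw [← hh0]; exact hth)
    have e1 : n • e + t v • w = v := by rw [← hl]; exact (hv v).symm
    simp only [e1] at this
    exact this

/-- badness of a graph -/
theorem bad_gr [NeZero p] {Γ : Type} [Fintype Γ] [DecidableEq Γ] {r : Γ → ℕ}
    [∀ g, NeZero (r g)] {Y : ℤ × ℤ → ZMod p → ZMod (p ^ 3)}
    {z : ℤ × ℤ → ZMod p → ∀ a, ZMod (r a)} (a : Γ) (v : ℤ × ℤ) :
    Bad (Tiles.gr Y z) a v ↔ ∃ ρ ρ', z v ρ a ≠ z v ρ' a := by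
  constructor
  · rintro ⟨g, g', ⟨ρ, h1, h2⟩, ⟨ρ', h3, h4⟩, h5⟩
    simp only at h1 h2 h3 h4
    exact ⟨ρ, ρ', by rw [← h2, ← h4]; exact h5⟩
  · rintro ⟨ρ, ρ', h⟩
    exact ⟨(Y v ρ, z v ρ), (Y v ρ', z v ρ'), ⟨ρ, rfl, rfl⟩, ⟨ρ', rfl, rfl⟩, h⟩

/-- the fibre tile of `Data` tiles the graph -/
theorem transv_gr [NeZero p] {Γ : Type} [Fintype Γ] [DecidableEq Γ] {r : Γ → ℕ}
    [∀ g, NeZero (r g)] {Y : ℤ × ℤ → ZMod p → ZMod (p ^ 3)}
    {z : ℤ × ℤ → ZMod p → ∀ a, ZMod (r a)} (hY : ∀ v ρ, r31 p (Y v ρ) = ρ) :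
    Transv (fT p r) (Tiles.gr Y z) := by
  rw [transv_iff]
  intro v ρ
  refine ⟨(Y v ρ, z v ρ), ⟨⟨ρ, rfl, rfl⟩, hY v ρ⟩, ?_⟩
  rintro ⟨y, l⟩ ⟨⟨ρ', h1, h2⟩, h3⟩
  simp only at h1 h2 h3
  have : ρ' = ρ := by rw [← h3, h1, hY]
  subst this
  rw [h1, h2]

/-- FORCED, for a solution in slice form. -/
theorem sliceSol_forced [NeZero p] (hp : 2 ≤ p) {r : Option S → ℕ} [∀ a, NeZero (r a)]
    (hr : ∀ a, 2 ≤ r a) (hpr : ∀ a, Nat.Coprime p (r a)) {w e : ℤ × ℤ} {rigid : Prop}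
    (n : CompSys.Nums p r) {Y : ℤ × ℤ → ZMod p → ZMod (p ^ 3)}
    {z : ℤ × ℤ → ZMod p → ∀ a, ZMod (r a)} (h : CompSys.SliceSol n w e rigid Y z)
    (l t : ℤ × ℤ → ℤ) (hv : ∀ v, v = l v • e + t v • w) :
    Transv (fT p r) (Tiles.gr Y z) ∧
    ∃ τ : ℤ → ℤ, (rigid → ∀ n, τ n = τ 0) ∧ ∀ n, ∃ (s : S) (h : ℤ), ∀ v, l v = n →
      (t v : ZMod (p ^ 2)) = τ n → (t v : ZMod (r (some s))) ≠ h →
        Bad (Tiles.gr Y z) (some s) v := by
  refine ⟨transv_gr h.base.role, ?_⟩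
  obtain ⟨τ, h1, h2⟩ := forced_slices hp hr hpr n.hp (n.hpr none) n.h1 (n.h1r none) n.hN n.hNa
    h.base h.c5 h.c6 h.c9a h.c9b h.rig l t hv
  refine ⟨τ, h1, fun m => ?_⟩
  obtain ⟨s, h0, hh⟩ := h2 m
  exact ⟨s, h0, fun v hl ht hth => (bad_gr (some s) v).2 (hh v hl ht hth)⟩

end Crest.Agent.R046.Comp
end

-- ▼ part R046/CompOf
section

/-!
Row 46: the component theorem from the tile equivalence and the truth side.
-/

set_option autoImplicit false

namespace Crest.Agent.R046.Comp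

open Crest.CombinatoricsR.Tiling

/-- the two external statements of a component system `C`. -/
def IsComp (p : ℕ) [NeZero p] {S : Type} [Fintype S] [DecidableEq S] (r : Option S → ℕ)
    [∀ a, NeZero (r a)] (l t : ℤ × ℤ → ℤ) (rigid : Prop)
    (C : Set (Finset ((ℤ × ℤ) × Fib p r))) : Prop :=
  C.Finite ∧
  (∀ A : Set ((ℤ × ℤ) × Fib p r), (∀ F ∈ C, IsTilingBy F A) → Transv (fT p r) A ∧
    ∃ τ : ℤ → ℤ, (rigid → ∀ n, τ n = τ 0) ∧ ∀ n, ∃ (s : S) (h : ℤ), ∀ v, l v = n →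
      (t v : ZMod (p ^ 2)) = τ n → (t v : ZMod (r (some s))) ≠ h → Bad A (some s) v) ∧
  ∀ (lam : ℤ → S) (h o : ℤ → ℤ), (rigid → ∀ n, o n = 0) →
    ∃ A : Set ((ℤ × ℤ) × Fib p r), Transv (fT p r) A ∧ (∀ F ∈ C, IsTilingBy F A) ∧
      ∀ v s, Bad A (some s) v → lam (l v) = s ∧ (t v : ZMod (r (some s))) ≠ h (l v) ∧
        ∃ j : ℤ, j ≠ 0 ∧ |j| < p ∧ (t v : ZMod (p ^ 2)) = o (l v) + j

theorem comp_of {p : ℕ} [NeZero p] (hp : 2 ≤ p) {S : Type} [Fintype S] [DecidableEq S]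
    {r : Option S → ℕ} [∀ a, NeZero (r a)] (hr : ∀ a, 2 ≤ r a)
    (hpr : ∀ a, Nat.Coprime p (r a)) (n : CompSys.Nums p r) (w e : ℤ × ℤ) (l t : ℤ × ℤ → ℤ)
    (hv : ∀ v, v = l v • e + t v • w) (rigid : Prop)
    (C : Set (Finset ((ℤ × ℤ) × Fib p r))) (hC : C.Finite)
    (Hiff : ∀ A : Set ((ℤ × ℤ) × Fib p r), (∀ F ∈ C, IsTilingBy F A) ↔
      ∃ Y z, CompSys.SliceSol n w e rigid Y z ∧ A = Tiles.gr Y z)
    (Htruth : ∀ (lam : ℤ → S) (h o : ℤ → ℤ), (rigid → ∀ n, o n = 0) →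
      ∃ Y z, CompSys.SliceSol n w e rigid Y z ∧ ∀ v s, Bad (Tiles.gr Y z) (some s) v →
        lam (l v) = s ∧ (t v : ZMod (r (some s))) ≠ h (l v) ∧
        ∃ j : ℤ, j ≠ 0 ∧ |j| < p ∧ (t v : ZMod (p ^ 2)) = o (l v) + j) :
    IsComp p r l t rigid C := by
  refine ⟨hC, ?_, ?_⟩
  · intro A hA
    obtain ⟨Y, z, hs, rfl⟩ := (Hiff A).1 hA
    exact sliceSol_forced hp hr hpr n hs l t hv
  · intro lam h o ho
    obtain ⟨Y, z, hs, hb⟩ := Htruth lam h o ho
    exact ⟨Tiles.gr Y z, transv_gr hs.base.role, (Hiff _).2 ⟨Y, z, hs, rfl⟩, hb⟩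

end Crest.Agent.R046.Comp
end

-- ▼ part R046/Slope
section

set_option autoImplicit false
set_option linter.unusedSectionVars false

/-! Row 46: the slope clause (C9), helper877.

`slopeTile` : at every point of the graph, for some `i` the label `a i` has slope `al i` along
`u i`. -/

namespace Crest.Agent.R046.Tiles

open Crest.CombinatoricsR.Tiling
open Crest.Agent.R046

section gen

variable {V K R : Type*} [AddCommGroup V] [AddCommGroup K] [AddCommGroup R]
  [DecidableEq V] [DecidableEq K] [DecidableEq R] [Fintype K]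
  {Γ : Type} [Fintype Γ] [DecidableEq Γ] {M : Γ → Type} [∀ g, AddCommGroup (M g)]
  [∀ g, Fintype (M g)] [∀ g, DecidableEq (M g)]

variable {n : ℕ} [NeZero n]

/-- base displacement of the state `c` -/
def sDisp (u : Fin n → V) (c : Fin n → Bool) : V := ∑ i, if c (i + 1) then u i else 0

/-- labels of the state `c` -/
def sLab (a : Fin n → Γ) (al : ∀ i, M (a i)) (c : Fin n → Bool) : Finset (∀ g, M g) :=
  Finset.univ.filter fun l => ∀ i, (l (a i) - (if c (i + 1) then al i else 0) = 0 ↔ c i = false)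

theorem mem_sLab {a : Fin n → Γ} {al : ∀ i, M (a i)} {c : Fin n → Bool} {l : ∀ g, M g} :
    l ∈ sLab a al c ↔ ∀ i, (l (a i) - (if c (i + 1) then al i else 0) = 0 ↔ c i = false) := by
  unfold sLab
  rw [Finset.mem_filter]
  simp only [Finset.mem_univ, true_and]

/-- the moved block -/
def sBlock (a : Fin n → Γ) (al : ∀ i, M (a i)) (u : Fin n → V) :
    Finset (V × K × ∀ g, M g) :=
  (Finset.univ : Finset (Fin n → Bool)).biUnion fun c => bx {sDisp u c} {0} (sLab a al c)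

/-- (C9) -/
def slopeTile (rol : K →+ R) (a : Fin n → Γ) (al : ∀ i, M (a i)) (u : Fin n → V) :
    Finset (V × K × ∀ g, M g) :=
  (Tt rol \ bx {0} {0} Finset.univ) ∪ sBlock a al u

variable (rol : K →+ R)


theorem sDisp_zsmul_periodic {T : Type*} {u : Fin n → V} {f : V → T}
    (hf : ∀ i v, f (v + u i) = f v) (c : Fin n → Bool) (v : V) : f (v - sDisp u c) = f v := by
  have key : ∀ (s : Finset (Fin n)) (v : V), f (v - ∑ i ∈ s, if c (i + 1) then u i else 0) = f v := by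
    intro s
    induction s using Finset.induction_on with
    | empty => intro v; simp
    | insert i s hi ih =>
      intro v
      rw [Finset.sum_insert hi, ← sub_sub, ih]
      split_ifs
      · have := hf i (v - u i)
        rw [sub_add_cancel] at this
        exact this.symm
      · rw [sub_zero]
  exact key _ v

/-- only the `i`-th displacement matters for a function periodic along all the others -/
theorem sDisp_one {T : Type*} {u : Fin n → V} {f : V → T} (i : Fin n)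
    (hf : ∀ j, i ≠ j → ∀ v, f (v + u j) = f v) (c : Fin n → Bool) (v : V) :
    f (v - sDisp u c) = f (v - if c (i + 1) then u i else 0) := by
  have key : ∀ (s : Finset (Fin n)), i ∉ s → ∀ (v : V),
      f (v - ∑ j ∈ s, if c (j + 1) then u j else 0) = f v := by
    intro s
    induction s using Finset.induction_on with
    | empty => intro _ v; simp
    | insert j s hj ih =>
      intro his v
      rw [Finset.mem_insert, not_or] at his
      rw [Finset.sum_insert hj, ← sub_sub, ih his.2]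
      split_ifs
      · have := hf j his.1 (v - u j)
        rw [sub_add_cancel] at this
        exact this.symm
      · rw [sub_zero]
  have h := key (Finset.univ.erase i) (Finset.notMem_erase i _) (v - if c (i + 1) then u i else 0)
  rw [← h, sub_sub, Finset.add_sum_erase _ (fun j => if c (j + 1) then u j else 0)
    (Finset.mem_univ i)]
  rfl

theorem sBlock_disj (a : Fin n → Γ) (al : ∀ i, M (a i)) (u : Fin n → V) :
    Disjoint ((Tt rol : Finset (V × K × ∀ g, M g)) \ bx {0} {0} Finset.univ) (sBlock a al u) := by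
  rw [Finset.disjoint_left]
  rintro ⟨v, y, l⟩ h1 h2
  rw [Finset.mem_sdiff, mem_Tt, mem_bx] at h1
  unfold sBlock at h2
  rw [Finset.mem_biUnion] at h2
  obtain ⟨c, -, h3⟩ := h2
  rw [mem_bx, Finset.mem_singleton, Finset.mem_singleton] at h3
  apply h1.2
  simp only [Finset.mem_singleton, Finset.mem_univ, and_true]
  exact ⟨h1.1.1, h3.2.1⟩

theorem cov_sBlock (a : Fin n → Γ) (al : ∀ i, M (a i)) {u : Fin n → V}
    (hu : Function.Injective (sDisp u)) {Y : V → R → K} {z : V → R → ∀ g, M g}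
    (hY : ∀ v ρ, rol (Y v ρ) = ρ) (hYu : ∀ i v ρ, Y (v + u i) ρ = Y v ρ)
    (hzu : ∀ i j, i ≠ j → ∀ v ρ, z (v + u j) ρ (a i) = z v ρ (a i)) (v : V) (y : K)
    (l : ∀ g, M g) :
    (cov (sBlock a al u) (gr Y z) (v, y, l) : ℤ) =
      if y = Y v (rol y) then
        1 + ∏ i, ((if l (a i) = z v (rol y) (a i) then (1 : ℤ) else 0) -
          if l (a i) = z (v - u i) (rol y) (a i) + al i then 1 else 0)
      else 0 := by
  classical
  unfold sBlock
  rw [cov_biUnion (by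
    intro c _ c' _ hc
    rw [Finset.disjoint_left]
    rintro ⟨v, y, l⟩ h1 h2
    rw [mem_bx, Finset.mem_singleton] at h1 h2
    exact hc (hu (h1.1.symm.trans h2.1)))]
  have hcov : ∀ c : Fin n → Bool, (cov (bx {sDisp u c} ({0} : Finset K) (sLab a al c)) (gr Y z)
      (v, y, l) : ℤ) =
      if y = Y v (rol y) then ∏ i, (if (l (a i) - z (v - if c (i + 1) then u i else 0) (rol y) (a i)
        - (if c (i + 1) then al i else 0) = 0 ↔ c i = false) then (1 : ℤ) else 0) else 0 := by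
    intro c
    rw [cov_bx rol hY, Finset.sum_singleton, Finset.sum_singleton, sub_zero]
    have e1 : Y (v - sDisp u c) (rol y) = Y v (rol y) :=
      sDisp_zsmul_periodic (f := fun v => Y v (rol y)) (fun i v => hYu i v (rol y)) c v
    have e2 : ∀ i, z (v - sDisp u c) (rol y) (a i) =
        z (v - if c (i + 1) then u i else 0) (rol y) (a i) := fun i =>
      sDisp_one (f := fun v => z v (rol y) (a i)) i (fun j hij v => hzu i j hij v (rol y)) c v
    rw [e1]
    by_cases hy : y = Y v (rol y)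
    · rw [if_pos hy]
      rw [Finset.prod_ite_zero]
      simp only [Finset.prod_const_one, Finset.mem_univ, true_implies]
      by_cases hl : l - z (v - sDisp u c) (rol y) ∈ sLab a al c
      · rw [if_pos ⟨hy, hl⟩, if_pos]
        · norm_num
        · rw [mem_sLab] at hl
          intro i
          have := hl i
          rw [Pi.sub_apply, e2] at this
          exact this
      · rw [if_neg (fun h => hl h.2), if_neg]
        · norm_num
        · intro h
          apply hl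
          rw [mem_sLab]
          intro i
          rw [Pi.sub_apply, e2]
          exact h i
    · rw [if_neg hy, if_neg (fun h => hy h.1)]
      norm_num
  push_cast
  rw [Finset.sum_congr rfl (fun c _ => hcov c)]
  by_cases hy : y = Y v (rol y)
  · simp only [if_pos hy]
    rw [Clause.cyc_sum n (fun i x w => if (l (a i) - z (v - if w then u i else 0) (rol y) (a i)
        - (if w then al i else 0) = 0 ↔ x = false) then (1 : ℤ) else 0)]
    · congr 1
      refine Finset.prod_congr rfl fun i _ => ?_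
      simp only [if_true, Bool.false_eq_true, if_false, sub_zero, iff_true]
      congr 1
      · simp only [sub_eq_zero]
      · have e : (l (a i) - z (v - u i) (rol y) (a i) - al i = 0) ↔
            (l (a i) = z (v - u i) (rol y) (a i) + al i) := by
          rw [sub_sub, sub_eq_zero]
        simp only [e]
    · intro i w
      simp only [iff_true, Bool.true_eq_false, iff_false]
      by_cases h : l (a i) - z (v - if w then u i else 0) (rol y) (a i)
        - (if w then al i else 0) = 0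
      · rw [if_pos h, if_neg (fun h' => h' h)]; norm_num
      · rw [if_neg h, if_pos h]; norm_num
  · simp only [if_neg hy, Finset.sum_const_zero]

/-- (C9) general form -/
theorem C9_iff_gen (a : Fin n → Γ) (al : ∀ i, M (a i)) {u : Fin n → V}
    (hu : Function.Injective (sDisp u)) {Y : V → R → K} {z : V → R → ∀ g, M g}
    (hY : ∀ v ρ, rol (Y v ρ) = ρ) (hYu : ∀ i v ρ, Y (v + u i) ρ = Y v ρ)
    (hzu : ∀ i j, i ≠ j → ∀ v ρ, z (v + u j) ρ (a i) = z v ρ (a i)) :
    IsTilingBy (slopeTile rol a al u : Finset (V × K × ∀ g, M g)) (gr Y z) ↔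
      ∀ v ρ, ∃ i, z (v - u i) ρ (a i) + al i = z v ρ (a i) := by
  have hs : Function.Surjective rol := fun ρ => ⟨Y 0 ρ, hY 0 ρ⟩
  unfold slopeTile
  rw [isTilingBy_swap ((Tt_iff rol hs).2 ⟨Y, z, hY, rfl⟩) (bx_zero_subset rol _)
    (sBlock_disj rol a al u)]
  constructor
  · intro h v ρ
    have h1 := h (v, Y v ρ, z v ρ)
    have h2 := cov_sBlock rol a al hu hY hYu hzu v (Y v ρ) (z v ρ)
    rw [h1, cov_single rol hY] at h2
    simp only [hY, if_true, Finset.mem_univ, and_true] at h2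
    by_contra hne
    push Not at hne
    rw [Finset.prod_congr rfl (fun i _ => by rw [if_neg (fun h => hne i h.symm)])] at h2
    norm_num at h2
  · rintro h ⟨v, y, l⟩
    have h2 := cov_sBlock rol a al hu hY hYu hzu v y l
    rw [cov_single rol hY]
    obtain ⟨i, hi⟩ := h v (rol y)
    rw [Finset.prod_eq_zero (Finset.mem_univ i) (by rw [hi, sub_self])] at h2
    simp only [Finset.mem_univ, and_true, add_zero] at h2 ⊢
    split_ifs at h2 ⊢ with hy
    · exact_mod_cast h2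
    · exact_mod_cast h2

/-- displacements which are told apart by residues -/
theorem sDisp_inj {w : ℤ × ℤ} (hw : w ≠ 0) {N : Fin n → ℤ} {q : Fin n → ℕ}
    (hq : ∀ i, 2 ≤ q i) (h1 : ∀ i, ((N i : ℤ) : ZMod (q i)) = 1)
    (h0 : ∀ i j, i ≠ j → ((N j : ℤ) : ZMod (q i)) = 0) :
    Function.Injective (sDisp (fun i => N i • w)) := by
  intro c c' h
  unfold sDisp at h
  have e : ∀ c : Fin n → Bool, (∑ i, if c (i + 1) then N i • w else 0) =
      (∑ i, if c (i + 1) then N i else 0) • w := by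
    intro c
    rw [Finset.sum_smul]
    refine Finset.sum_congr rfl fun i _ => ?_
    split_ifs <;> simp
  rw [e, e] at h
  have h2 : (∑ i, if c (i + 1) then N i else 0) = ∑ i, if c' (i + 1) then N i else 0 := by
    have h3 : ((∑ i, if c (i + 1) then N i else 0) - ∑ i, if c' (i + 1) then N i else 0) • w = 0 := by
      rw [sub_smul, h, sub_self]
    rcases smul_eq_zero.1 h3 with h4 | h4
    · exact sub_eq_zero.1 h4
    · exact absurd h4 hw
  have h5 : ∀ (c : Fin n → Bool) (i : Fin n),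
      (((∑ i, if c (i + 1) then N i else 0 : ℤ)) : ZMod (q i)) = if c (i + 1) then 1 else 0 := by
    intro c i
    rw [Int.cast_sum, Finset.sum_eq_single i]
    · split_ifs
      · exact h1 i
      · simp
    · intro j _ hj
      split_ifs
      · exact h0 i j (fun h => hj h.symm)
      · simp
    · intro h; exact absurd (Finset.mem_univ i) h
  have h6 : ∀ i, c (i + 1) = c' (i + 1) := by
    intro i
    have h7 := h5 c i
    rw [h2, h5 c' i] at h7
    have : Fact (1 < q i) := ⟨hq i⟩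
    have h8 : (1 : ZMod (q i)) ≠ 0 := one_ne_zero
    cases h9 : c (i + 1) <;> cases h10 : c' (i + 1)
    · rfl
    · rw [h9, h10] at h7; simp at h7
    · rw [h9, h10] at h7; simp at h7
    · rfl
  funext i
  have := h6 (i - 1)
  rwa [sub_add_cancel] at this

end gen

section concrete

open Crest.Agent.R046.Comp

variable {p : ℕ} [NeZero p] {Γ : Type} [Fintype Γ] [DecidableEq Γ] {r : Γ → ℕ}
  [∀ g, NeZero (r g)]

variable (p r)

/-- (C9) frozen form 8244: labels `a i`, slopes `al i`, displacements `u i`. -/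
def tC9' {n : ℕ} [NeZero n] (a : Fin n → Γ) (al : ∀ i, ZMod (r (a i))) (u : Fin n → ℤ × ℤ) :
    Finset ((ℤ × ℤ) × (ZMod (p ^ 3) × ∀ g, ZMod (r g))) :=
  slopeTile (r31 p : ZMod (p ^ 3) →+ ZMod p) a al u

/-- (C9) Finset form: for the nonempty set `J` of labels, slopes `δ g`, displacements `u g`. -/
noncomputable def tC9 (J : Finset Γ) (δ : Γ → ℤ) (u : Γ → ℤ × ℤ) :
    Finset ((ℤ × ℤ) × (ZMod (p ^ 3) × ∀ g, ZMod (r g))) :=
  if h : J.card = 0 then ∅ else
    haveI : NeZero J.card := ⟨h⟩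
    tC9' p r (fun i : Fin J.card => (J.equivFin.symm i : Γ)) (fun i => (δ (J.equivFin.symm i) : ℤ))
      (fun i => u (J.equivFin.symm i))

variable {p r}

variable {Y : ℤ × ℤ → ZMod p → ZMod (p ^ 3)} {z : ℤ × ℤ → ZMod p → ∀ g, ZMod (r g)}

theorem tC9'_iff (hY : ∀ v ρ, r31 p (Y v ρ) = ρ) {n : ℕ} [NeZero n] (a : Fin n → Γ)
    (al : ∀ i, ZMod (r (a i))) {u : Fin n → ℤ × ℤ}
    (hu : Function.Injective (sDisp u)) (hYu : ∀ i v ρ, Y (v + u i) ρ = Y v ρ)
    (hzu : ∀ i j, i ≠ j → ∀ v ρ, z (v + u j) ρ (a i) = z v ρ (a i)) :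
    IsTilingBy (tC9' p r a al u) (gr Y z) ↔
      ∀ v ρ, ∃ i, z (v - u i) ρ (a i) + al i = z v ρ (a i) := by
  have h := C9_iff_gen (r31 p : ZMod (p ^ 3) →+ ZMod p) a al hu (Y := Y) (z := z) hY hYu hzu
  exact h

/-- **(C9)**, Finset form with displacements `u g = N g • w`. -/
theorem tC9_iff (hY : ∀ v ρ, r31 p (Y v ρ) = ρ) (hr : ∀ g, 2 ≤ r g) {w : ℤ × ℤ} (hw : w ≠ 0)
    {N : Γ → ℤ} (h1 : ∀ g, ((N g : ℤ) : ZMod (r g)) = 1)
    (h0 : ∀ g g', g ≠ g' → ((N g' : ℤ) : ZMod (r g)) = 0)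
    (hYu : ∀ g v ρ, Y (v + N g • w) ρ = Y v ρ)
    (hzu : ∀ g g', g ≠ g' → ∀ v ρ, z (v + N g' • w) ρ g = z v ρ g)
    (J : Finset Γ) (hJ : J.Nonempty) (δ : Γ → ℤ) :
    IsTilingBy (tC9 p r J δ (fun g => N g • w)) (gr Y z) ↔
      ∀ v ρ, ∃ g ∈ J, z (v - N g • w) ρ g + (δ g : ℤ) = z v ρ g := by
  have hne : J.card ≠ 0 := by rw [Finset.card_ne_zero]; exact hJ
  have : NeZero J.card := ⟨hne⟩
  have hinj : ∀ i j : Fin J.card, i ≠ j →
      ((J.equivFin.symm i : J) : Γ) ≠ ((J.equivFin.symm j : J) : Γ) := by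
    intro i j hij h
    exact hij (J.equivFin.symm.injective (Subtype.ext h))
  unfold tC9
  rw [dif_neg hne]
  rw [tC9'_iff hY]
  · refine forall_congr' fun v => forall_congr' fun ρ => ?_
    constructor
    · rintro ⟨i, hi⟩
      exact ⟨_, (J.equivFin.symm i).2, hi⟩
    · rintro ⟨g, hg, h⟩
      refine ⟨J.equivFin ⟨g, hg⟩, ?_⟩
      have key : ∀ g' : J, (g' : Γ) = g →
          z (v - N g' • w) ρ g' + ((δ g' : ℤ) : ZMod (r g')) = z v ρ g' := by
        rintro ⟨g', hg'⟩ rfl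
        exact h
      exact key _ (by rw [Equiv.symm_apply_apply])
  · exact sDisp_inj hw (q := fun i => r (J.equivFin.symm i : Γ)) (fun i => hr _) (fun i => h1 _)
      (fun i j hij => h0 _ _ (hinj i j hij))
  · intro i v ρ
    exact hYu _ v ρ
  · intro i j hij v ρ
    exact hzu _ _ (hinj i j hij) v ρ

end concrete

end Crest.Agent.R046.Tiles
end

-- ▼ part R046/CompSys
section

set_option autoImplicit false

/-! Row 46: the finite tile system of a component and its slice form. -/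

namespace Crest.Agent.R046.CompSys

open Crest.CombinatoricsR.Tiling
open Crest.Agent.R046.Comp Crest.Agent.R046.Tiles

variable {p : ℕ} [NeZero p] {S : Type} [Fintype S] [DecidableEq S] {r : Option S → ℕ}
  [∀ a, NeZero (r a)]

/-- the fibre group -/
abbrev FG (p : ℕ) {S : Type} (r : Option S → ℕ) : Type := ZMod (p ^ 3) × (∀ a : Option S, ZMod (r a))

/-- the tiles without the slope clauses -/
def baseSys (n : Nums p r) (w e : ℤ × ℤ) (rigid : Prop) :
    Set (Finset ((ℤ × ℤ) × FG p r)) :=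
  {tT p r, tC2 p r (((p : ℤ) ^ 2) • w), tC3 p r w, tC4 p r w, tX p r (n.Np • w),
    tD p r none 0 (n.Np • w) (n.N1 • w), tD p r none 1 (n.Np • w) ((n.N1 + n.N none) • w)} ∪
  {F | rigid ∧ F = tC2 p r e} ∪
  Set.range (fun a => tC5 p r a (((p : ℤ) ^ 2 * r a) • w)) ∪
  Set.range (fun s : S => tC6 p r (some s) (n.N (some s) • w))

theorem baseSys_finite (n : Nums p r) (w e : ℤ × ℤ) (rigid : Prop) :
    (baseSys n w e rigid).Finite := by
  unfold baseSys
  refine Set.Finite.union (Set.Finite.union (Set.Finite.union ?_ ?_) ?_) ?_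
  · exact Set.toFinite _
  · exact (Set.finite_singleton (tC2 p r e)).subset (by rintro F ⟨-, h⟩; exact h)
  · exact Set.finite_range _
  · exact Set.finite_range _

omit [NeZero p] [Fintype S] [DecidableEq S] [∀ a, NeZero (r a)] in
theorem per_zero {Y : ℤ × ℤ → ZMod p → ZMod (p ^ 3)} {w : ℤ × ℤ}
    (h : ∀ v ρ, Y (v + ((p : ℤ) ^ 2) • w) ρ = Y v ρ) {m : ℤ} (hm : (m : ZMod (p ^ 2)) = 0)
    (v : ℤ × ℤ) (ρ : ZMod p) : Y (v + m • w) ρ = Y v ρ := by
  rw [ZMod.intCast_zmod_eq_zero_iff_dvd] at hm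
  obtain ⟨k, rfl⟩ := hm
  have key : ∀ (k : ℤ) (v : ℤ × ℤ), Y (v + ((p : ℤ) ^ 2 * k) • w) ρ = Y v ρ := by
    intro k
    induction k with
    | zero => intro v; simp
    | succ k ih =>
      intro v
      have := h (v + ((p : ℤ) ^ 2 * k) • w) ρ
      rw [ih] at this
      rw [← this, add_assoc, ← add_smul]
      congr 3
    | pred k ih =>
      intro v
      have := h (v + ((p : ℤ) ^ 2 * (-(k : ℤ) - 1)) • w) ρ
      rw [← this, add_assoc, ← add_smul, ← ih v]
      congr 3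
      ring
  have := key k v
  push_cast at this ⊢
  exact this

/-- everything of `SliceSol` except the slope clauses -/
def SolBase (n : Nums p r) (w e : ℤ × ℤ) (rigid : Prop)
    (Y : ℤ × ℤ → ZMod p → ZMod (p ^ 3)) (z : ℤ × ℤ → ZMod p → ∀ a, ZMod (r a)) : Prop :=
  Base2 p (r none) w n.N1 n.Np (n.N none) Y (fun v ρ => z v ρ none) ∧
  (rigid → ∀ v ρ, Y (v + e) ρ = Y v ρ) ∧
  (∀ v c, ∃! k : ℕ, k < p ∧ r32 p (Y (v - k • (n.Np • w)) (r21 p c)) = c) ∧
  (∀ a v ρ, z (v + ((p : ℤ) ^ 2 * r a) • w) ρ a = z v ρ a) ∧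
  (∀ (s : S) v ρ,
    (z (v + n.N (some s) • w) ρ (some s) = z v ρ (some s) ∧
      z (v - n.N (some s) • w) ρ (some s) = z v ρ (some s)) ∨
    (z (v + n.N (some s) • w) ρ (some s) = z v ρ (some s) + 1 ∧
      z (v - n.N (some s) • w) ρ (some s) = z v ρ (some s) - 1))

section facts

variable (hp : 2 ≤ p) (hr : ∀ a, 3 ≤ r a) {w : ℤ × ℤ} (hw : w ≠ 0) (n : Nums p r)

include hp

omit [NeZero p] [Fintype S] [DecidableEq S] [∀ a, NeZero (r a)] in
theorem psq_cast_ne : ((p : ℕ) : ZMod (p ^ 2)) ≠ 0 := by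
  rw [Ne, ZMod.natCast_eq_zero_iff]
  intro h
  have h1 := Nat.le_of_dvd (by omega) h
  have h2 : p * 2 ≤ p * p := Nat.mul_le_mul_left p hp
  rw [← sq] at h2
  omega

include hw

omit [NeZero p] [Fintype S] [DecidableEq S] [∀ a, NeZero (r a)] in
theorem P_ne : n.Np • w ≠ 0 := by
  rw [Ne, smul_eq_zero]
  rintro (h | h)
  · have := n.hp
    rw [h, Int.cast_zero] at this
    exact psq_cast_ne hp this.symm
  · exact hw h

omit [NeZero p] [Fintype S] [DecidableEq S] [∀ a, NeZero (r a)] in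
/-- `i P + m w ≠ j P` if `m = 1` modulo `p` -/
theorem hu_aux {m : ℤ} (hm : (m : ZMod (p ^ 2)) = 1) (i j : ℕ) :
    i • (n.Np • w) + m • w ≠ j • (n.Np • w) := by
  intro h
  have h1 : ((i : ℤ) * n.Np + m - j * n.Np) • w = 0 := by
    rw [sub_smul, add_smul, mul_smul, mul_smul, natCast_zsmul, natCast_zsmul, h, sub_self]
  have h2 : (i : ℤ) * n.Np + m - j * n.Np = 0 := by
    rcases smul_eq_zero.1 h1 with h2 | h2
    · exact h2
    · exact absurd h2 hw
  have h3 := congrArg (fun x : ℤ => r21 p (x : ZMod (p ^ 2))) h2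
  simp only [Int.cast_sub, Int.cast_add, Int.cast_mul, map_sub, map_add, map_mul, n.hp, hm,
    map_natCast, map_one, ZMod.natCast_self, mul_zero, zero_add, sub_zero, Int.cast_zero,
    map_zero] at h3
  have : Fact (1 < p) := ⟨hp⟩
  exact one_ne_zero h3

omit [NeZero p] [Fintype S] [DecidableEq S] [∀ a, NeZero (r a)] hp in
include hr in
theorem N_ne (a : Option S) : n.N a • w ≠ 0 := by
  rw [Ne, smul_eq_zero]
  rintro (h | h)
  · have := n.hNa a
    rw [h, Int.cast_zero] at this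
    have h3 := hr a
    have : Fact (1 < r a) := ⟨by omega⟩
    exact zero_ne_one (by assumption)
  · exact hw h

end facts

/-- slice form of the tiles without slope clauses -/
theorem baseSys_iff (hp : 2 ≤ p) (hr : ∀ a, 3 ≤ r a) {w e : ℤ × ℤ} (hw : w ≠ 0) (he : e ≠ 0)
    (n : Nums p r) (rigid : Prop) {A : Set ((ℤ × ℤ) × FG p r)} :
    (∀ F ∈ baseSys n w e rigid, IsTilingBy F A) ↔
      ∃ (Y : ℤ × ℤ → ZMod p → ZMod (p ^ 3)) (z : ℤ × ℤ → ZMod p → ∀ a, ZMod (r a)),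
        A = gr Y z ∧ SolBase n w e rigid Y z := by
  have hp0 : 0 < p := by omega
  have hp2w : ((p : ℤ) ^ 2) • w ≠ 0 := by
    rw [Ne, smul_eq_zero]
    rintro (h | h)
    · have : (p : ℤ) ≠ 0 := by exact_mod_cast hp0.ne'
      exact this (pow_eq_zero_iff (two_ne_zero)|>.1 h)
    · exact hw h
  have hraw : ∀ a, ((p : ℤ) ^ 2 * r a) • w ≠ 0 := by
    intro a
    rw [Ne, smul_eq_zero]
    rintro (h | h)
    · have h1 : (p : ℤ) ≠ 0 := by exact_mod_cast hp0.ne'
      have h2 : (r a : ℤ) ≠ 0 := by have := hr a; omega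
      exact mul_ne_zero (pow_ne_zero 2 h1) h2 h
    · exact hw h
  have hm : (((p : ℤ) ^ 2 : ℤ) : ZMod (p ^ 2)) = 0 := by
    have := ZMod.natCast_self (p ^ 2)
    push_cast at this ⊢
    exact this
  have h1N : ((n.N1 + n.N none : ℤ) : ZMod (p ^ 2)) = 1 := by
    rw [Int.cast_add, n.h1, n.hN, add_zero]
  constructor
  · intro h
    have hin1 : ∀ {F}, F ∈ ({tT p r, tC2 p r (((p : ℤ) ^ 2) • w), tC3 p r w, tC4 p r w,
        tX p r (n.Np • w), tD p r none 0 (n.Np • w) (n.N1 • w),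
        tD p r none 1 (n.Np • w) ((n.N1 + n.N none) • w)} :
          Set (Finset ((ℤ × ℤ) × FG p r))) → IsTilingBy F A := by
      intro F hF
      exact h F (Or.inl (Or.inl (Or.inl hF)))
    obtain ⟨Y, z, hY, hA⟩ := (tT_iff).1 (hin1 (by simp : tT p r ∈ _))
    subst hA
    have hper := (tC2_iff hY hp2w).1 (hin1 (by simp : tC2 p r (((p : ℤ) ^ 2) • w) ∈ _))
    have hstep := (tC3_iff hY hw).1 (hin1 (by simp : tC3 p r w ∈ _))
    have hc4 := (tC4_iff hY hw).1 (hin1 (by simp : tC4 p r w ∈ _))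
    have hX := (tX_iff hY (P_ne hp hw n)).1 (hin1 (by simp : tX p r (n.Np • w) ∈ _))
    have hd2 := (tD_iff hY hp (P_ne hp hw n) (fun i j _ _ => hu_aux hp hw n n.h1 i j) hX
      none 0).1 (hin1 (by simp : tD p r none 0 (n.Np • w) (n.N1 • w) ∈ _))
    have hd3 := (tD_iff hY hp (P_ne hp hw n) (fun i j _ _ => hu_aux hp hw n h1N i j) hX
      none 1).1 (hin1 (by simp : tD p r none 1 (n.Np • w) ((n.N1 + n.N none) • w) ∈ _))
    have hc5 : ∀ a v ρ, z (v + ((p : ℤ) ^ 2 * r a) • w) ρ a = z v ρ a := by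
      intro a
      refine (tC5_iff hY (hraw a) ?_ a).1 (h _ (Or.inl (Or.inr ⟨a, rfl⟩)))
      refine per_zero hper ?_
      rw [Int.cast_mul, hm, zero_mul]
    refine ⟨Y, z, rfl, ⟨hY, hper, hstep, hc4, hc5 none, hd2, hd3⟩, ?_, hX, hc5, ?_⟩
    · intro hrig
      exact (tC2_iff hY he).1 (h _ (Or.inl (Or.inl (Or.inr ⟨hrig, rfl⟩))))
    · intro s
      have h2 : 2 ≤ r (some s) := by have := hr (some s); omega
      exact (tC6_iff hY (N_ne hr hw n (some s)) (per_zero hper (n.hN _)) (some s) h2).1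
        (h _ (Or.inr ⟨s, rfl⟩))
  · rintro ⟨Y, z, rfl, hb, hrig, hX, hc5, hc6⟩ F hF
    have hY := hb.role
    have hper := hb.per
    rcases hF with ((hF | ⟨hri, rfl⟩) | ⟨a, rfl⟩) | ⟨s, rfl⟩
    · rcases hF with rfl | rfl | rfl | rfl | rfl | rfl | rfl
      · exact tT_iff.2 ⟨Y, z, hY, rfl⟩
      · exact (tC2_iff hY hp2w).2 hper
      · exact (tC3_iff hY hw).2 hb.step
      · exact (tC4_iff hY hw).2 hb.c4
      · exact (tX_iff hY (P_ne hp hw n)).2 hX
      · exact (tD_iff hY hp (P_ne hp hw n) (fun i j _ _ => hu_aux hp hw n n.h1 i j) hX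
          none 0).2 hb.d2
      · exact (tD_iff hY hp (P_ne hp hw n) (fun i j _ _ => hu_aux hp hw n h1N i j) hX
          none 1).2 hb.d3
    · exact (tC2_iff hY he).2 (hrig hri)
    · refine (tC5_iff hY (hraw a) ?_ a).2 (hc5 a)
      refine per_zero hper ?_
      rw [Int.cast_mul, hm, zero_mul]
    · have h2 : 2 ≤ r (some s) := by have := hr (some s); omega
      exact (tC6_iff hY (N_ne hr hw n (some s)) (per_zero hper (n.hN _)) (some s) h2).2 (hc6 s)


omit [NeZero p] [Fintype S] [DecidableEq S] [∀ a, NeZero (r a)] in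
theorem zper_zero {z : ℤ × ℤ → ZMod p → ∀ a, ZMod (r a)} {w : ℤ × ℤ} {a : Option S}
    (h : ∀ v ρ, z (v + ((p : ℤ) ^ 2 * r a) • w) ρ a = z v ρ a) (hcop : Nat.Coprime p (r a))
    {m : ℤ} (hm : (m : ZMod (p ^ 2)) = 0) (hm2 : (m : ZMod (r a)) = 0)
    (v : ℤ × ℤ) (ρ : ZMod p) : z (v + m • w) ρ a = z v ρ a := by
  rw [ZMod.intCast_zmod_eq_zero_iff_dvd] at hm hm2
  have hc : IsCoprime (((p ^ 2 : ℕ)) : ℤ) (r a : ℤ) :=
    Nat.isCoprime_iff_coprime.2 (Nat.Coprime.pow_left 2 hcop)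
  obtain ⟨k, rfl⟩ := hc.mul_dvd hm hm2
  have key : ∀ (k : ℤ) (v : ℤ × ℤ), z (v + ((p : ℤ) ^ 2 * r a * k) • w) ρ a = z v ρ a := by
    intro k
    induction k with
    | zero => intro v; simp
    | succ k ih =>
      intro v
      have := h (v + ((p : ℤ) ^ 2 * r a * k) • w) ρ
      rw [ih] at this
      rw [← this, add_assoc, ← add_smul]
      congr 3
    | pred k ih =>
      intro v
      have := h (v + ((p : ℤ) ^ 2 * r a * (-(k : ℤ) - 1)) • w) ρ
      rw [← this, add_assoc, ← add_smul, ← ih v]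
      congr 3
      ring
  have := key k v
  push_cast at this ⊢
  exact this

/-- (C9a): base slope `1` or slope of `s` equal to `0` -/
noncomputable def c9aTile (n : Nums p r) (w : ℤ × ℤ) (s : S) : Finset ((ℤ × ℤ) × FG p r) :=
  tC9 p r {none, some s} (fun g => if g = none then 1 else 0) (fun g => n.N g • w)

/-- (C9b): base slope `0` or some letter slope `1` -/
noncomputable def c9bTile (n : Nums p r) (w : ℤ × ℤ) : Finset ((ℤ × ℤ) × FG p r) :=
  tC9 p r Finset.univ (fun g => if g = none then 0 else 1) (fun g => n.N g • w)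

/-- **the tile system of a component** -/
def compSys (n : Nums p r) (w e : ℤ × ℤ) (rigid : Prop) : Set (Finset ((ℤ × ℤ) × FG p r)) :=
  baseSys n w e rigid ∪ Set.range (c9aTile n w) ∪ {c9bTile n w}

theorem compSys_finite (n : Nums p r) (w e : ℤ × ℤ) (rigid : Prop) :
    (compSys n w e rigid).Finite :=
  ((baseSys_finite n w e rigid).union (Set.finite_range _)).union (Set.finite_singleton _)

/-- **slice form of the component system** -/
theorem compSys_iff (hp : 2 ≤ p) (hr : ∀ a, 3 ≤ r a) (hpr : ∀ a, Nat.Coprime p (r a))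
    {w e : ℤ × ℤ} (hw : w ≠ 0) (he : e ≠ 0)
    (n : Nums p r) (rigid : Prop) {A : Set ((ℤ × ℤ) × FG p r)} :
    (∀ F ∈ compSys n w e rigid, IsTilingBy F A) ↔
      ∃ (Y : ℤ × ℤ → ZMod p → ZMod (p ^ 3)) (z : ℤ × ℤ → ZMod p → ∀ a, ZMod (r a)),
        SliceSol n w e rigid Y z ∧ A = gr Y z := by
  have hr2 : ∀ a, 2 ≤ r a := fun a => by have := hr a; omega
  -- the slope clauses for a graph
  have clause : ∀ (Y : ℤ × ℤ → ZMod p → ZMod (p ^ 3)) (z : ℤ × ℤ → ZMod p → ∀ a, ZMod (r a)),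
      SolBase n w e rigid Y z → ∀ (J : Finset (Option S)), J.Nonempty → ∀ δ : Option S → ℤ,
      (IsTilingBy (tC9 p r J δ (fun g => n.N g • w)) (gr Y z) ↔
        ∀ v ρ, ∃ g ∈ J, z (v - n.N g • w) ρ g + (δ g : ℤ) = z v ρ g) := by
    rintro Y z ⟨hb, -, -, hc5, -⟩ J hJ δ
    exact tC9_iff hb.role hr2 hw (fun g => n.hNa g) (fun g g' h => n.hNb g g' (Ne.symm h))
      (fun g => per_zero hb.per (n.hN g))
      (fun g g' h => zper_zero (hc5 g) (hpr g) (n.hN g') (n.hNb g g' (Ne.symm h))) J hJ δ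
  have ca : ∀ (Y : ℤ × ℤ → ZMod p → ZMod (p ^ 3)) (z : ℤ × ℤ → ZMod p → ∀ a, ZMod (r a)),
      SolBase n w e rigid Y z → ∀ s : S, (IsTilingBy (c9aTile n w s) (gr Y z) ↔
        ∀ v ρ, z (v - n.N none • w) ρ none + 1 = z v ρ none ∨
          z (v - n.N (some s) • w) ρ (some s) = z v ρ (some s)) := by
    intro Y z h s
    unfold c9aTile
    rw [clause Y z h _ (Finset.insert_nonempty _ _)]
    refine forall_congr' fun v => forall_congr' fun ρ => ?_
    simp
  have cb : ∀ (Y : ℤ × ℤ → ZMod p → ZMod (p ^ 3)) (z : ℤ × ℤ → ZMod p → ∀ a, ZMod (r a)),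
      SolBase n w e rigid Y z → (IsTilingBy (c9bTile n w) (gr Y z) ↔
        ∀ v ρ, z (v - n.N none • w) ρ none = z v ρ none ∨
          ∃ s : S, z (v - n.N (some s) • w) ρ (some s) + 1 = z v ρ (some s)) := by
    intro Y z h
    unfold c9bTile
    rw [clause Y z h _ ⟨none, Finset.mem_univ _⟩]
    refine forall_congr' fun v => forall_congr' fun ρ => ?_
    constructor
    · rintro ⟨g, -, hg⟩
      rcases g with _ | s
      · left; simpa using hg
      · right; exact ⟨s, by simpa using hg⟩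
    · rintro (h | ⟨s, h⟩)
      · exact ⟨none, Finset.mem_univ _, by simpa using h⟩
      · exact ⟨some s, Finset.mem_univ _, by simpa using h⟩
  constructor
  · intro h
    obtain ⟨Y, z, rfl, hB⟩ := (baseSys_iff hp hr hw he n rigid).1
      (fun F hF => h F (Or.inl (Or.inl hF)))
    have h1 := fun s => (ca Y z hB s).1 (h _ (Or.inl (Or.inr ⟨s, rfl⟩)))
    have h2 := (cb Y z hB).1 (h _ (Or.inr rfl))
    obtain ⟨hb, hrig, hX, hc5, hc6⟩ := hB
    exact ⟨Y, z, ⟨hb, hrig, hX, hc5, hc6, h1, h2⟩, rfl⟩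
  · rintro ⟨Y, z, hS, rfl⟩ F hF
    have hB : SolBase n w e rigid Y z := ⟨hS.base, hS.rig, hS.cX, hS.c5, hS.c6⟩
    rcases hF with (hF | ⟨s, rfl⟩) | rfl
    · exact (baseSys_iff hp hr hw he n rigid).2 ⟨Y, z, rfl, hB⟩ F hF
    · exact (ca Y z hB s).2 (hS.c9a s)
    · exact (cb Y z hB).2 hS.c9b

end Crest.Agent.R046.CompSys
end

-- ▼ part R046/TruthCore
section

/-!
Row 46, truth side of the component: explicit positions.

At time `T : ZMod (p^2)` the role `ρ : ZMod p` is on the class `cl T ρ = T + sg T ρ`, where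
`sg T ρ = (ρ - T mod p) ∈ [0, p)`; the class is moving iff its representative is `< p`;
`Yt T ρ = cl - p^2 * mv * sg`.
-/

set_option autoImplicit false

namespace Crest.Agent.R046.Truth

open Crest.Agent.R046.Comp

variable (p : ℕ)

/-- the offset of role `ρ` at time `T`, in `[0, p)` -/
def sg (T : ZMod (p ^ 2)) (ρ : ZMod p) : ℕ := (ρ - r21 p T).val

/-- the class of role `ρ` at time `T` -/
def clt (T : ZMod (p ^ 2)) (ρ : ZMod p) : ZMod (p ^ 2) := T + (sg p T ρ : ZMod (p ^ 2))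

/-- moving indicator of a class -/
def mv (c : ZMod (p ^ 2)) : ℕ := if c.val < p then 1 else 0

/-- the true position -/
def Yt (T : ZMod (p ^ 2)) (ρ : ZMod p) : ZMod (p ^ 3) :=
  ((clt p T ρ).val : ZMod (p ^ 3)) - (p : ZMod (p ^ 3)) ^ 2 * ((mv p (clt p T ρ) * sg p T ρ : ℕ) : ZMod (p ^ 3))

/-- the true base slope -/
def σt (T : ZMod (p ^ 2)) (ρ : ZMod p) : ℕ := mv p (clt p T ρ)

variable {p}

theorem sg_cast [NeZero p] (T : ZMod (p ^ 2)) (ρ : ZMod p) :
    ((sg p T ρ : ℕ) : ZMod p) = ρ - r21 p T := by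
  unfold sg; simp

theorem r32_psq : r32 p ((p : ZMod (p ^ 3)) ^ 2) = 0 := by
  rw [map_pow, map_natCast]
  have : ((p ^ 2 : ℕ) : ZMod (p ^ 2)) = 0 := ZMod.natCast_self _
  push_cast at this
  exact this

theorem r21_clt [NeZero p] (T : ZMod (p ^ 2)) (ρ : ZMod p) : r21 p (clt p T ρ) = ρ := by
  unfold clt
  rw [map_add, map_natCast, sg_cast]; ring

theorem r32_Yt [NeZero p] (T : ZMod (p ^ 2)) (ρ : ZMod p) : r32 p (Yt p T ρ) = clt p T ρ := by
  have : NeZero (p ^ 2) := ⟨pow_ne_zero _ (NeZero.ne p)⟩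
  unfold Yt
  rw [map_sub, map_mul, r32_psq, zero_mul, sub_zero, map_natCast]
  simp

theorem role_t [NeZero p] (T : ZMod (p ^ 2)) (ρ : ZMod p) : r31 p (Yt p T ρ) = ρ := by
  rw [← r21_r32, r32_Yt, r21_clt]

theorem sg_step (T : ZMod (p ^ 2)) (ρ : ZMod p) : sg p (T + 1) (ρ + 1) = sg p T ρ := by
  unfold sg
  rw [map_add, map_one]
  congr 1; ring

theorem step_t [NeZero p] (T : ZMod (p ^ 2)) (ρ : ZMod p) :
    r32 p (Yt p (T + 1) (ρ + 1)) = r32 p (Yt p T ρ) + 1 := by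
  rw [r32_Yt, r32_Yt]
  unfold clt
  rw [sg_step]; ring

theorem le_one_t (T : ZMod (p ^ 2)) (ρ : ZMod p) : σt p T ρ ≤ 1 := by
  unfold σt mv; split_ifs <;> omega



theorem psq_mul_congr_int {a b : ℤ} (h : (a : ZMod p) = b) :
    (p : ZMod (p ^ 3)) ^ 2 * (a : ZMod (p ^ 3)) = (p : ZMod (p ^ 3)) ^ 2 * (b : ZMod (p ^ 3)) := by
  rw [ZMod.intCast_eq_intCast_iff_dvd_sub] at h
  obtain ⟨k, hk⟩ := h
  have h2 : (p : ZMod (p ^ 3)) ^ 2 * (((b : ℤ) - (a : ℤ) : ℤ) : ZMod (p ^ 3)) = 0 := by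
    rw [hk]
    have : ((p ^ 3 : ℕ) : ZMod (p ^ 3)) = 0 := ZMod.natCast_self _
    push_cast at this ⊢
    rw [← mul_assoc, ← pow_succ, this, zero_mul]
  push_cast at h2
  linear_combination -h2

/-- motion inside a class -/
theorem move_t [NeZero p] (ρ : ZMod p) (T T' : ZMod (p ^ 2))
    (h : r32 p (Yt p T ρ) = r32 p (Yt p T' ρ)) (hT : r21 p T = r21 p T' + 1) :
    Yt p T ρ - Yt p T' ρ = (p : ZMod (p ^ 3)) ^ 2 * (σt p T ρ : ZMod (p ^ 3)) := by
  rw [r32_Yt, r32_Yt] at h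
  unfold Yt σt
  rw [h]
  have h1 : (p : ZMod (p ^ 3)) ^ 2 * (((mv p (clt p T' ρ) : ℤ) * ((sg p T' ρ : ℤ) - sg p T ρ) : ℤ) : ZMod (p ^ 3))
      = (p : ZMod (p ^ 3)) ^ 2 * (((mv p (clt p T' ρ) : ℤ) : ℤ) : ZMod (p ^ 3)) := by
    apply psq_mul_congr_int
    push_cast
    rw [sg_cast, sg_cast, hT]; ring
  push_cast at h1 ⊢
  linear_combination h1


/-! ### the line tile (C4) -/

theorem no_mult {p : ℤ} (hp : 0 < p) {k j a : ℤ} (h : a = p * k) (h1 : p * j < a)
    (h2 : a < p * (j + 1)) : False := by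
  rw [h] at h1 h2
  have h3 := lt_of_mul_lt_mul_left h1 hp.le
  have h4 := lt_of_mul_lt_mul_left h2 hp.le
  omega

theorem key {p c c' s s' m m' d : ℤ} (hp : 2 ≤ p) (hc : 0 ≤ c) (hc1 : c < p * p) (hc' : 0 ≤ c')
    (hc1' : c' < p * p) (hs : 0 ≤ s) (hs1 : s < p) (hs' : 0 ≤ s') (hs1' : s' < p)
    (hd : c' = c + p * d)
    (hm : (c < p ∧ m = 1) ∨ (p ≤ c ∧ m = 0)) (hm' : (c' < p ∧ m' = 1) ∨ (p ≤ c' ∧ m' = 0))
    (h : p ^ 3 ∣ (c + p * c - p * s - p ^ 2 * (m * s)) - (c' + p * c' - p * s' - p ^ 2 * (m' * s'))) :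
    c = c' ∧ s = s' := by
  obtain ⟨k, hk⟩ := h
  have hp0 : (0 : ℤ) < p := by omega
  have h1 : -(p + 1) * d + (s' - s) + p * (m' * s' - m * s) = p ^ 2 * k := by
    have : p * (-(p + 1) * d + (s' - s) + p * (m' * s' - m * s)) = p * (p ^ 2 * k) := by
      rw [hd] at hk
      linear_combination hk
    exact mul_left_cancel₀ hp0.ne' this
  obtain ⟨e, he⟩ : ∃ e, e = p * k + d - (m' * s' - m * s) := ⟨_, rfl⟩
  have h2 : s' - s - d = p * e := by rw [he]; linear_combination h1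
  have hd1 : d < p := by
    have : p * d < p * p := by linarith
    exact lt_of_mul_lt_mul_left this hp0.le
  have hd2 : -p < d := by
    have : p * (-p) < p * d := by linarith
    exact lt_of_mul_lt_mul_left this hp0.le
  have he1 : e ≤ 1 := by
    by_contra hcon
    have : p * 2 ≤ p * e := mul_le_mul_of_nonneg_left (by omega) hp0.le
    omega
  have he2 : -1 ≤ e := by
    by_contra hcon
    have : p * e ≤ p * (-2) := mul_le_mul_of_nonneg_left (by omega) hp0.le
    omega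
  have hee : e = -1 ∨ e = 0 ∨ e = 1 := by omega
  rcases hm with ⟨hcp, rfl⟩ | ⟨hcp, rfl⟩ <;> rcases hm' with ⟨hcp', rfl⟩ | ⟨hcp', rfl⟩
  · -- both moving
    have hd0 : d = 0 := by
      have a1 : p * d < p * 1 := by linarith
      have a2 : p * (-1) < p * d := by linarith
      have a3 := lt_of_mul_lt_mul_left a1 hp0.le
      have a4 := lt_of_mul_lt_mul_left a2 hp0.le
      omega
    subst hd0
    rcases hee with rfl | rfl | rfl
    · omega
    · exact ⟨by linarith, by omega⟩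
    · omega
  · -- c moving, c' not
    have hd0 : 0 < d := by
      have a1 : p * 0 < p * d := by linarith
      exact lt_of_mul_lt_mul_left a1 hp0.le
    exfalso
    rcases hee with rfl | rfl | rfl
    · exact no_mult hp0 (k := k) (j := -2) (a := -1 - d - s) (by linarith) (by omega) (by omega)
    · exact no_mult hp0 (k := k) (j := -1) (a := - d - s) (by linarith) (by omega) (by omega)
    · omega
  · -- c' moving, c not
    have hd0 : d < 0 := by
      have a1 : p * d < p * 0 := by linarith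
      exact lt_of_mul_lt_mul_left a1 hp0.le
    exfalso
    rcases hee with rfl | rfl | rfl
    · omega
    · exact no_mult hp0 (k := k) (j := 0) (a := s' - d) (by linarith) (by omega) (by omega)
    · exact no_mult hp0 (k := k) (j := 1) (a := 1 - d + s') (by linarith) (by omega) (by omega)
  · -- both not moving
    have a1 : p * d < p * (p - 1) := by nlinarith
    have a2 : p * (1 - p) < p * d := by nlinarith
    have a3 := lt_of_mul_lt_mul_left a1 hp0.le
    have a4 := lt_of_mul_lt_mul_left a2 hp0.le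
    have hk0 : k = 0 := by
      rcases lt_trichotomy k 0 with hk0 | hk0 | hk0
      · have : p * k ≤ p * (-1) := mul_le_mul_of_nonneg_left (by omega) hp0.le
        exfalso
        have he' : e = p * k + d := by linarith
        omega
      · exact hk0
      · have : p * 1 ≤ p * k := mul_le_mul_of_nonneg_left (by omega) hp0.le
        exfalso
        have he' : e = p * k + d := by linarith
        omega
    subst hk0
    have he' : e = d := by linarith
    subst he'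
    rcases hee with rfl | rfl | rfl
    · omega
    · exact ⟨by linarith, by omega⟩
    · omega

theorem clt_sub_sg [NeZero p] (T : ZMod (p ^ 2)) (ρ : ZMod p) :
    T = ((((clt p T ρ).val : ℤ) - sg p T ρ : ℤ) : ZMod (p ^ 2)) := by
  have : NeZero (p ^ 2) := ⟨pow_ne_zero _ (NeZero.ne p)⟩
  push_cast
  rw [ZMod.natCast_zmod_val]
  unfold clt; ring

theorem line_val [NeZero p] (T : ZMod (p ^ 2)) (ρ : ZMod p) :
    Yt p T ρ + m23 p T = (((((clt p T ρ).val : ℤ) + p * ((clt p T ρ).val : ℤ) - p * (sg p T ρ : ℤ)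
      - (p : ℤ) ^ 2 * ((mv p (clt p T ρ) : ℤ) * (sg p T ρ : ℤ)) : ℤ)) : ZMod (p ^ 3)) := by
  have h := clt_sub_sg T ρ
  have h2 : m23 p T = (p : ZMod (p ^ 3)) * ((((clt p T ρ).val : ℤ) - sg p T ρ : ℤ) : ZMod (p ^ 3)) := by
    conv_lhs => rw [h]
    rw [m23_intCast]
  rw [h2]
  unfold Yt
  push_cast
  ring

theorem mv_cases (c : ZMod (p ^ 2)) : ((c.val : ℤ) < p ∧ (mv p c : ℤ) = 1) ∨
    ((p : ℤ) ≤ (c.val : ℤ) ∧ (mv p c : ℤ) = 0) := by
  unfold mv
  split_ifs with h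
  · left; exact ⟨by exact_mod_cast h, by simp⟩
  · right; exact ⟨by exact_mod_cast (not_lt.1 h), by simp⟩

/-- C4 for the truth: on the whole of `(time, role)`. -/
theorem line_inj (hp : 2 ≤ p) :
    Function.Injective (fun x : ZMod (p ^ 2) × ZMod p => Yt p x.1 x.2 + m23 p x.1) := by
  have hne : NeZero p := ⟨by omega⟩
  have hne2 : NeZero (p ^ 2) := ⟨pow_ne_zero _ (NeZero.ne p)⟩
  rintro ⟨T, ρ⟩ ⟨T', ρ'⟩ h
  simp only at h
  have hρ : ρ = ρ' := by
    have := congrArg (r31 p) h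
    rw [map_add, map_add, role_t, role_t, r31_m23, r31_m23, add_zero, add_zero] at this
    exact this
  subst hρ
  rw [line_val, line_val, ← sub_eq_zero, ← Int.cast_sub, ZMod.intCast_zmod_eq_zero_iff_dvd] at h
  have hcc : (((clt p T' ρ).val : ℤ) : ZMod p) = (((clt p T ρ).val : ℤ) : ZMod p) := by
    have e : ∀ T, (((clt p T ρ).val : ℤ) : ZMod p) = ρ := by
      intro T
      have h1 := r21_clt T ρ
      have h2 : r21 p (((clt p T ρ).val : ℤ) : ZMod (p ^ 2)) = (((clt p T ρ).val : ℤ) : ZMod p) :=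
        map_intCast _ _
      rw [← h2]
      push_cast
      rw [ZMod.natCast_zmod_val]
      exact h1
    rw [e, e]
  rw [eq_comm, ZMod.intCast_eq_intCast_iff_dvd_sub] at hcc
  obtain ⟨d, hd⟩ := hcc
  have hlt : ∀ c : ZMod (p ^ 2), ((c.val : ℤ)) < (p : ℤ) * p := by
    intro c
    have := ZMod.val_lt c
    have h3 : c.val < p * p := by rw [← pow_two]; exact this
    exact_mod_cast h3
  have hsl : ∀ T, ((sg p T ρ : ℕ) : ℤ) < p := fun T => by
    exact_mod_cast ZMod.val_lt (ρ - r21 p T)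
  obtain ⟨h1, h2⟩ := key (p := (p : ℤ)) (c := ((clt p T ρ).val : ℤ)) (c' := ((clt p T' ρ).val : ℤ))
    (d := d) (by exact_mod_cast hp) (Int.natCast_nonneg _) (hlt _)
    (Int.natCast_nonneg _) (hlt _) (Int.natCast_nonneg _) (hsl T) (Int.natCast_nonneg _) (hsl T')
    (by linarith) (mv_cases _) (mv_cases _) (by exact_mod_cast h)
  have : T = T' := by
    rw [clt_sub_sg T ρ, clt_sub_sg T' ρ, h1, h2]
  rw [this]

theorem line_bij (hp : 2 ≤ p) :
    Function.Bijective (fun x : ZMod (p ^ 2) × ZMod p => Yt p x.1 x.2 + m23 p x.1) := by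
  have hne : NeZero p := ⟨by omega⟩
  have hne2 : NeZero (p ^ 2) := ⟨pow_ne_zero _ (NeZero.ne p)⟩
  have hne3 : NeZero (p ^ 3) := ⟨pow_ne_zero _ (NeZero.ne p)⟩
  rw [Fintype.bijective_iff_injective_and_card]
  refine ⟨line_inj hp, ?_⟩
  rw [Fintype.card_prod, ZMod.card, ZMod.card, ZMod.card]
  ring


/-! ### times at which the roles do not all have the same slope -/

/-- if not all the roles have the same slope at time `T` then `T = ±1, …, ±(p-1)`. -/
theorem mixed_times (hp : 2 ≤ p) {T : ZMod (p ^ 2)} {ρ ρ' : ZMod p} (h : σt p T ρ ≠ σt p T ρ') :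
    ∃ j : ℕ, 1 ≤ j ∧ j < p ∧ (T = (j : ZMod (p ^ 2)) ∨ T = -(j : ZMod (p ^ 2))) := by
  have hne : NeZero p := ⟨by omega⟩
  have hne2 : NeZero (p ^ 2) := ⟨pow_ne_zero _ (NeZero.ne p)⟩
  have hpp : p ≤ p ^ 2 := Nat.le_self_pow two_ne_zero p
  have hTlt : T.val < p ^ 2 := ZMod.val_lt T
  have hs : ∀ ρ, sg p T ρ < p := fun ρ => ZMod.val_lt _
  have hval : ∀ ρ, T.val + sg p T ρ < p ^ 2 → (clt p T ρ).val = T.val + sg p T ρ := by
    intro ρ hh
    unfold clt
    have : T + (sg p T ρ : ZMod (p ^ 2)) = ((T.val + sg p T ρ : ℕ) : ZMod (p ^ 2)) := by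
      push_cast; rw [ZMod.natCast_zmod_val]
    rw [this, ZMod.val_natCast, Nat.mod_eq_of_lt hh]
  rcases Nat.lt_or_ge T.val p with h1 | h1
  · refine ⟨T.val, ?_, h1, Or.inl (by rw [ZMod.natCast_zmod_val])⟩
    by_contra hcon
    have h0 : T.val = 0 := by omega
    apply h
    have : ∀ ρ, σt p T ρ = 1 := by
      intro ρ
      have h2 := hval ρ (by have := hs ρ; omega)
      unfold σt mv
      rw [h2, h0, zero_add, if_pos (hs ρ)]
    rw [this, this]
  · have h2 : p ^ 2 - T.val < p := by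
      by_contra hcon
      apply h
      have : ∀ ρ, σt p T ρ = 0 := by
        intro ρ
        have h2 := hval ρ (by have := hs ρ; omega)
        unfold σt mv
        rw [h2, if_neg (by omega)]
      rw [this, this]
    refine ⟨p ^ 2 - T.val, by omega, h2, Or.inr ?_⟩
    rw [Nat.cast_sub hTlt.le, ZMod.natCast_self, ZMod.natCast_zmod_val]
    ring

end Crest.Agent.R046.Truth
end

-- ▼ part R046/TruthSlice
section

/-!
Row 46, truth side: the explicit graph `(Yv, zv)` satisfies the slice statements of all the tiles of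
the component (frozen form of helper499, note 8244).
-/

set_option autoImplicit false

namespace Crest.Agent.R046.Truth

open Crest.Agent.R046.Comp

variable {p : ℕ} {Γ : Type*} (r : Γ → ℕ)

/-- times, label times, activity of the labels; everything read along the direction `w` -/
structure Times (p : ℕ) (Γ : Type*) (w : ℤ × ℤ) where
  Tm : ℤ × ℤ → ZMod (p ^ 2)
  θ : ℤ × ℤ → ℤ
  act : ℤ × ℤ → Γ → ℕ
  hT : ∀ (v : ℤ × ℤ) (n : ℤ), Tm (v + n • w) = Tm v + n
  hθ : ∀ (v : ℤ × ℤ) (n : ℤ), θ (v + n • w) = θ v + n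
  hact : ∀ (v : ℤ × ℤ) (n : ℤ) (g : Γ), act (v + n • w) g = act v g
  hact1 : ∀ v g, act v g ≤ 1

namespace Times

variable {w : ℤ × ℤ} (D : Times p Γ w)

/-- the positions -/
def Y (v : ℤ × ℤ) (ρ : ZMod p) : ZMod (p ^ 3) := Yt p (D.Tm v) ρ

/-- the slope of label `g` at the point of role `ρ` -/
def sl (v : ℤ × ℤ) (ρ : ZMod p) (g : Γ) : ℕ := σt p (D.Tm v) ρ * D.act v g

/-- the labels -/
def z (v : ℤ × ℤ) (ρ : ZMod p) (g : Γ) : ZMod (r g) :=
  (D.sl v ρ g : ZMod (r g)) * (D.θ v : ZMod (r g))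

theorem sl_cases (v : ℤ × ℤ) (ρ : ZMod p) (g : Γ) : D.sl v ρ g = 0 ∨ D.sl v ρ g = 1 := by
  unfold sl
  have h1 := le_one_t (D.Tm v) ρ
  have h2 := D.hact1 v g
  have h3 : σt p (D.Tm v) ρ * D.act v g ≤ 1 * 1 := Nat.mul_le_mul h1 h2
  omega

theorem Y_shift (v : ℤ × ℤ) (ρ : ZMod p) (n : ℤ) : D.Y (v + n • w) ρ = Yt p (D.Tm v + n) ρ := by
  unfold Y; rw [D.hT]

theorem z_shift (v : ℤ × ℤ) (ρ : ZMod p) (g : Γ) (n : ℤ) :
    D.z r (v + n • w) ρ g = ((σt p (D.Tm v + n) ρ * D.act v g : ℕ) : ZMod (r g)) * (D.θ v + n) := by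
  unfold z sl; rw [D.hT, D.hθ, D.hact]; push_cast; ring

/-- shift by a multiple of `p^2` -/
theorem z_shift' (v : ℤ × ℤ) (ρ : ZMod p) (g : Γ) (n : ℤ) (hn : (n : ZMod (p ^ 2)) = 0) :
    D.z r (v + n • w) ρ g = D.z r v ρ g + (D.sl v ρ g : ZMod (r g)) * n := by
  rw [D.z_shift, hn, add_zero]; unfold z sl; ring

/-! ### T, C2, C3, C4 -/

theorem role [NeZero p] (v : ℤ × ℤ) (ρ : ZMod p) : r31 p (D.Y v ρ) = ρ := role_t _ _

theorem C2 (v : ℤ × ℤ) (ρ : ZMod p) : D.Y (v + ((p : ℤ) ^ 2) • w) ρ = D.Y v ρ := by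
  rw [Y_shift]
  have : (((p : ℤ) ^ 2 : ℤ) : ZMod (p ^ 2)) = 0 := by
    have := ZMod.natCast_self (p ^ 2)
    push_cast at this ⊢
    exact this
  rw [this, add_zero]; rfl

theorem C3 [NeZero p] (v : ℤ × ℤ) (ρ : ZMod p) :
    r32 p (D.Y (v + w) (ρ + 1)) = r32 p (D.Y v ρ) + 1 := by
  have h := D.Y_shift v (ρ + 1) 1
  rw [one_smul, Int.cast_one] at h
  rw [h]
  exact step_t _ _

theorem C4 (hp : 2 ≤ p) (v : ℤ × ℤ) (y : ZMod (p ^ 3)) :
    ∃! k : ℕ, k < p ^ 2 ∧ D.Y (v - k • w) (r31 p y) = y + (p : ZMod (p ^ 3)) * k := by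
  have hne : NeZero p := ⟨by omega⟩
  have hne2 : NeZero (p ^ 2) := ⟨pow_ne_zero _ (NeZero.ne p)⟩
  -- reformulation
  have hre : ∀ k : ℕ, D.Y (v - k • w) (r31 p y) = y + (p : ZMod (p ^ 3)) * k ↔
      Yt p (D.Tm v - k) (r31 p y) + m23 p (D.Tm v - k) = y + m23 p (D.Tm v) := by
    intro k
    have h1 : v - k • w = v + (-(k : ℤ)) • w := by
      rw [neg_smul, natCast_zsmul, sub_eq_add_neg]
    rw [h1, Y_shift]
    have h2 : m23 p (D.Tm v - k) = m23 p (D.Tm v) - (p : ZMod (p ^ 3)) * k := by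
      rw [map_sub]
      have := m23_intCast p (k : ℤ)
      push_cast at this
      rw [this]
    rw [h2]
    push_cast
    rw [← sub_eq_add_neg]
    constructor
    · intro h; rw [h]; ring
    · intro h; linear_combination h
  obtain ⟨⟨T', ρ'⟩, hT'⟩ := (line_bij hp).2 (y + m23 p (D.Tm v))
  simp only at hT'
  have hρ : ρ' = r31 p y := by
    have := congrArg (r31 p) hT'
    rw [map_add, map_add, role_t, r31_m23, r31_m23, add_zero, add_zero] at this
    exact this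
  subst hρ
  refine ⟨(D.Tm v - T').val, ⟨ZMod.val_lt _, ?_⟩, ?_⟩
  · rw [hre, ZMod.natCast_zmod_val, sub_sub_cancel]
    exact hT'
  · rintro k ⟨hk, hk2⟩
    rw [hre] at hk2
    have h1 := line_inj hp (a₁ := (D.Tm v - k, r31 p y)) (a₂ := (T', r31 p y)) (hk2.trans hT'.symm)
    have h2 : D.Tm v - k = T' := congrArg Prod.fst h1
    have h3 : (k : ZMod (p ^ 2)) = D.Tm v - T' := by rw [← h2]; ring
    rw [← h3, ZMod.val_natCast, Nat.mod_eq_of_lt hk]

/-! ### labels -/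

theorem C5 (g : Γ) (v : ℤ × ℤ) (ρ : ZMod p) (n : ℤ) (hn : (n : ZMod (p ^ 2)) = 0)
    (hn2 : (n : ZMod (r g)) = 0) : D.z r (v + n • w) ρ g = D.z r v ρ g := by
  rw [D.z_shift' r v ρ g n hn, hn2, mul_zero, add_zero]

theorem C6 (g : Γ) (v : ℤ × ℤ) (ρ : ZMod p) (n : ℤ) (hn : (n : ZMod (p ^ 2)) = 0)
    (hn2 : (n : ZMod (r g)) = 1) :
    (D.z r (v + n • w) ρ g = D.z r v ρ g ∧ D.z r (v - n • w) ρ g = D.z r v ρ g) ∨
    (D.z r (v + n • w) ρ g = D.z r v ρ g + 1 ∧ D.z r (v - n • w) ρ g = D.z r v ρ g - 1) := by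
  have h1 := D.z_shift' r v ρ g n hn
  have h2 := D.z_shift' r v ρ g (-n) (by rw [Int.cast_neg, hn, neg_zero])
  rw [neg_smul, ← sub_eq_add_neg, Int.cast_neg] at h2
  rw [h1, h2, hn2]
  rcases D.sl_cases v ρ g with h | h
  · left; rw [h]; constructor <;> simp
  · right; rw [h]; constructor <;> push_cast <;> ring

/-! ### classes -/

theorem clt_sub [NeZero p] (T : ZMod (p ^ 2)) (ρ : ZMod p) (x : ZMod (p ^ 2)) (hx : r21 p x = 0) :
    clt p (T + x) ρ = clt p T ρ + x := by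
  unfold clt sg
  rw [map_add, hx, add_zero]; ring

theorem r32_Y [NeZero p] (v : ℤ × ℤ) (ρ : ZMod p) : r32 p (D.Y v ρ) = clt p (D.Tm v) ρ := r32_Yt _ _

theorem X [NeZero p] (n : ℤ) (hn : (n : ZMod (p ^ 2)) = p) (v : ℤ × ℤ) (c : ZMod (p ^ 2)) :
    ∃! k : ℕ, k < p ∧ r32 p (D.Y (v - k • (n • w)) (r21 p c)) = c := by
  have hre : ∀ k : ℕ, r32 p (D.Y (v - k • (n • w)) (r21 p c)) = c ↔
      m12 p (k : ZMod p) = clt p (D.Tm v) (r21 p c) - c := by
    intro k
    have h1 : v - k • (n • w) = v + (-((k : ℤ) * n)) • w := by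
      rw [neg_smul, mul_smul, natCast_zsmul, sub_eq_add_neg]
    rw [r32_Y, h1, D.hT]
    have h2 : ((-((k : ℤ) * n) : ℤ) : ZMod (p ^ 2)) = - (p * k) := by
      push_cast; rw [hn]; ring
    rw [h2, clt_sub]
    · have := m12_intCast p (k : ℤ)
      push_cast at this
      rw [this]
      constructor
      · intro h; linear_combination -h
      · intro h; linear_combination -h
    · rw [map_neg, map_mul, map_natCast, ZMod.natCast_self, zero_mul, neg_zero]
  -- existence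
  have hd : r21 p (clt p (D.Tm v) (r21 p c) - c) = 0 := by
    rw [map_sub, r21_clt, sub_self]
  obtain ⟨m, hm⟩ := exists_int (clt p (D.Tm v) (r21 p c) - c)
  rw [← hm, map_intCast, ZMod.intCast_zmod_eq_zero_iff_dvd] at hd
  obtain ⟨q, hq⟩ := hd
  have hq2 : m12 p (q : ZMod p) = clt p (D.Tm v) (r21 p c) - c := by
    rw [m12_intCast, ← hm, hq]; push_cast; ring
  refine ⟨((q : ZMod p)).val, ⟨ZMod.val_lt _, ?_⟩, ?_⟩
  · rw [hre, ZMod.natCast_zmod_val, hq2]
  · rintro k ⟨hk, hk2⟩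
    rw [hre, ← hq2] at hk2
    have h3 : (p : ZMod (p ^ 2)) * (((k : ℤ) - q : ℤ) : ZMod (p ^ 2)) = 0 := by
      have e1 := m12_intCast p (k : ℤ)
      have e2 := m12_intCast p q
      push_cast at e1 e2 ⊢
      rw [mul_sub, ← e1, ← e2, hk2, sub_self]
    have h4 : (((p : ℤ) * ((k : ℤ) - q) : ℤ) : ZMod (p ^ 2)) = 0 := by push_cast; push_cast at h3; exact h3
    rw [ZMod.intCast_zmod_eq_zero_iff_dvd] at h4
    have h5 : (p : ℤ) ∣ (k : ℤ) - q := by
      have e : ((p ^ 2 : ℕ) : ℤ) = (p : ℤ) * p := by push_cast; ring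
      rw [e] at h4
      exact (mul_dvd_mul_iff_left (by exact_mod_cast NeZero.ne p)).1 h4
    have h6 : (k : ZMod p) = (q : ZMod p) := by
      have := (ZMod.intCast_eq_intCast_iff_dvd_sub q (k : ℤ) p).2 h5
      push_cast at this
      exact this.symm
    rw [← h6, ZMod.val_natCast, Nat.mod_eq_of_lt hk]

/-- visit of the class `c` near `v` -/
def Vis (P : ℤ × ℤ) (c : ZMod (p ^ 2)) (v v' : ℤ × ℤ) : Prop :=
  ∃ k : ℕ, k < p ∧ v' = v - k • P ∧ r32 p (D.Y v' (r21 p c)) = c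

/-- two points of the same class at consecutive residues -/
theorem D_aux [NeZero p] (g : Γ) (hg : ∀ v, D.act v g = 1) {c : ZMod (p ^ 2)} {v0 v1 : ℤ × ℤ}
    {m : ℤ} (hv : v1 = v0 + m • w) (hm : (m : ZMod p) = 1)
    (h0 : r32 p (D.Y v0 (r21 p c)) = c) (h1 : r32 p (D.Y v1 (r21 p c)) = c) :
    D.Y v1 (r21 p c) = D.Y v0 (r21 p c) + (p : ZMod (p ^ 3)) ^ 2 * (mv p c : ZMod (p ^ 3)) ∧
    D.z r v1 (r21 p c) g = D.z r v0 (r21 p c) g + (mv p c : ZMod (r g)) * m := by
  have e0 : clt p (D.Tm v0) (r21 p c) = c := by rw [← r32_Y]; exact h0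
  have e1 : clt p (D.Tm v1) (r21 p c) = c := by rw [← r32_Y]; exact h1
  constructor
  · have := move_t (r21 p c) (D.Tm v1) (D.Tm v0) (by rw [r32_Yt, r32_Yt, e0, e1])
      (by rw [hv, D.hT, map_add, map_intCast, hm])
    unfold σt at this
    rw [e1] at this
    unfold Y
    rw [← this]; ring
  · unfold z sl σt
    rw [e0, e1, hg, hg, hv, D.hθ]
    push_cast; ring

/-- the tiles `D2` and `D3` -/
theorem D23 [NeZero p] (g : Γ) (hg : ∀ v, D.act v g = 1) (nP n1 : ℤ) (δ : ZMod (r g))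
    (hnP : (nP : ZMod (p ^ 2)) = p) (hnPr : (nP : ZMod (r g)) = 0)
    (hn1 : (n1 : ZMod (p ^ 2)) = 1) (hn1r : (n1 : ZMod (r g)) = δ)
    (c : ZMod (p ^ 2)) (v v0 v1 v2 : ℤ × ℤ)
    (h0 : D.Vis (nP • w) c v v0) (h1 : D.Vis (nP • w) c (v + n1 • w) v1)
    (h2 : D.Vis (nP • w) c (v - n1 • w) v2) :
    ((D.Y v1 (r21 p c), D.z r v1 (r21 p c) g) = (D.Y v0 (r21 p c), D.z r v0 (r21 p c) g) ∧
      (D.Y v2 (r21 p c), D.z r v2 (r21 p c) g) = (D.Y v0 (r21 p c), D.z r v0 (r21 p c) g)) ∨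
    ((D.Y v1 (r21 p c), D.z r v1 (r21 p c) g) =
        (D.Y v0 (r21 p c), D.z r v0 (r21 p c) g) + ((p : ZMod (p ^ 3)) ^ 2, δ) ∧
      (D.Y v2 (r21 p c), D.z r v2 (r21 p c) g) =
        (D.Y v0 (r21 p c), D.z r v0 (r21 p c) g) - ((p : ZMod (p ^ 3)) ^ 2, δ)) := by
  obtain ⟨k0, -, hv0, hc0⟩ := h0
  obtain ⟨k1, -, hv1, hc1⟩ := h1
  obtain ⟨k2, -, hv2, hc2⟩ := h2
  have hred : ∀ a b : ℤ, (a : ZMod (p ^ 2)) = b → (a : ZMod p) = b := by
    intro a b hab
    have := congrArg (r21 p) hab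
    simpa using this
  have hnPp : (nP : ZMod p) = 0 := by
    have := congrArg (r21 p) hnP
    simpa using this
  have hn1p : (n1 : ZMod p) = 1 := by
    have := congrArg (r21 p) hn1
    simpa using this
  have w1 : v1 = v0 + (n1 + (k0 : ℤ) * nP - (k1 : ℤ) * nP) • w := by
    rw [hv1, hv0, ← natCast_zsmul (nP • w) k0, ← natCast_zsmul (nP • w) k1, smul_smul, smul_smul,
      sub_smul, add_smul]
    abel
  have w2 : v0 = v2 + (n1 + (k2 : ℤ) * nP - (k0 : ℤ) * nP) • w := by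
    rw [hv2, hv0, ← natCast_zsmul (nP • w) k0, ← natCast_zsmul (nP • w) k2, smul_smul, smul_smul,
      sub_smul, add_smul]
    abel
  obtain ⟨a1, b1⟩ := D.D_aux r g hg w1 (by push_cast; rw [hnPp, hn1p]; ring) hc0 hc1
  obtain ⟨a2, b2⟩ := D.D_aux r g hg w2 (by push_cast; rw [hnPp, hn1p]; ring) hc2 hc0
  have c1 : ((n1 + (k0 : ℤ) * nP - (k1 : ℤ) * nP : ℤ) : ZMod (r g)) = δ := by
    push_cast; rw [hnPr, hn1r]; ring
  have c2 : ((n1 + (k2 : ℤ) * nP - (k0 : ℤ) * nP : ℤ) : ZMod (r g)) = δ := by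
    push_cast; rw [hnPr, hn1r]; ring
  rw [c1] at b1
  rw [c2] at b2
  have hmv : mv p c = 0 ∨ mv p c = 1 := by unfold mv; split_ifs <;> simp
  rcases hmv with hm | hm
  · left
    rw [hm] at a1 b1 a2 b2
    simp only [Nat.cast_zero, mul_zero, zero_mul, add_zero] at a1 b1 a2 b2
    exact ⟨Prod.ext a1 b1, Prod.ext a2.symm b2.symm⟩
  · right
    rw [hm] at a1 b1 a2 b2
    simp only [Nat.cast_one, mul_one, one_mul] at a1 b1 a2 b2
    refine ⟨Prod.ext a1 b1, Prod.ext ?_ ?_⟩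
    · show D.Y v2 (r21 p c) = D.Y v0 (r21 p c) - (p : ZMod (p ^ 3)) ^ 2
      rw [a2]; ring
    · show D.z r v2 (r21 p c) g = D.z r v0 (r21 p c) g - δ
      rw [b2]; ring

/-! ### C9 -/

theorem slope_of (g : Γ) (v : ℤ × ℤ) (ρ : ZMod p) (n : ℤ) (hn : (n : ZMod (p ^ 2)) = 0)
    (hn2 : (n : ZMod (r g)) = 1) :
    D.z r (v - n • w) ρ g + (D.sl v ρ g : ZMod (r g)) = D.z r v ρ g := by
  have h2 := D.z_shift' r v ρ g (-n) (by rw [Int.cast_neg, hn, neg_zero])
  rw [neg_smul, ← sub_eq_add_neg, Int.cast_neg, hn2] at h2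
  rw [h2]; ring

end Times

end Crest.Agent.R046.Truth
end

-- ▼ part R046/CompTruth
section

/-!
Row 46, truth side: consequences of badness for the explicit graph, and the slice statements with
general geometry.
-/

set_option autoImplicit false

namespace Crest.Agent.R046.Truth

open Crest.Agent.R046.Comp Crest.Agent.R046.CompSys

variable {p : ℕ} {Γ : Type} (r : Γ → ℕ)

namespace Times

variable {w : ℤ × ℤ} (D : Times p Γ w)

theorem bad_imp (hp : 2 ≤ p) {v : ℤ × ℤ} {g : Γ} {ρ ρ' : ZMod p}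
    (h : D.z r v ρ g ≠ D.z r v ρ' g) :
    D.act v g = 1 ∧ (D.θ v : ZMod (r g)) ≠ 0 ∧
      ∃ j : ℕ, 1 ≤ j ∧ j < p ∧ (D.Tm v = (j : ZMod (p ^ 2)) ∨ D.Tm v = -(j : ZMod (p ^ 2))) := by
  have ha : D.act v g = 1 := by
    by_contra hcon
    have h0 : D.act v g = 0 := by have := D.hact1 v g; omega
    apply h; unfold z sl; rw [h0]; simp
  refine ⟨ha, ?_, ?_⟩
  · intro h0; apply h; unfold z; rw [h0]; simp
  · apply mixed_times hp (ρ := ρ) (ρ' := ρ')
    intro hσ; apply h; unfold z sl; rw [hσ]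

end Times

/-- times read off coordinates `(l, t)` of `ℤ × ℤ` -/
def mkTimes (p : ℕ) {Γ : Type} (l t : ℤ × ℤ → ℤ) (w : ℤ × ℤ) (hl : ∀ (v : ℤ × ℤ) (n : ℤ), l (v + n • w) = l v)
    (ht : ∀ (v : ℤ × ℤ) (n : ℤ), t (v + n • w) = t v + n)
    (o h : ℤ → ℤ) (act : ℤ → Γ → ℕ) (hact : ∀ n g, act n g ≤ 1) : Times p Γ w where
  Tm v := ((t v - o (l v) : ℤ) : ZMod (p ^ 2))
  θ v := t v - h (l v)
  act v g := act (l v) g
  hT v n := by rw [hl, ht]; push_cast; ring
  hθ v n := by rw [hl, ht]; ring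
  hact v n g := by rw [hl]
  hact1 v g := hact _ _

/-- activity of the labels `Option S`: `none` is always active, `some s` iff `s` is the letter. -/
def actS {S : Type} [DecidableEq S] (lam : ℤ → S) (n : ℤ) : Option S → ℕ
  | none => 1
  | some s => if lam n = s then 1 else 0

theorem actS_le {S : Type} [DecidableEq S] (lam : ℤ → S) (n : ℤ) (g : Option S) :
    actS lam n g ≤ 1 := by
  rcases g with _ | s
  · exact le_rfl
  · show (if lam n = s then 1 else 0) ≤ 1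
    split_ifs <;> omega

section geo

variable {S : Type} [DecidableEq S] (w e : ℤ × ℤ) (l t : ℤ × ℤ → ℤ)
  (hv : ∀ v, v = l v • e + t v • w) (hl : ∀ a b : ℤ, l (a • e + b • w) = a)
  (ht : ∀ a b : ℤ, t (a • e + b • w) = b)

include hv hl in
theorem geo_l (v : ℤ × ℤ) (n : ℤ) : l (v + n • w) = l v := by
  conv_lhs => rw [hv v, add_assoc, ← add_smul, hl]

include hv ht in
theorem geo_t (v : ℤ × ℤ) (n : ℤ) : t (v + n • w) = t v + n := by
  conv_lhs => rw [hv v, add_assoc, ← add_smul, ht]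

include hv ht in
theorem geo_te (v : ℤ × ℤ) : t (v + e) = t v := by
  have : v + e = (l v + 1) • e + t v • w := by
    conv_lhs => rw [hv v]
    rw [add_smul, one_smul]; abel
  rw [this, ht]

/-- the truth of a component -/
def tD (lam : ℤ → S) (h o : ℤ → ℤ) : Times p (Option S) w :=
  mkTimes p l t w (geo_l w e l t hv hl) (geo_t w e l t hv ht) o h (actS lam) (actS_le lam)


variable (p) (lam : ℤ → S) (h o : ℤ → ℤ) (rr : Option S → ℕ)

local notation "𝔇" => tD (p := p) w e l t hv hl ht lam h o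

include hv hl ht

theorem t_trans (ho : ∀ n, o n = 0) (v : ℤ × ℤ) (ρ : ZMod p) :
    Times.Y 𝔇 (v + e) ρ = Times.Y 𝔇 v ρ := by
  have : (𝔇).Tm (v + e) = (𝔇).Tm v := by
    show ((t (v + e) - o (l (v + e)) : ℤ) : ZMod (p ^ 2)) = ((t v - o (l v) : ℤ) : ZMod (p ^ 2))
    rw [ho, ho, geo_te w e l t hv ht]
  unfold Times.Y; rw [this]

theorem t_c5 (a : Option S) (v : ℤ × ℤ) (ρ : ZMod p) :
    Times.z rr 𝔇 (v + ((p : ℤ) ^ 2 * rr a) • w) ρ a = Times.z rr 𝔇 v ρ a := by
  apply Times.C5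
  · have := ZMod.natCast_self (p ^ 2)
    push_cast at this ⊢
    rw [this, zero_mul]
  · push_cast; simp


theorem t_act_some (v : ℤ × ℤ) (s : S) : (𝔇).act v (some s) = if lam (l v) = s then 1 else 0 := rfl

theorem t_base2 (hp : 2 ≤ p) (N : Nums p rr) :
    Base2 p (rr none) w N.N1 N.Np (N.N none) (Times.Y 𝔇) (fun v ρ => Times.z rr 𝔇 v ρ none) := by
  have hne : NeZero p := ⟨by omega⟩
  refine ⟨(𝔇).role, (𝔇).C2, (𝔇).C3, (𝔇).C4 hp, fun v ρ => t_c5 p w e l t hv hl ht lam h o rr none v ρ, ?_, ?_⟩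
  · intro c v v0 v1 v2 h0 h1 h2
    exact (𝔇).D23 rr none (fun _ => rfl) N.Np N.N1 0 N.hp (N.hpr none) N.h1 (N.h1r none) c v v0 v1 v2
      h0 h1 h2
  · intro c v v0 v1 v2 h0 h1 h2
    exact (𝔇).D23 rr none (fun _ => rfl) N.Np (N.N1 + N.N none) 1 N.hp (N.hpr none)
      (by rw [Int.cast_add, N.h1, N.hN, add_zero])
      (by rw [Int.cast_add, N.h1r, N.hNa, zero_add]) c v v0 v1 v2 h0 h1 h2

theorem t_X [NeZero p] (N : Nums p rr) (v : ℤ × ℤ) (c : ZMod (p ^ 2)) :
    ∃! k : ℕ, k < p ∧ r32 p (Times.Y 𝔇 (v - k • (N.Np • w)) (r21 p c)) = c :=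
  (𝔇).X N.Np N.hp v c

theorem t_c6 (N : Nums p rr) (g : Option S) (v : ℤ × ℤ) (ρ : ZMod p) :
    (Times.z rr 𝔇 (v + N.N g • w) ρ g = Times.z rr 𝔇 v ρ g ∧
      Times.z rr 𝔇 (v - N.N g • w) ρ g = Times.z rr 𝔇 v ρ g) ∨
    (Times.z rr 𝔇 (v + N.N g • w) ρ g = Times.z rr 𝔇 v ρ g + 1 ∧
      Times.z rr 𝔇 (v - N.N g • w) ρ g = Times.z rr 𝔇 v ρ g - 1) :=
  (𝔇).C6 rr g v ρ (N.N g) (N.hN g) (N.hNa g)

theorem t_slope (N : Nums p rr) (g : Option S) (v : ℤ × ℤ) (ρ : ZMod p) :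
    Times.z rr 𝔇 (v - N.N g • w) ρ g + ((𝔇).sl v ρ g : ZMod (rr g)) = Times.z rr 𝔇 v ρ g :=
  (𝔇).slope_of rr g v ρ (N.N g) (N.hN g) (N.hNa g)

theorem t_c9a (N : Nums p rr) (s : S) (v : ℤ × ℤ) (ρ : ZMod p) :
    Times.z rr 𝔇 (v - N.N none • w) ρ none + 1 = Times.z rr 𝔇 v ρ none ∨
      Times.z rr 𝔇 (v - N.N (some s) • w) ρ (some s) = Times.z rr 𝔇 v ρ (some s) := by
  have h0 := t_slope p w e l t hv hl ht lam h o rr N none v ρ
  have h1 := t_slope p w e l t hv hl ht lam h o rr N (some s) v ρ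
  rcases (𝔇).sl_cases v ρ none with hc | hc
  · right
    have hσ : σt p ((𝔇).Tm v) ρ = 0 := by
      have : σt p ((𝔇).Tm v) ρ * 1 = 0 := hc
      omega
    have h2 : (𝔇).sl v ρ (some s) = 0 := by
      unfold Times.sl; rw [hσ, zero_mul]
    rw [h2, Nat.cast_zero, add_zero] at h1
    exact h1
  · left
    rw [hc, Nat.cast_one] at h0
    exact h0

theorem t_c9b (N : Nums p rr) (v : ℤ × ℤ) (ρ : ZMod p) :
    Times.z rr 𝔇 (v - N.N none • w) ρ none = Times.z rr 𝔇 v ρ none ∨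
      ∃ s, Times.z rr 𝔇 (v - N.N (some s) • w) ρ (some s) + 1 = Times.z rr 𝔇 v ρ (some s) := by
  have h0 := t_slope p w e l t hv hl ht lam h o rr N none v ρ
  rcases (𝔇).sl_cases v ρ none with hc | hc
  · left
    rw [hc, Nat.cast_zero, add_zero] at h0
    exact h0
  · right
    refine ⟨lam (l v), ?_⟩
    have h1 := t_slope p w e l t hv hl ht lam h o rr N (some (lam (l v))) v ρ
    have hσ : σt p ((𝔇).Tm v) ρ = 1 := by
      have : σt p ((𝔇).Tm v) ρ * 1 = 1 := hc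
      omega
    have h2 : (𝔇).sl v ρ (some (lam (l v))) = 1 := by
      unfold Times.sl; rw [hσ, t_act_some, if_pos rfl]
    rw [h2, Nat.cast_one] at h1
    exact h1

/-- badness in the truth -/
theorem t_bad (hp : 2 ≤ p) {v : ℤ × ℤ} {s : S} {ρ ρ' : ZMod p}
    (hz : Times.z rr 𝔇 v ρ (some s) ≠ Times.z rr 𝔇 v ρ' (some s)) :
    lam (l v) = s ∧ (t v : ZMod (rr (some s))) ≠ h (l v) ∧
      ∃ j : ℤ, j ≠ 0 ∧ |j| < p ∧ (t v : ZMod (p ^ 2)) = o (l v) + j := by
  obtain ⟨h1, h2, j, hj1, hj2, hj3⟩ := (𝔇).bad_imp rr hp hz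
  refine ⟨?_, ?_, ?_⟩
  · rw [t_act_some] at h1
    by_contra hcon
    rw [if_neg hcon] at h1
    omega
  · intro hh
    apply h2
    show ((t v - h (l v) : ℤ) : ZMod (rr (some s))) = 0
    push_cast
    rw [hh, sub_self]
  · have hT : (𝔇).Tm v = (t v : ZMod (p ^ 2)) - (o (l v) : ZMod (p ^ 2)) := by
      show ((t v - o (l v) : ℤ) : ZMod (p ^ 2)) = _
      push_cast; rfl
    rw [hT] at hj3
    rcases hj3 with hj3 | hj3
    · refine ⟨j, by omega, by rw [Nat.abs_cast]; exact_mod_cast hj2, ?_⟩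
      push_cast
      linear_combination hj3
    · refine ⟨-j, by omega, by rw [abs_neg, Nat.abs_cast]; exact_mod_cast hj2, ?_⟩
      push_cast
      linear_combination hj3

end geo

end Crest.Agent.R046.Truth
end

-- ▼ part R046/TruthFinal
section

/-!
Row 46: the truth side of the component theorem.
-/

set_option autoImplicit false

namespace Crest.Agent.R046.Truth

open Crest.CombinatoricsR.Tiling Crest.Agent.R046.Comp Crest.Agent.R046.CompSys

variable {p : ℕ} {S : Type} [DecidableEq S] {r : Option S → ℕ}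

/-- the explicit graph solves the slice system. -/
theorem truth_slice (hp : 2 ≤ p) (n : Nums p r) (w e : ℤ × ℤ) (l t : ℤ × ℤ → ℤ)
    (hv : ∀ v, v = l v • e + t v • w) (hl : ∀ a b : ℤ, l (a • e + b • w) = a)
    (ht : ∀ a b : ℤ, t (a • e + b • w) = b) (rigid : Prop)
    (lam : ℤ → S) (h o : ℤ → ℤ) (ho : rigid → ∀ m, o m = 0) :
    ∃ (Y : ℤ × ℤ → ZMod p → ZMod (p ^ 3)) (z : ℤ × ℤ → ZMod p → ∀ a, ZMod (r a)),
      SliceSol n w e rigid Y z ∧
      ∀ v (s : S) ρ ρ', z v ρ (some s) ≠ z v ρ' (some s) →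
        lam (l v) = s ∧ (t v : ZMod (r (some s))) ≠ h (l v) ∧
          ∃ j : ℤ, j ≠ 0 ∧ |j| < p ∧ (t v : ZMod (p ^ 2)) = o (l v) + j := by
  have hne : NeZero p := ⟨by omega⟩
  refine ⟨Times.Y (tD (p := p) w e l t hv hl ht lam h o),
    Times.z r (tD (p := p) w e l t hv hl ht lam h o), ?_, ?_⟩
  · exact
      { base := t_base2 p w e l t hv hl ht lam h o r hp n
        rig := fun hr v ρ => t_trans p w e l t hv hl ht lam h o (ho hr) v ρ
        cX := fun v c => t_X p w e l t hv hl ht lam h o r n v c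
        c5 := fun a v ρ => t_c5 p w e l t hv hl ht lam h o r a v ρ
        c6 := fun s v ρ => t_c6 p w e l t hv hl ht lam h o r n (some s) v ρ
        c9a := fun s v ρ => t_c9a p w e l t hv hl ht lam h o r n s v ρ
        c9b := fun v ρ => t_c9b p w e l t hv hl ht lam h o r n v ρ }
  · intro v s ρ ρ' hz
    exact t_bad p w e l t hv hl ht lam h o r hp hz

/-- a graph over the roles is a transversal of the fibre tile. -/
theorem transv_gr [NeZero p] [Fintype S] [∀ a, NeZero (r a)]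
    {Y : ℤ × ℤ → ZMod p → ZMod (p ^ 3)} {z : ℤ × ℤ → ZMod p → ∀ a, ZMod (r a)}
    (hY : ∀ v ρ, r31 p (Y v ρ) = ρ) :
    Transv (fT p r) (Tiles.gr Y z : Set ((ℤ × ℤ) × Fib p r)) := by
  rw [transv_iff]
  intro b ρ
  refine ⟨(Y b ρ, z b ρ), ⟨⟨ρ, rfl, rfl⟩, hY b ρ⟩, ?_⟩
  rintro ⟨y, x⟩ ⟨⟨ρ', h1, h2⟩, h3⟩
  simp only at h1 h2 h3
  have : ρ' = ρ := by rw [← hY b ρ', ← h1, h3]
  subst this
  rw [h1, h2]

omit [DecidableEq S] in
/-- badness of a graph. -/
theorem bad_gr {Y : ℤ × ℤ → ZMod p → ZMod (p ^ 3)} {z : ℤ × ℤ → ZMod p → ∀ a, ZMod (r a)}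
    {a : Option S} {v : ℤ × ℤ} :
    Bad (Tiles.gr Y z : Set ((ℤ × ℤ) × Fib p r)) a v ↔ ∃ ρ ρ', z v ρ a ≠ z v ρ' a := by
  constructor
  · rintro ⟨g, g', ⟨ρ, h1, h2⟩, ⟨ρ', h3, h4⟩, hne⟩
    refine ⟨ρ, ρ', ?_⟩
    have e1 : g.2 = z v ρ := h2
    have e2 : g'.2 = z v ρ' := h4
    rw [e1, e2] at hne
    exact hne
  · rintro ⟨ρ, ρ', hne⟩
    exact ⟨(Y v ρ, z v ρ), (Y v ρ', z v ρ'), ⟨ρ, rfl, rfl⟩, ⟨ρ', rfl, rfl⟩, hne⟩

/-- **TRUTH of a component**, in terms of `gr`, `Transv`, `Bad`. -/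
theorem truth [Fintype S] [NeZero p] [∀ a, NeZero (r a)] (hp : 2 ≤ p) (n : Nums p r)
    (w e : ℤ × ℤ) (l t : ℤ × ℤ → ℤ)
    (hv : ∀ v, v = l v • e + t v • w) (hl : ∀ a b : ℤ, l (a • e + b • w) = a)
    (ht : ∀ a b : ℤ, t (a • e + b • w) = b) (rigid : Prop)
    (lam : ℤ → S) (h o : ℤ → ℤ) (ho : rigid → ∀ m, o m = 0) :
    ∃ (Y : ℤ × ℤ → ZMod p → ZMod (p ^ 3)) (z : ℤ × ℤ → ZMod p → ∀ a, ZMod (r a)),
      SliceSol n w e rigid Y z ∧
      Transv (fT p r) (Tiles.gr Y z : Set ((ℤ × ℤ) × Fib p r)) ∧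
      ∀ v (s : S), Bad (Tiles.gr Y z : Set ((ℤ × ℤ) × Fib p r)) (some s) v →
        lam (l v) = s ∧ (t v : ZMod (r (some s))) ≠ h (l v) ∧
          ∃ j : ℤ, j ≠ 0 ∧ |j| < p ∧ (t v : ZMod (p ^ 2)) = o (l v) + j := by
  obtain ⟨Y, z, h1, h2⟩ := truth_slice hp n w e l t hv hl ht rigid lam h o ho
  refine ⟨Y, z, h1, transv_gr h1.base.role, ?_⟩
  intro v s hb
  obtain ⟨ρ, ρ', hz⟩ := bad_gr.1 hb
  exact h2 v s ρ ρ' hz

end Crest.Agent.R046.Truth
end

-- ▼ part R046/Comp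

/-!
Row 46: the component theorem.
-/

set_option autoImplicit false

namespace Crest.Agent.R046.Comp

open Crest.CombinatoricsR.Tiling
open Crest.Agent.R046.CompSys

/-- **The component theorem.** -/
theorem comp {p : ℕ} [NeZero p] (hp : 2 ≤ p) {S : Type} [Fintype S] [DecidableEq S] [Nonempty S]
    (r : Option S → ℕ) [∀ a, NeZero (r a)] (hr : ∀ a, 3 ≤ r a)
    (hrr : Pairwise fun a b => Nat.Coprime (r a) (r b)) (hpr : ∀ a, Nat.Coprime p (r a))
    (w e : ℤ × ℤ) (l t : ℤ × ℤ → ℤ) (hv : ∀ v, v = l v • e + t v • w)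
    (hl : ∀ a b : ℤ, l (a • e + b • w) = a) (ht : ∀ a b : ℤ, t (a • e + b • w) = b)
    (rigid : Prop) :
    ∃ C : Set (Finset ((ℤ × ℤ) × Fib p r)), C.Finite ∧
      (∀ A, (∀ F ∈ C, IsTilingBy F A) → Transv (fT p r) A ∧
        ∃ τ : ℤ → ℤ, (rigid → ∀ n, τ n = τ 0) ∧ ∀ n, ∃ (s : S) (h : ℤ), ∀ v, l v = n →
          ((t v : ℤ) : ZMod (p ^ 2)) = τ n → ((t v : ℤ) : ZMod (r (some s))) ≠ h →
            Bad A (some s) v) ∧
      (∀ (lam : ℤ → S) (h o : ℤ → ℤ), (rigid → ∀ n, o n = 0) →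
        ∃ A, Transv (fT p r) A ∧ (∀ F ∈ C, IsTilingBy F A) ∧
          ∀ v s, Bad A (some s) v → lam (l v) = s ∧
            ((t v : ℤ) : ZMod (r (some s))) ≠ h (l v) ∧
            ∃ j : ℤ, j ≠ 0 ∧ |j| < p ∧ ((t v : ℤ) : ZMod (p ^ 2)) = o (l v) + j) := by
  have hw : w ≠ 0 := by
    rintro rfl
    have h1 := ht 0 0
    have h2 := ht 0 1
    simp only [smul_zero] at h1 h2
    rw [h1] at h2
    exact absurd h2 (by norm_num)
  have he : e ≠ 0 := by
    rintro rfl
    have h1 := hl 0 0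
    have h2 := hl 1 0
    simp only [smul_zero] at h1 h2
    rw [h1] at h2
    exact absurd h2 (by norm_num)
  obtain ⟨n⟩ := exists_nums p r hpr (fun a b hab => hrr hab)
  refine ⟨compSys n w e rigid, ?_⟩
  exact comp_of hp (fun a => by have := hr a; omega) hpr n w e l t hv rigid _
    (compSys_finite n w e rigid) (fun A => compSys_iff hp hr hpr hw he n rigid)
    (fun lam h o ho => by
      obtain ⟨Y, z, h1, _, h3⟩ := Truth.truth hp n w e l t hv hl ht rigid lam h o ho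
      exact ⟨Y, z, h1, h3⟩)

end Crest.Agent.R046.Comp
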